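import Vale.Agent.P201.Z.PC

/-!
P201, part D: D0 (d) (a rooted dual spanning tree leaves a spanning tree), walks and `ZMod 2`-chains
(helper747).
-/

namespace Vale.Agent.P201.Z.Bnd

open Finset

section darts

variable {E : Type}

theorem rv_rv (d : E × Bool) : rv (rv d) = d := by
  obtain ⟨e, b⟩ := d
  simp [rv]

theorem rv_fst (d : E × Bool) : (rv d).1 = d.1 := rfl

theorem rv_ne (d : E × Bool) : rv d ≠ d := by
  obtain ⟨e, b⟩ := d
  cases b <;> simp [rv]

theorem eq_or_rv {d d' : E × Bool} (h : d.1 = d'.1) : d = d' ∨ d = rv d' := by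
  obtain ⟨e, b⟩ := d
  obtain ⟨e', b'⟩ := d'
  simp only at h
  subst h
  cases b <;> cases b' <;> simp [rv]

end darts

/-- levels of a reachability relation -/
def lev {α : Type} (R : α → α → Prop) (root : α) : ℕ → α → Prop
  | 0, x => x = root
  | n + 1, x => ∃ y, lev R root n y ∧ R y x

/-- ranks for a reachability relation -/
theorem exists_rank {α : Type} (R : α → α → Prop) (root : α) :
    ∃ rk : α → ℕ, ∀ x, Relation.ReflTransGen R root x → x ≠ root →
      ∃ y, Relation.ReflTransGen R root y ∧ R y x ∧ rk y < rk x := by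
  classical
  have h1 : ∀ x, Relation.ReflTransGen R root x → ∃ n, lev R root n x := by
    intro x hx
    induction hx with
    | refl => exact ⟨0, rfl⟩
    | tail _ hR ih =>
      obtain ⟨n, hn⟩ := ih
      exact ⟨n + 1, _, hn, hR⟩
  have h2 : ∀ n x, lev R root n x → Relation.ReflTransGen R root x := by
    intro n
    induction n with
    | zero => intro x hx; rw [show x = root from hx]
    | succ n ih =>
      intro x hx
      obtain ⟨y, hy, hR⟩ := hx
      exact (ih y hy).tail hR
  refine ⟨fun x => if h : ∃ n, lev R root n x then Nat.find h else 0, fun x hx hne => ?_⟩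
  have hex := h1 x hx
  have hsp := Nat.find_spec hex
  obtain ⟨k, hk⟩ : ∃ k, Nat.find hex = k + 1 := by
    refine ⟨Nat.find hex - 1, ?_⟩
    have : Nat.find hex ≠ 0 := fun h0 => hne (by rw [h0] at hsp; exact hsp)
    omega
  rw [hk] at hsp
  obtain ⟨y, hy, hR⟩ := hsp
  refine ⟨y, h2 k y hy, hR, ?_⟩
  have hey : ∃ n, lev R root n y := ⟨k, hy⟩
  simp only [dif_pos hex, dif_pos hey]
  have := Nat.find_min' hey hy
  omega

variable {A : Type} {K : PC A}

/-! ### faces of darts -/

theorem ex_face (K : PC A) (d : K.E × Bool) : ∃ f, d ∈ K.bd f := by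
  by_contra h
  push Not at h
  have h1 := K.once d
  rw [Finset.sum_eq_zero (fun f _ => List.count_eq_zero.2 (h f))] at h1
  exact zero_ne_one h1

theorem face_unique {d : K.E × Bool} {f g : Option K.F} (h : d ∈ K.bd f) (h' : d ∈ K.bd g) :
    f = g := by
  by_contra hne
  have h1 := K.once d
  have h2 : (K.bd f).count d + (K.bd g).count d ≤ ∑ f, (K.bd f).count d := by
    rw [← Finset.sum_pair (f := fun f => (K.bd f).count d) hne]
    exact Finset.sum_le_sum_of_subset (Finset.subset_univ _)
  have h3 := List.count_pos_iff.2 h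
  have h4 := List.count_pos_iff.2 h'
  omega

theorem count_one {d : K.E × Bool} {f : Option K.F} (h : d ∈ K.bd f) : (K.bd f).count d = 1 := by
  have h1 := K.once d
  have h2 : (K.bd f).count d ≤ ∑ f, (K.bd f).count d :=
    Finset.single_le_sum (f := fun f => (K.bd f).count d) (fun _ _ => Nat.zero_le _)
      (Finset.mem_univ f)
  have h3 := List.count_pos_iff.2 h
  omega

/-! ### walks -/

/-- `l` is a walk from `a` to `b` -/
def Wk (K : PC A) : List (K.E × Bool) → K.V → K.V → Prop
  | [], a, b => a = b
  | d :: l, a, b => K.org d = a ∧ Wk K l (K.org (rv d)) b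

theorem wk_nil {a b : K.V} : Wk K [] a b ↔ a = b := Iff.rfl

theorem wk_cons {d : K.E × Bool} {l : List (K.E × Bool)} {a b : K.V} :
    Wk K (d :: l) a b ↔ K.org d = a ∧ Wk K l (K.org (rv d)) b := Iff.rfl

theorem wk_append {l1 l2 : List (K.E × Bool)} {a c : K.V} :
    Wk K (l1 ++ l2) a c ↔ ∃ b, Wk K l1 a b ∧ Wk K l2 b c := by
  induction l1 generalizing a with
  | nil =>
    simp only [List.nil_append, wk_nil]
    exact ⟨fun h => ⟨a, rfl, h⟩, fun ⟨b, hb, h⟩ => hb ▸ h⟩
  | cons d l1 ih =>
    rw [List.cons_append, wk_cons, ih]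
    constructor
    · rintro ⟨h, b, h1, h2⟩
      exact ⟨b, wk_cons.2 ⟨h, h1⟩, h2⟩
    · rintro ⟨b, h1, h2⟩
      obtain ⟨h, h1⟩ := wk_cons.1 h1
      exact ⟨h, b, h1, h2⟩

theorem wk_of_chain {l : List (K.E × Bool)}
    (hc : l.IsChain (fun a b => K.org b = K.org (rv a))) {d z : K.E × Bool}
    (hd : d ∈ l.head?) (hz : z ∈ l.getLast?) : Wk K l (K.org d) (K.org (rv z)) := by
  induction l generalizing d with
  | nil => simp at hd
  | cons x l ih =>
    simp only [List.head?_cons, Option.mem_def, Option.some.injEq] at hd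
    subst hd
    rw [wk_cons]
    refine ⟨rfl, ?_⟩
    cases l with
    | nil =>
      simp only [List.getLast?_singleton, Option.mem_def, Option.some.injEq] at hz
      subst hz
      exact wk_nil.2 rfl
    | cons y l =>
      rw [List.isChain_cons_cons] at hc
      rw [← hc.1]
      refine ih hc.2 (by simp) ?_
      rwa [List.getLast?_cons_cons] at hz

theorem bd_wk (K : PC A) (f : Option K.F) (h : K.bd f ≠ []) : ∃ a, Wk K (K.bd f) a a := by
  have hd : (K.bd f).head h ∈ (K.bd f).head? := by
    rw [List.head?_eq_some_head h]; rfl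
  have hz : (K.bd f).getLast h ∈ (K.bd f).getLast? := by
    rw [List.getLast?_eq_some_getLast h]; rfl
  have h1 := wk_of_chain (K.chain f) hd hz
  rw [← K.closed f _ hz _ hd] at h1
  exact ⟨_, h1⟩

/-- a walk can be shortened to one without repeated edges -/
theorem exists_nodup {l : List (K.E × Bool)} {a b : K.V} (h : Wk K l a b) :
    ∃ l', Wk K l' a b ∧ (l'.map Prod.fst).Nodup ∧ ∀ d ∈ l', d ∈ l := by
  induction l generalizing a with
  | nil => exact ⟨[], h, by simp, by simp⟩
  | cons x l ih =>
    obtain ⟨hx, h⟩ := wk_cons.1 h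
    obtain ⟨l', h1, h2, h3⟩ := ih h
    by_cases hm : x.1 ∈ l'.map Prod.fst
    · rw [List.mem_map] at hm
      obtain ⟨y, hy, hyx⟩ := hm
      obtain ⟨u, w, rfl⟩ := List.append_of_mem hy
      obtain ⟨c, -, hc⟩ := wk_append.1 h1
      obtain ⟨hyc, hw⟩ := wk_cons.1 hc
      rw [List.map_append] at h2
      have h4 := (List.nodup_append.1 h2).2.1
      rcases eq_or_rv hyx with rfl | rfl
      · refine ⟨y :: w, wk_cons.2 ⟨hx, hw⟩, h4, fun d hd => ?_⟩
        exact List.mem_cons_of_mem _ (h3 d (by simp only [List.mem_append]; exact Or.inr hd))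
      · rw [rv_rv, hx] at hw
        rw [List.map_cons, List.nodup_cons] at h4
        exact ⟨w, hw, h4.2, fun d hd => List.mem_cons_of_mem _ (h3 d (by
          simp only [List.mem_append, List.mem_cons]; exact Or.inr (Or.inr hd)))⟩
    · refine ⟨x :: l', wk_cons.2 ⟨hx, h1⟩, ?_, ?_⟩
      · rw [List.map_cons, List.nodup_cons]; exact ⟨hm, h2⟩
      · intro d hd
        rcases List.mem_cons.1 hd with rfl | hd
        · exact List.mem_cons_self
        · exact List.mem_cons_of_mem _ (h3 d hd)

/-! ### chains modulo two -/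

/-- chain of a list of darts -/
def ch (l : List (K.E × Bool)) (e : K.E) : ZMod 2 :=
  (l.map (fun d => if d.1 = e then (1 : ZMod 2) else 0)).sum

/-- boundary -/
def bnd (m : K.E → ZMod 2) (v : K.V) : ZMod 2 := ∑ d : K.E × Bool, if K.org d = v then m d.1 else 0

theorem bnd_add (m m' : K.E → ZMod 2) (v : K.V) :
    bnd (fun e => m e + m' e) v = bnd m v + bnd m' v := by
  unfold bnd
  rw [← Finset.sum_add_distrib]
  refine Finset.sum_congr rfl fun d _ => ?_
  split_ifs <;> simp

theorem bnd_sum {ι : Type} (s : Finset ι) (m : ι → K.E → ZMod 2) (v : K.V) :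
    bnd (fun e => ∑ i ∈ s, m i e) v = ∑ i ∈ s, bnd (m i) v := by
  unfold bnd
  rw [Finset.sum_comm]
  refine Finset.sum_congr rfl fun d _ => ?_
  split_ifs <;> simp

theorem bnd_single (d : K.E × Bool) (v : K.V) :
    bnd (fun e => if d.1 = e then (1 : ZMod 2) else 0) v =
      (if K.org d = v then 1 else 0) + (if K.org (rv d) = v then 1 else 0) := by
  unfold bnd
  have h1 : ∀ x : K.E × Bool, (if K.org x = v then (if d.1 = x.1 then (1 : ZMod 2) else 0) else 0) =
      if x = d then (if K.org d = v then 1 else 0) else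
        if x = rv d then (if K.org (rv d) = v then 1 else 0) else 0 := by
    intro x
    by_cases hx : d.1 = x.1
    · rcases eq_or_rv hx.symm with rfl | rfl
      · simp
      · rw [if_neg (rv_ne d), if_pos rfl, if_pos (rv_fst d).symm]
    · have h2 : x ≠ d := fun h => hx (h ▸ rfl)
      have h3 : x ≠ rv d := fun h => hx (h ▸ rfl)
      simp [hx, h2, h3]
  rw [Finset.sum_congr rfl (fun x _ => h1 x)]
  have h2 : ∀ x : K.E × Bool, (if x = d then (if K.org d = v then (1 : ZMod 2) else 0) else
        if x = rv d then (if K.org (rv d) = v then 1 else 0) else 0) =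
      (if x = d then (if K.org d = v then (1 : ZMod 2) else 0) else 0) +
        (if x = rv d then (if K.org (rv d) = v then 1 else 0) else 0) := by
    intro x
    by_cases hx : x = d
    · subst hx
      simp [(rv_ne x).symm]
    · simp [hx]
  rw [Finset.sum_congr rfl (fun x _ => h2 x), Finset.sum_add_distrib, Finset.sum_ite_eq',
    Finset.sum_ite_eq']
  simp

theorem bnd_ch (l : List (K.E × Bool)) (v : K.V) :
    bnd (ch l) v = (l.map (fun d => if K.org d = v then (1 : ZMod 2) else 0)).sum +
      (l.map (fun d => if K.org (rv d) = v then (1 : ZMod 2) else 0)).sum := by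
  induction l with
  | nil => simp [bnd, ch]
  | cons d l ih =>
    have h1 : ch (d :: l) = fun e => (if d.1 = e then (1 : ZMod 2) else 0) + ch l e := by
      funext e; simp [ch]
    rw [h1, bnd_add, bnd_single, ih, List.map_cons, List.map_cons, List.sum_cons, List.sum_cons]
    ring

theorem sum_wk {l : List (K.E × Bool)} {a b : K.V} (h : Wk K l a b) (v : K.V) :
    (l.map (fun d => if K.org d = v then (1 : ZMod 2) else 0)).sum + (if b = v then 1 else 0) =
      (l.map (fun d => if K.org (rv d) = v then (1 : ZMod 2) else 0)).sum +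
        (if a = v then 1 else 0) := by
  induction l generalizing a with
  | nil =>
    rw [wk_nil] at h
    subst h
    simp
  | cons d l ih =>
    obtain ⟨rfl, h'⟩ := wk_cons.1 h
    have := ih h'
    rw [List.map_cons, List.map_cons, List.sum_cons, List.sum_cons, add_assoc, this]
    ring

theorem bnd_closed {l : List (K.E × Bool)} {a : K.V} (h : Wk K l a a) (v : K.V) :
    bnd (ch l) v = 0 := by
  have := sum_wk h v
  rw [bnd_ch, add_right_cancel this]
  exact CharTwo.add_self_eq_zero _

theorem bnd_bd (K : PC A) (f : Option K.F) (v : K.V) : bnd (ch (K.bd f)) v = 0 := by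
  by_cases h : K.bd f = []
  · rw [h]; simp [bnd, ch]
  · obtain ⟨a, ha⟩ := bd_wk K f h
    exact bnd_closed ha v

/-- chain of a face -/
theorem ch_bd (K : PC A) (f : Option K.F) (e : K.E) :
    ch (K.bd f) e = (if (e, true) ∈ K.bd f then 1 else 0) + (if (e, false) ∈ K.bd f then 1 else 0) := by
  classical
  have h1 : ∀ l : List (K.E × Bool), ch l e = ((l.count (e, true) : ℕ) : ZMod 2) +
      ((l.count (e, false) : ℕ) : ZMod 2) := by
    intro l
    induction l with
    | nil => simp [ch]
    | cons d l ih =>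
      have h2 : ch (d :: l) e = (if d.1 = e then (1 : ZMod 2) else 0) + ch l e := by simp [ch]
      rw [h2, ih, List.count_cons, List.count_cons]
      obtain ⟨x, b⟩ := d
      by_cases hx : x = e
      · subst hx
        cases b
        · simp; ring
        · simp; ring
      · simp [hx]
  rw [h1]
  congr 1
  · by_cases h : (e, true) ∈ K.bd f
    · rw [if_pos h, count_one h]; simp
    · rw [if_neg h, List.count_eq_zero.2 h]; simp
  · by_cases h : (e, false) ∈ K.bd f
    · rw [if_pos h, count_one h]; simp
    · rw [if_neg h, List.count_eq_zero.2 h]; simp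

/-- (a) the boundary of a set of faces is a cycle -/
theorem bnd_faces (K : PC A) (C : Finset K.F) (v : K.V) :
    bnd (fun e => ∑ f ∈ C, ch (K.bd (some f)) e) v = 0 := by
  rw [bnd_sum]
  exact Finset.sum_eq_zero fun f _ => bnd_bd K _ v

/-- the chain of a set of faces at an edge -/
theorem ch_faces (K : PC A) (C : Finset K.F) (e : K.E) :
    ∑ f ∈ C, ch (K.bd (some f)) e = if e ∈ K.bdry C then 1 else 0 := by
  classical
  have h1 : ∀ b, ∑ f ∈ C, (if (e, b) ∈ K.bd (some f) then (1 : ZMod 2) else 0) =
      if ∃ f ∈ C, (e, b) ∈ K.bd (some f) then 1 else 0 := by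
    intro b
    by_cases h : ∃ f ∈ C, (e, b) ∈ K.bd (some f)
    · rw [if_pos h]
      obtain ⟨f, hf, hb⟩ := h
      rw [Finset.sum_eq_single_of_mem f hf, if_pos hb]
      intro g _ hg
      rw [if_neg]
      intro hgb
      exact hg (Option.some.inj (face_unique hgb hb))
    · rw [if_neg h]
      refine Finset.sum_eq_zero fun f hf => ?_
      rw [if_neg]
      exact fun hb => h ⟨f, hf, hb⟩
  rw [Finset.sum_congr rfl (fun f _ => ch_bd K (some f) e), Finset.sum_add_distrib, h1, h1]
  have h2 : e ∈ K.bdry C ↔ ¬ ((∃ f ∈ C, (e, true) ∈ K.bd (some f)) ↔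
      (∃ f ∈ C, (e, false) ∈ K.bd (some f))) := by
    unfold PC.bdry
    simp
  by_cases h3 : ∃ f ∈ C, (e, true) ∈ K.bd (some f)
  · by_cases h4 : ∃ f ∈ C, (e, false) ∈ K.bd (some f)
    · rw [if_pos h3, if_pos h4, if_neg]
      · exact CharTwo.add_self_eq_zero _
      · rw [h2]; exact not_not.2 (iff_of_true h3 h4)
    · rw [if_pos h3, if_neg h4, if_pos]
      · simp
      · rw [h2]; exact fun h => h4 (h.1 h3)
  · by_cases h4 : ∃ f ∈ C, (e, false) ∈ K.bd (some f)
    · rw [if_neg h3, if_pos h4, if_pos]
      · simp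
      · rw [h2]; exact fun h => h3 (h.2 h4)
    · rw [if_neg h3, if_neg h4, if_neg]
      · simp
      · rw [h2]; exact not_not.2 (iff_of_false h3 h4)

/-- (b) a cycle supported in a tree is zero -/
theorem tree_zero (T : K.STree) {m : K.E → ZMod 2} (h0 : ∀ e, ¬ T.Ed e → m e = 0)
    (hb : ∀ v, bnd m v = 0) (e : K.E) : m e = 0 := by
  classical
  by_contra hne
  have hex : ∃ n, ∃ v d, T.pd v = some d ∧ m d.1 ≠ 0 ∧ n = T.hgt v := by
    by_contra h
    push Not at h
    by_cases hE : T.Ed e
    · obtain ⟨v, d, hd, rfl⟩ := hE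
      exact h _ v d hd hne rfl
    · exact hne (h0 e hE)
  -- choose the vertex of maximal height
  have hfin : ((univ : Finset K.V).filter (fun v => ∃ d, T.pd v = some d ∧ m d.1 ≠ 0)).Nonempty := by
    obtain ⟨n, v, d, h1, h2, -⟩ := hex
    exact ⟨v, by simp only [Finset.mem_filter, Finset.mem_univ, true_and]; exact ⟨d, h1, h2⟩⟩
  obtain ⟨v, hv, hmax⟩ := Finset.exists_max_image _ T.hgt hfin
  simp only [Finset.mem_filter, Finset.mem_univ, true_and] at hv hmax
  obtain ⟨d, hd, hmd⟩ := hv
  have horg := T.or v d hd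
  apply hmd
  rw [← hb v]
  unfold bnd
  rw [Finset.sum_eq_single d]
  · rw [if_pos horg]
  · intro x _ hxd
    by_cases hx : K.org x = v
    · rw [if_pos hx]
      by_contra hmx
      have hE : T.Ed x.1 := by
        by_contra hE
        exact hmx (h0 _ hE)
      obtain ⟨w, y, hy, hyx⟩ := hE
      rcases eq_or_rv hyx with rfl | rfl
      · have : w = v := by rw [← T.or w y hy, hx]
        subst this
        rw [hd] at hy
        exact hxd (Option.some.inj hy).symm
      · have h1 := T.dec w _ hy
        rw [rv_rv, hx] at h1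
        have h2 := hmax w ⟨_, hy, hmx⟩
        omega
    · rw [if_neg hx]
  · intro h; exact absurd (Finset.mem_univ d) h

/-! ### rooted dual trees -/

/-- rooted dual spanning tree -/
structure DT (K : PC A) where
  par : K.F → Option K.F
  dd : K.F → K.E × Bool
  rank : K.F → ℕ
  mem : ∀ f, dd f ∈ K.bd (some f)
  memr : ∀ f, rv (dd f) ∈ K.bd (par f)
  dec : ∀ f g, par f = some g → rank g < rank f

theorem DT.inj (D : DT K) {f g : K.F} (h : (D.dd f).1 = (D.dd g).1) : f = g := by
  rcases eq_or_rv h with h | h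
  · have h1 := D.mem f
    rw [h] at h1
    exact Option.some.inj (face_unique h1 (D.mem g))
  · exfalso
    have h1 := D.mem f
    rw [h] at h1
    have h2 : D.par g = some f := (face_unique h1 (D.memr g)).symm
    have h3 := D.mem g
    have h4 : rv (D.dd f) = D.dd g := by rw [h, rv_rv]
    have h5 := D.memr f
    rw [h4] at h5
    have h6 : D.par f = some g := (face_unique h3 h5).symm
    have h7 := D.dec _ _ h2
    have h8 := D.dec _ _ h6
    omega

/-- step of the graph without the dual tree edges -/
def St (D : DT K) (a b : K.V) : Prop :=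
  ∃ d : K.E × Bool, (∀ f, (D.dd f).1 ≠ d.1) ∧ K.org d = a ∧ K.org (rv d) = b

theorem St.symm {D : DT K} {a b : K.V} (h : St D a b) : St D b a := by
  obtain ⟨d, h1, h2, h3⟩ := h
  exact ⟨rv d, h1, h3, by rw [rv_rv]; exact h2⟩

theorem st_symm {D : DT K} {a b : K.V} (h : Relation.ReflTransGen (St D) a b) :
    Relation.ReflTransGen (St D) b a := by
  induction h with
  | refl => exact Relation.ReflTransGen.refl
  | tail _ h ih => exact Relation.ReflTransGen.head h.symm ih

theorem wk_conn {D : DT K} {l : List (K.E × Bool)} {a b : K.V} (h : Wk K l a b)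
    (hl : ∀ d ∈ l, Relation.ReflTransGen (St D) (K.org d) (K.org (rv d))) :
    Relation.ReflTransGen (St D) a b := by
  induction l generalizing a with
  | nil => rw [wk_nil.1 h]
  | cons d l ih =>
    obtain ⟨rfl, h'⟩ := wk_cons.1 h
    exact (hl d List.mem_cons_self).trans (ih h' fun x hx => hl x (List.mem_cons_of_mem _ hx))

/-- the two ends of a dual tree edge are joined by other edges -/
theorem dd_conn (D : DT K) (f : K.F) :
    Relation.ReflTransGen (St D) (K.org (D.dd f)) (K.org (rv (D.dd f))) := by
  classical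
  obtain ⟨N, hN⟩ : ∃ N, ∀ g, D.rank g ≤ N :=
    ⟨∑ g, D.rank g, fun g => Finset.single_le_sum (f := D.rank) (fun _ _ => Nat.zero_le _)
      (Finset.mem_univ g)⟩
  obtain ⟨n, hn⟩ : ∃ n, N - D.rank f = n := ⟨_, rfl⟩
  induction n using Nat.strong_induction_on generalizing f with
  | _ n ih =>
  obtain ⟨l1, l2, hl⟩ := List.append_of_mem (D.mem f)
  obtain ⟨a, ha⟩ := bd_wk K (some f) (K.ne f)
  rw [hl] at ha
  obtain ⟨b, hb, hc⟩ := wk_append.1 ha
  obtain ⟨rfl, hc'⟩ := wk_cons.1 hc
  have hw : Wk K (l2 ++ l1) (K.org (rv (D.dd f))) (K.org (D.dd f)) := wk_append.2 ⟨a, hc', hb⟩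
  refine st_symm (wk_conn hw fun d hd => ?_)
  have hcount := count_one (D.mem f)
  rw [hl, List.count_append, List.count_cons_self] at hcount
  have hdn : d ≠ D.dd f := by
    rintro rfl
    rcases List.mem_append.1 hd with h | h
    · have := List.count_pos_iff.2 h; omega
    · have := List.count_pos_iff.2 h; omega
  have hdm : d ∈ K.bd (some f) := by
    rw [hl]
    rcases List.mem_append.1 hd with h | h
    · exact List.mem_append_right _ (List.mem_cons_of_mem _ h)
    · exact List.mem_append_left _ h
  by_cases hE : ∀ g, (D.dd g).1 ≠ d.1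
  · exact Relation.ReflTransGen.single ⟨d, hE, rfl, rfl⟩
  · push Not at hE
    obtain ⟨g, hg⟩ := hE
    rcases eq_or_rv hg with h | h
    · exfalso
      have h1 := D.mem g
      rw [h] at h1
      have h2 : g = f := Option.some.inj (face_unique h1 hdm)
      subst h2
      exact hdn h.symm
    · have h1 : rv (D.dd g) = d := by rw [h, rv_rv]
      have h2 := D.memr g
      rw [h1] at h2
      have h3 : D.par g = some f := face_unique h2 hdm
      have h4 := D.dec g f h3
      have h5 := ih (N - D.rank g) (by have := hN g; omega) g rfl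
      rw [← h1, rv_rv]
      exact st_symm h5

theorem st_conn (D : DT K) (u v : K.V) : Relation.ReflTransGen (St D) u v := by
  have h := K.conn u v
  induction h with
  | refl => exact Relation.ReflTransGen.refl
  | tail _ h ih =>
    refine ih.trans ?_
    obtain ⟨d, rfl, rfl⟩ := h
    by_cases hE : ∀ g, (D.dd g).1 ≠ d.1
    · exact Relation.ReflTransGen.single ⟨d, hE, rfl, rfl⟩
    · push Not at hE
      obtain ⟨g, hg⟩ := hE
      rcases eq_or_rv hg with rfl | h
      · exact dd_conn D g
      · have h1 : rv (D.dd g) = d := by rw [h, rv_rv]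
        rw [← h1, rv_rv]
        exact st_symm (dd_conn D g)

open Classical in
/-- a spanning tree in the complement of the dual tree; it contains all other edges -/
theorem exists_stree (D : DT K) (root : K.V) :
    ∃ T : K.STree, T.root = root ∧ ∀ e, T.Ed e ↔ ∀ f, (D.dd f).1 ≠ e := by
  obtain ⟨rk, hrk⟩ := exists_rank (St D) root
  have h1 : ∀ v, v ≠ root → ∃ d : K.E × Bool, (∀ f, (D.dd f).1 ≠ d.1) ∧ K.org d = v ∧
      rk (K.org (rv d)) < rk v := by
    intro v hv
    obtain ⟨y, -, ⟨d, h1, h2, h3⟩, h4⟩ := hrk v (st_conn D root v) hv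
    exact ⟨rv d, h1, h3, by rw [rv_rv, h2]; exact h4⟩
  choose g hg1 hg2 hg3 using h1
  let T : K.STree :=
    { pd := fun v => if h : v = root then none else some (g v h)
      hgt := rk
      root := root
      rt := fun v => by
        by_cases h : v = root <;> simp [h]
      or := fun v d h => by
        by_cases hv : v = root
        · simp [hv] at h
        · simp only [dif_neg hv, Option.some.injEq] at h
          rw [← h]; exact hg2 v hv
      dec := fun v d h => by
        by_cases hv : v = root
        · simp [hv] at h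
        · simp only [dif_neg hv, Option.some.injEq] at h
          rw [← h]; exact hg3 v hv }
  have hT : ∀ v (hv : v ≠ root), T.pd v = some (g v hv) := by
    intro v hv
    simp [T, hv]
  refine ⟨T, rfl, ?_⟩
  let G : {v : K.V // v ≠ root} → K.E := fun v => (g v.1 v.2).1
  have hinj : Function.Injective G := by
    rintro ⟨v, hv⟩ ⟨w, hw⟩ h
    rw [Subtype.mk.injEq]
    rcases eq_or_rv h with h | h
    · rw [← hg2 v hv, ← hg2 w hw, h]
    · exfalso
      have h2 := hg3 v hv
      have h3 := hg3 w hw
      have h4 : rv (g w hw) = g v hv := h.symm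
      have h5 : rv (g v hv) = g w hw := by rw [← h4, rv_rv]
      rw [h5, hg2 w hw] at h2
      rw [h4, hg2 v hv] at h3
      omega
  have hsub : univ.image G ⊆ univ.filter (fun e => ∀ f, (D.dd f).1 ≠ e) := by
    intro e he
    rw [Finset.mem_image] at he
    obtain ⟨v, -, rfl⟩ := he
    simp only [Finset.mem_filter, Finset.mem_univ, true_and]
    exact hg1 v.1 v.2
  have hcard1 : (univ.image G).card = Fintype.card K.V - 1 := by
    rw [Finset.card_image_of_injective _ hinj, Finset.card_univ,
      Fintype.card_of_subtype (univ.erase root) (by simp),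
      Finset.card_erase_of_mem (Finset.mem_univ _), Finset.card_univ]
  have hcard2 : (univ.filter (fun e => ∀ f, (D.dd f).1 ≠ e)).card + Fintype.card K.F =
      Fintype.card K.E := by
    have h2 : (univ.image (fun f => (D.dd f).1)).card = Fintype.card K.F := by
      rw [Finset.card_image_of_injective _ (fun f g h => D.inj h), Finset.card_univ]
    rw [← h2, ← Finset.card_univ, ← Finset.card_filter_add_card_filter_not
      (s := (univ : Finset K.E)) (p := fun e => ∀ f, (D.dd f).1 ≠ e)]
    congr 2
    ext e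
    simp
  have hV : 0 < Fintype.card K.V := Fintype.card_pos_iff.2 ⟨root⟩
  have heq : univ.image G = univ.filter (fun e => ∀ f, (D.dd f).1 ≠ e) := by
    refine Finset.eq_of_subset_of_card_le hsub ?_
    have := K.euler
    omega
  intro e
  constructor
  · rintro ⟨v, d, h, rfl⟩
    have hv : v ≠ root := by
      intro hv
      rw [(T.rt v).2 hv] at h
      cases h
    rw [hT v hv, Option.some.injEq] at h
    rw [← h]
    exact hg1 v hv
  · intro he
    have : e ∈ univ.filter (fun e => ∀ f, (D.dd f).1 ≠ e) := by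
      simp only [Finset.mem_filter, Finset.mem_univ, true_and]
      exact he
    rw [← heq, Finset.mem_image] at this
    obtain ⟨v, -, rfl⟩ := this
    exact ⟨v.1, g v.1 v.2, hT v.1 v.2, rfl⟩

theorem lt_rv (K : PC A) (d : K.E × Bool) : K.lt (rv d) = (K.lt d)⁻¹ := by
  unfold PC.lt rv
  rw [FreeGroup.inv_mk]
  simp [FreeGroup.invRev]

open Classical in
/-- potentials with fuel -/
noncomputable def potN (T : K.STree) : ℕ → K.V → FreeGroup A
  | 0, _ => 1
  | n + 1, v => if h : (T.pd v).isSome then
      potN T n (K.org (rv ((T.pd v).get h))) * (K.lt ((T.pd v).get h))⁻¹ else 1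

theorem potN_none (T : K.STree) (n : ℕ) {v : K.V} (h : T.pd v = none) : potN T n v = 1 := by
  cases n with
  | zero => rfl
  | succ n => simp [potN, h]

theorem potN_some (T : K.STree) (n : ℕ) {v : K.V} {d : K.E × Bool} (h : T.pd v = some d) :
    potN T (n + 1) v = potN T n (K.org (rv d)) * (K.lt d)⁻¹ := by
  simp [potN, h]

theorem potN_stable (T : K.STree) (n : ℕ) : ∀ v, T.hgt v ≤ n → potN T n v = potN T (n + 1) v := by
  induction n with
  | zero =>
    intro v hv
    cases h : T.pd v with
    | none => rw [potN_none T _ h, potN_none T _ h]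
    | some d =>
      have := T.dec v d h
      omega
  | succ n ih =>
    intro v hv
    cases h : T.pd v with
    | none => rw [potN_none T _ h, potN_none T _ h]
    | some d =>
      have h1 := T.dec v d h
      rw [potN_some T _ h, potN_some T _ h, ih _ (by omega)]

/-- potentials of a tree -/
theorem exists_pot (T : K.STree) : ∃ pot : K.V → FreeGroup A, pot T.root = 1 ∧
    ∀ d : K.E × Bool, T.Ed d.1 → pot (K.org d) * K.lt d = pot (K.org (rv d)) := by
  obtain ⟨N, hN⟩ : ∃ N, ∀ v, T.hgt v ≤ N :=
    ⟨∑ v, T.hgt v, fun v => Finset.single_le_sum (f := T.hgt) (fun _ _ => Nat.zero_le _)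
      (Finset.mem_univ v)⟩
  have hkey : ∀ v d, T.pd v = some d →
      potN T (N + 1) v * K.lt d = potN T (N + 1) (K.org (rv d)) := by
    intro v d h
    rw [potN_some T _ h, ← potN_stable T N _ (hN _)]
    simp
  refine ⟨potN T (N + 1), potN_none T _ ((T.rt _).2 rfl), fun d hd => ?_⟩
  obtain ⟨v, x, hx, hxd⟩ := hd
  have horg := T.or v x hx
  rcases eq_or_rv hxd with rfl | h
  · rw [horg]; exact hkey v x hx
  · have h1 : rv x = d := by rw [h, rv_rv]
    have h2 := hkey v x hx
    rw [← h1, rv_rv, lt_rv, horg, ← h2]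
    simp

/-- a rooted dual tree gives a cotree together with its spanning tree -/
theorem exists_cotree (D : DT K) (root : K.V) :
    ∃ (C : K.Cotree) (T : K.STree), C.par = D.par ∧ C.dd = D.dd ∧ C.root = root ∧
      T.root = root ∧ ∀ e, T.Ed e ↔ ∀ f, (D.dd f).1 ≠ e := by
  obtain ⟨T, hT, hE⟩ := exists_stree D root
  obtain ⟨pot, h1, h2⟩ := exists_pot T
  let C : K.Cotree :=
    { par := D.par
      dd := D.dd
      rank := D.rank
      mem := D.mem
      memr := D.memr
      dec := D.dec
      root := root
      pot := pot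
      pot_root := by
        rw [← hT]
        exact h1
      triv := fun d hd => h2 d ((hE d.1).2 hd) }
  exact ⟨C, T, rfl, rfl, rfl, hT, hE⟩

end Vale.Agent.P201.Z.Bnd
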