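import Vale.Agent.P201.Z.D.BndA

/-!
P201, part D: `StmtBond` (helper747).
-/

namespace Vale.Agent.P201.Z.Bnd

open Finset

variable {A : Type} {K : PC A}

theorem mem_bdry {C : Finset K.F} (d : K.E × Bool) : d.1 ∈ K.bdry C ↔
    ¬ ((∃ f ∈ C, d ∈ K.bd (some f)) ↔ (∃ f ∈ C, rv d ∈ K.bd (some f))) := by
  classical
  obtain ⟨e, b⟩ := d
  have h2 : e ∈ K.bdry C ↔ ¬ ((∃ f ∈ C, (e, true) ∈ K.bd (some f)) ↔
      (∃ f ∈ C, (e, false) ∈ K.bd (some f))) := by
    unfold PC.bdry
    simp
  cases b
  · rw [h2]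
    simp only [rv, Bool.not_false]
    exact not_congr Iff.comm
  · rw [h2]
    simp only [rv, Bool.not_true]

theorem ch_nodup {l : List (K.E × Bool)} (h : (l.map Prod.fst).Nodup) (e : K.E) :
    ch l e = if e ∈ l.map Prod.fst then 1 else 0 := by
  classical
  induction l with
  | nil => simp [ch]
  | cons d l ih =>
    rw [List.map_cons, List.nodup_cons] at h
    have h2 : ch (d :: l) e = (if d.1 = e then (1 : ZMod 2) else 0) + ch l e := by simp [ch]
    rw [h2, ih h.2]
    by_cases hd : d.1 = e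
    · subst hd
      rw [if_pos rfl, if_neg h.1, if_pos (by simp), add_zero]
    · rw [if_neg hd, zero_add]
      by_cases hm : e ∈ l.map Prod.fst
      · rw [if_pos hm, if_pos (by rw [List.map_cons]; exact List.mem_cons_of_mem _ hm)]
      · rw [if_neg hm, if_neg]
        rw [List.map_cons, List.mem_cons]
        rintro (h | h)
        · exact hd h.symm
        · exact hm h

theorem exists_walk (D : DT K) {a b : K.V} (h : Relation.ReflTransGen (St D) a b) :
    ∃ l, Wk K l a b ∧ ∀ d ∈ l, ∀ f, (D.dd f).1 ≠ d.1 := by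
  induction h with
  | refl => exact ⟨[], wk_nil.2 rfl, by simp⟩
  | tail _ h ih =>
    obtain ⟨l, h1, h2⟩ := ih
    obtain ⟨d, h3, rfl, rfl⟩ := h
    refine ⟨l ++ [d], wk_append.2 ⟨_, h1, wk_cons.2 ⟨rfl, wk_nil.2 rfl⟩⟩, fun x hx => ?_⟩
    rcases List.mem_append.1 hx with hx | hx
    · exact h2 x hx
    · rw [List.mem_singleton] at hx
      rw [hx]; exact h3

theorem pot_walk (C : K.Cotree) {l : List (K.E × Bool)} {a b : K.V} (h : Wk K l a b)
    (hl : ∀ d ∈ l, ∀ f, (C.dd f).1 ≠ d.1) :
    C.pot a * FreeGroup.mk (l.map (fun d => (K.lab d.1, d.2))) = C.pot b := by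
  induction l generalizing a with
  | nil =>
    rw [wk_nil.1 h, List.map_nil, ← FreeGroup.one_eq_mk, mul_one]
  | cons d l ih =>
    obtain ⟨rfl, h'⟩ := wk_cons.1 h
    have h1 : FreeGroup.mk ((d :: l).map (fun d => (K.lab d.1, d.2))) =
        K.lt d * FreeGroup.mk (l.map (fun d => (K.lab d.1, d.2))) := by
      unfold PC.lt
      rw [FreeGroup.mul_mk]
      rfl
    rw [h1, ← mul_assoc, C.triv d (hl d List.mem_cons_self)]
    exact ih h' fun x hx => hl x (List.mem_cons_of_mem _ hx)

/-- a crossing dart -/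
theorem exists_cross (C : Finset K.F) (hne : C.Nonempty) :
    ∃ f ∈ C, ∃ g : Option K.F, (∀ x ∈ C, g ≠ some x) ∧ ∃ d, d ∈ K.bd (some f) ∧ rv d ∈ K.bd g := by
  obtain ⟨c, hc⟩ := hne
  have key : ∀ x : Option K.F,
      Relation.ReflTransGen (fun a b => ∃ d, d ∈ K.bd a ∧ rv d ∈ K.bd b) x none →
      (∃ y ∈ C, x = some y) →
      ∃ f ∈ C, ∃ g : Option K.F, (∀ x ∈ C, g ≠ some x) ∧
        ∃ d, d ∈ K.bd (some f) ∧ rv d ∈ K.bd g := by
    intro x hx
    induction hx using Relation.ReflTransGen.head_induction_on with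
    | refl => rintro ⟨y, -, hy⟩; cases hy
    | @head a b h _ ih =>
      rintro ⟨y, hy, rfl⟩
      obtain ⟨d, hd, hd'⟩ := h
      by_cases hb : ∃ z ∈ C, b = some z
      · exact ih hb
      · push Not at hb
        exact ⟨y, hy, b, hb, d, hd, hd'⟩
  exact key (some c) (K.dconn _ _) ⟨c, hc, rfl⟩

open Classical in
/-- the rooted dual tree adapted to a bond -/
theorem exists_dt {C : Finset K.F} (h : K.Bond C) : ∃ (D : DT K) (f0 : K.F), f0 ∈ C ∧
    (∀ f ∈ C, f ≠ f0 → ∃ g ∈ C, D.par f = some g ∧ D.rank g < D.rank f) ∧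
    (∀ f, f ∉ C ∨ f = f0 → ∀ x ∈ C, D.par f ≠ some x) := by
  obtain ⟨hne, hC, hN⟩ := h
  obtain ⟨f0, hf0, g0, hg0, d0, hd0, hd0'⟩ := exists_cross C hne
  obtain ⟨rkN, hrkN⟩ := exists_rank (fun a b : Option K.F => (∀ x ∈ C, b ≠ some x) ∧
    ∃ d, d ∈ K.bd a ∧ rv d ∈ K.bd b) none
  obtain ⟨rkC, hrkC⟩ := exists_rank (fun a b : K.F => b ∈ C ∧
    ∃ d, d ∈ K.bd (some a) ∧ rv d ∈ K.bd (some b)) f0
  have hall : ∀ f : K.F, ∃ (y : Option K.F) (e : K.E × Bool), e ∈ K.bd (some f) ∧ rv e ∈ K.bd y ∧
      (f ∉ C → (∀ x ∈ C, y ≠ some x) ∧ rkN y < rkN (some f)) ∧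
      (f ∈ C → f ≠ f0 → ∃ z ∈ C, y = some z ∧ rkC z < rkC f) ∧
      (f = f0 → ∀ x ∈ C, y ≠ some x) := by
    intro f
    by_cases hf : f ∈ C
    · by_cases hff : f = f0
      · subst hff
        exact ⟨g0, d0, hd0, hd0', fun h => absurd hf h, fun _ h => absurd rfl h, fun _ => hg0⟩
      · obtain ⟨y, hy, ⟨-, d, hd, hd'⟩, hlt⟩ := hrkC f (hC f0 hf0 f hf) hff
        have hyC : y ∈ C := by
          rcases Relation.ReflTransGen.cases_tail hy with rfl | ⟨z, -, hz, -⟩
          · exact hf0
          · exact hz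
        exact ⟨some y, rv d, hd', by rw [rv_rv]; exact hd, fun h => absurd hf h,
          fun _ _ => ⟨y, hyC, rfl, hlt⟩, fun h => absurd h hff⟩
    · obtain ⟨y, hy, ⟨-, d, hd, hd'⟩, hlt⟩ := hrkN (some f) (hN none (some f)
        (fun x _ h => by cases h) (fun x hx h => hf (by rw [Option.some.inj h]; exact hx)))
        (fun h => by cases h)
      have hyC : ∀ x ∈ C, y ≠ some x := by
        rcases Relation.ReflTransGen.cases_tail hy with rfl | ⟨z, -, hz, -⟩
        · intro x _ h; cases h
        · exact hz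
      exact ⟨y, rv d, hd', by rw [rv_rv]; exact hd, fun _ => ⟨hyC, hlt⟩, fun h => absurd h hf,
        fun h => absurd (h ▸ hf0) hf⟩
  choose par dd h1 h2 h3 h4 h5 using hall
  obtain ⟨M, hM⟩ : ∃ M, ∀ f : K.F, rkN (some f) ≤ M :=
    ⟨∑ f : K.F, rkN (some f), fun f => Finset.single_le_sum (f := fun f => rkN (some f))
      (fun _ _ => Nat.zero_le _) (Finset.mem_univ f)⟩
  let rank : K.F → ℕ := fun f => if f ∈ C then M + 1 + rkC f else rkN (some f)
  have hr1 : ∀ f, f ∈ C → rank f = M + 1 + rkC f := fun f hf => if_pos hf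
  have hr2 : ∀ f, f ∉ C → rank f = rkN (some f) := fun f hf => if_neg hf
  have hpar : ∀ f ∈ C, f ≠ f0 → ∃ g ∈ C, par f = some g ∧ rank g < rank f := by
    intro f hf hff
    obtain ⟨z, hz, hy, hlt⟩ := h4 f hf hff
    refine ⟨z, hz, hy, ?_⟩
    rw [hr1 _ hz, hr1 _ hf]; omega
  have hpar2 : ∀ f, f ∉ C ∨ f = f0 → ∀ x ∈ C, par f ≠ some x := by
    rintro f (hf | hf)
    · exact (h3 f hf).1
    · exact h5 f hf
  let D : DT K :=
    { par := par
      dd := dd
      rank := rank
      mem := h1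
      memr := h2
      dec := by
        intro f g hfg
        by_cases hf : f ∈ C
        · by_cases hff : f = f0
          · have hg : g ∉ C := fun hg => h5 f hff g hg hfg
            rw [hr1 f hf, hr2 g hg]
            have := hM g
            omega
          · obtain ⟨z, hz, hy, hlt⟩ := hpar f hf hff
            rw [hy, Option.some.injEq] at hfg
            rw [← hfg]; exact hlt
        · have hg : g ∉ C := fun hg => (h3 f hf).1 g hg hfg
          rw [hr2 f hf, hr2 g hg, ← hfg]
          exact (h3 f hf).2 }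
  exact ⟨D, f0, hf0, hpar, hpar2⟩

end Vale.Agent.P201.Z.Bnd

namespace Vale.Agent.P201.Z

open Finset Bnd

theorem stmtBond : StmtBond := by
  classical
  intro A K C hB
  obtain ⟨D, f0, hf0, hp1, hp2⟩ := exists_dt hB
  obtain ⟨root, hroot⟩ : ∃ root : K.V, ∀ d ∈ (K.bd none).head?, K.org d = root := by
    cases h : (K.bd none).head? with
    | none => exact ⟨K.org (D.dd f0), by simp⟩
    | some d =>
      refine ⟨K.org d, fun x hx => ?_⟩
      rw [Option.mem_def, Option.some.injEq] at hx
      rw [hx]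
  obtain ⟨T, S, hpar, hdd, hTroot, hSroot, hE⟩ := exists_cotree D root
  -- the tree walk
  obtain ⟨l0, hl0, hl0n⟩ := exists_walk D (st_conn D (K.org (rv (D.dd f0))) (K.org (D.dd f0)))
  obtain ⟨l, hl, hnd, hsub⟩ := exists_nodup hl0
  have hln : ∀ d ∈ l, ∀ f, (D.dd f).1 ≠ d.1 := fun d hd => hl0n d (hsub d hd)
  set d0 := D.dd f0 with hd0
  have hL : Wk K (d0 :: l) (K.org d0) (K.org d0) := wk_cons.2 ⟨rfl, hl⟩
  have hLnd : ((d0 :: l).map Prod.fst).Nodup := by
    rw [List.map_cons, List.nodup_cons]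
    refine ⟨fun h => ?_, hnd⟩
    rw [List.mem_map] at h
    obtain ⟨x, hx, hxd⟩ := h
    exact hln x hx f0 hxd.symm
  -- membership of descendants
  have hsubC : T.sub f0 = C := by
    ext g
    unfold PC.Cotree.sub PC.Cotree.Desc
    simp only [Finset.mem_filter, Finset.mem_univ, true_and]
    rw [hpar]
    constructor
    · intro h
      induction h using Relation.ReflTransGen.head_induction_on with
      | refl => exact hf0
      | head h _ ih =>
        by_contra hn
        exact hp2 _ (Or.inl hn) _ ih h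
    · intro hg
      obtain ⟨n, hn⟩ : ∃ n, D.rank g = n := ⟨_, rfl⟩
      induction n using Nat.strong_induction_on generalizing g with
      | _ n ih =>
      by_cases hgf : g = f0
      · rw [hgf]
      · obtain ⟨z, hz, hgz, hlt⟩ := hp1 g hg hgf
        exact Relation.ReflTransGen.head hgz (ih (D.rank z) (by omega) z hz rfl)
  -- the boundary
  have hm : ∀ e, ch (d0 :: l) e + ∑ f ∈ C, ch (K.bd (some f)) e = 0 := by
    refine tree_zero S (m := fun e => ch (d0 :: l) e + ∑ f ∈ C, ch (K.bd (some f)) e) ?_ ?_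
    · intro e he
      rw [hE] at he
      push Not at he
      obtain ⟨g, rfl⟩ := he
      rw [ch_faces, ch_nodup hLnd]
      have h1 : (D.dd g).1 ∈ (d0 :: l).map Prod.fst ↔ g = f0 := by
        rw [List.map_cons, List.mem_cons]
        constructor
        · rintro (h | h)
          · exact D.inj h
          · exfalso
            rw [List.mem_map] at h
            obtain ⟨x, hx, hxd⟩ := h
            exact hln x hx g hxd.symm
        · intro h
          left
          rw [h]
      have h2 : (D.dd g).1 ∈ K.bdry C ↔ g = f0 := by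
        rw [mem_bdry]
        have h3 : (∃ f ∈ C, D.dd g ∈ K.bd (some f)) ↔ g ∈ C := by
          constructor
          · rintro ⟨f, hf, h⟩
            have : g = f := Option.some.inj (face_unique (D.mem g) h)
            rw [this]; exact hf
          · intro hg
            exact ⟨g, hg, D.mem g⟩
        have h4 : (∃ f ∈ C, rv (D.dd g) ∈ K.bd (some f)) ↔ ∃ x ∈ C, D.par g = some x := by
          constructor
          · rintro ⟨f, hf, h⟩
            exact ⟨f, hf, face_unique (D.memr g) h⟩
          · rintro ⟨x, hx, h⟩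
            exact ⟨x, hx, h ▸ D.memr g⟩
        rw [h3, h4]
        constructor
        · intro h
          by_contra hgf
          apply h
          constructor
          · intro hg
            obtain ⟨z, hz, hgz, -⟩ := hp1 g hg hgf
            exact ⟨z, hz, hgz⟩
          · rintro ⟨x, hx, hgx⟩
            by_contra hg
            exact hp2 g (Or.inl hg) x hx hgx
        · rintro rfl h
          obtain ⟨x, hx, hgx⟩ := h.1 hf0
          exact hp2 _ (Or.inr rfl) x hx hgx
      by_cases hg : g = f0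
      · rw [if_pos (h1.2 hg), if_pos (h2.2 hg)]
        exact CharTwo.add_self_eq_zero _
      · rw [if_neg (fun h => hg (h1.1 h)), if_neg (fun h => hg (h2.1 h)), add_zero]
    · intro v
      rw [bnd_add, bnd_closed hL v, bnd_faces, add_zero]
  refine ⟨T, f0, d0 :: l, T.pot (K.org d0), hsubC, ?_, hLnd, ?_, ?_⟩
  · rw [hTroot]; exact hroot
  · ext e
    have h := hm e
    rw [ch_faces, ch_nodup hLnd] at h
    rw [List.mem_toFinset]
    by_cases h1 : e ∈ (d0 :: l).map Prod.fst
    · by_cases h2 : e ∈ K.bdry C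
      · exact iff_of_true h1 h2
      · rw [if_pos h1, if_neg h2, add_zero] at h
        exact absurd h one_ne_zero
    · by_cases h2 : e ∈ K.bdry C
      · rw [if_neg h1, if_pos h2, zero_add] at h
        exact absurd h one_ne_zero
      · exact iff_of_false h1 h2
  · have h1 := pot_walk T hl (by rw [hdd]; exact hln)
    have h2 : FreeGroup.mk ((d0 :: l).map (fun d => (K.lab d.1, d.2))) =
        K.lt d0 * FreeGroup.mk (l.map (fun d => (K.lab d.1, d.2))) := by
      unfold PC.lt
      rw [FreeGroup.mul_mk]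
      rfl
    unfold PC.Cotree.c
    rw [hdd, ← hd0, h2, ← h1]
    group

end Vale.Agent.P201.Z
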