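import Vale.Agent.P201.Z.PC
import Vale.Agent.P201.Z.LA.Cyc

/-!
P201, part D6/D7 (bridge): sides of the squares, gluing data of a planar complex (helper273).
-/

namespace Vale.Agent.P201.Z

open Finset

variable {p : Pat} {n : ℕ}

/-! ## General facts on darts and faces -/

@[simp] lemma rv_rv {E : Type} (d : E × Bool) : rv (rv d) = d := by
  simp [rv]

@[simp] lemma rv_fst {E : Type} (d : E × Bool) : (rv d).1 = d.1 := rfl

@[simp] lemma rv_snd {E : Type} (d : E × Bool) : (rv d).2 = !d.2 := rfl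

lemma rv_inj {E : Type} {d d' : E × Bool} (h : rv d = rv d') : d = d' := by
  rw [← rv_rv d, h, rv_rv]

lemma rv_ne {E : Type} (d : E × Bool) : rv d ≠ d := by
  intro h
  have := congrArg Prod.snd h
  simp at this

namespace PC

variable {A : Type} (K : PC A)

lemma exists_face (d : K.E × Bool) : ∃ f, d ∈ K.bd f := by
  by_contra h
  push Not at h
  have := K.once d
  rw [Finset.sum_eq_zero (fun f _ => List.count_eq_zero.2 (h f))] at this
  exact absurd this (by norm_num)

lemma face_unique {d : K.E × Bool} {f g : Option K.F} (hf : d ∈ K.bd f) (hg : d ∈ K.bd g) :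
    f = g := by
  by_contra hne
  have h1 : 1 ≤ (K.bd f).count d := List.one_le_count_iff.2 hf
  have h2 : 1 ≤ (K.bd g).count d := List.one_le_count_iff.2 hg
  have := K.once d
  have h3 : (K.bd f).count d + (K.bd g).count d ≤ ∑ f, (K.bd f).count d := by
    rw [← Finset.sum_pair hne (f := fun f => (K.bd f).count d)]
    exact Finset.sum_le_sum_of_subset (Finset.subset_univ _)
  omega

lemma bd_nodup (f : Option K.F) : (K.bd f).Nodup := by
  rw [List.nodup_iff_count_le_one]
  intro d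
  have := K.once d
  have h3 : (K.bd f).count d ≤ ∑ f, (K.bd f).count d :=
    Finset.single_le_sum (f := fun f => (K.bd f).count d) (fun _ _ => Nat.zero_le _)
      (Finset.mem_univ f)
  omega

lemma mem_fc (d : K.E × Bool) : d ∈ K.bd (K.fc d) :=
  Classical.epsilon_spec (K.exists_face d)

lemma fc_eq {d : K.E × Bool} {f : Option K.F} (h : d ∈ K.bd f) : K.fc d = f :=
  K.face_unique (K.mem_fc d) h

end PC

/-! ## Sides of a square -/

/-- The list of darts of a square, decomposed: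
`xs` start x-side, `T1` the t-darts of the start, `ys` start y-side, `ye` end y-side (reversed),
`T2` the t-darts of the end (reversed), `xe` end x-side (reversed). -/
structure Sides (K : PC (Let p n)) (σ : Equiv.Perm (Cel p n)) (g : Option K.F) (q : Port p n) where
  xs : K.E × Bool
  T1 : List (K.E × Bool)
  ys : K.E × Bool
  ye : K.E × Bool
  T2 : List (K.E × Bool)
  xe : K.E × Bool
  bd : K.bd g = xs :: (T1 ++ ys :: ye :: (T2 ++ [xe]))
  lxs : K.lab xs.1 = .x (row q.1) q.2
  sxs : xs.2 = true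
  lT1 : T1.map (fun d => (K.lab d.1, d.2)) = tw p n (ht q.1)
  lys : K.lab ys.1 = .y (blk q.1)
  sys : ys.2 = true
  lye : K.lab ye.1 = .y (blk (mt σ q).1)
  sye : ye.2 = false
  lT2 : T2.map (fun d => (K.lab d.1, d.2)) = winv (tw p n (ht (mt σ q).1))
  lxe : K.lab xe.1 = .x (row (mt σ q).1) (mt σ q).2
  sxe : xe.2 = false

theorem exists_sides {K : PC (Let p n)} {σ : Equiv.Perm (Cel p n)} {g : Option K.F} {q : Port p n}
    (h : K.wd g = relw σ q) : Nonempty (Sides K σ g q) := by
  have h' : (K.bd g).map (fun d => (K.lab d.1, d.2)) =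
      (Let.x (row q.1) q.2, true) :: (tw p n (ht q.1) ++ (Let.y (blk q.1), true) ::
        (Let.y (blk (mt σ q).1), false) ::
          (winv (tw p n (ht (mt σ q).1)) ++ [(Let.x (row (mt σ q).1) (mt σ q).2, false)])) := by
    rw [show (K.bd g).map (fun d => (K.lab d.1, d.2)) = relw σ q from h]
    simp [relw, half, winv]
  obtain ⟨xs, l1, e1, e2, e3⟩ := List.map_eq_cons_iff.1 h'
  obtain ⟨T1, l2, e4, e5, e6⟩ := List.map_eq_append_iff.1 e3
  obtain ⟨ys, l3, e7, e8, e9⟩ := List.map_eq_cons_iff.1 e6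
  obtain ⟨ye, l4, e10, e11, e12⟩ := List.map_eq_cons_iff.1 e9
  obtain ⟨T2, l5, e13, e14, e15⟩ := List.map_eq_append_iff.1 e12
  obtain ⟨xe, l6, e16, e17, e18⟩ := List.map_eq_cons_iff.1 e15
  have e19 : l6 = [] := List.map_eq_nil_iff.1 e18
  subst e19
  simp only [Prod.mk.injEq] at e2 e8 e11 e17
  exact ⟨⟨xs, T1, ys, ye, T2, xe, by rw [e1, e4, e7, e10, e13, e16], e2.1, e2.2, e5, e8.1, e8.2,
    e11.1, e11.2, e14, e17.1, e17.2⟩⟩

/-! ## The gluing data -/

/-- A family of squares among the faces (`S = F`, `j = some` for discs, `S = Option F` for spheres). -/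
structure Br (σ : Equiv.Perm (Cel p n)) (K : PC (Let p n)) where
  S : Type
  [fS : Fintype S]
  [dS : DecidableEq S]
  j : S → Option K.F
  inj : Function.Injective j
  ε : S → Port p n
  sq : ∀ s, K.wd (j s) = relw σ (ε s)

attribute [instance] Br.fS Br.dS

lemma lab_tw {h : ℤ} {a : Let p n × Bool} (ha : a ∈ tw p n h) : a.1 = Let.t := by
  rw [tw, List.mem_replicate] at ha
  rw [ha.2]

lemma lab_winv_tw {h : ℤ} {a : Let p n × Bool} (ha : a ∈ winv (tw p n h)) : a.1 = Let.t := by
  rw [winv, List.mem_reverse, List.mem_map] at ha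
  obtain ⟨b, hb, rfl⟩ := ha
  exact lab_tw (a := b) hb

namespace Br

variable {σ : Equiv.Perm (Cel p n)} {K : PC (Let p n)} (B : Br σ K)

noncomputable def sd (s : B.S) : Sides K σ (B.j s) (B.ε s) := (exists_sides (B.sq s)).some

/-- start x-side, dart in the boundary of `s`, positive -/
noncomputable def xs (s : B.S) : K.E × Bool := (B.sd s).xs
/-- start y-side, dart in the boundary of `s`, positive -/
noncomputable def ys (s : B.S) : K.E × Bool := (B.sd s).ys
/-- end y-side, dart in the boundary of `s`, negative -/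
noncomputable def ye (s : B.S) : K.E × Bool := (B.sd s).ye
/-- end x-side, dart in the boundary of `s`, negative -/
noncomputable def xe (s : B.S) : K.E × Bool := (B.sd s).xe

lemma bd_eq (s : B.S) : K.bd (B.j s) =
    B.xs s :: ((B.sd s).T1 ++ B.ys s :: B.ye s :: ((B.sd s).T2 ++ [B.xe s])) := (B.sd s).bd

lemma xs_mem (s : B.S) : B.xs s ∈ K.bd (B.j s) := by rw [bd_eq]; simp
lemma ys_mem (s : B.S) : B.ys s ∈ K.bd (B.j s) := by rw [bd_eq]; simp
lemma ye_mem (s : B.S) : B.ye s ∈ K.bd (B.j s) := by rw [bd_eq]; simp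
lemma xe_mem (s : B.S) : B.xe s ∈ K.bd (B.j s) := by rw [bd_eq]; simp

lemma lab_xs (s : B.S) : K.lab (B.xs s).1 = .x (row (B.ε s).1) (B.ε s).2 := (B.sd s).lxs
lemma lab_ys (s : B.S) : K.lab (B.ys s).1 = .y (blk (B.ε s).1) := (B.sd s).lys
lemma lab_ye (s : B.S) : K.lab (B.ye s).1 = .y (blk (mt σ (B.ε s)).1) := (B.sd s).lye
lemma lab_xe (s : B.S) : K.lab (B.xe s).1 = .x (row (mt σ (B.ε s)).1) (mt σ (B.ε s)).2 :=
  (B.sd s).lxe
lemma sg_xs (s : B.S) : (B.xs s).2 = true := (B.sd s).sxs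
lemma sg_ys (s : B.S) : (B.ys s).2 = true := (B.sd s).sys
lemma sg_ye (s : B.S) : (B.ye s).2 = false := (B.sd s).sye
lemma sg_xe (s : B.S) : (B.xe s).2 = false := (B.sd s).sxe

lemma lab_T1 (s : B.S) {d : K.E × Bool} (h : d ∈ (B.sd s).T1) : K.lab d.1 = .t := by
  have : (K.lab d.1, d.2) ∈ tw p n (ht (B.ε s).1) := by
    rw [← (B.sd s).lT1]
    exact List.mem_map_of_mem h
  exact lab_tw this

lemma lab_T2 (s : B.S) {d : K.E × Bool} (h : d ∈ (B.sd s).T2) : K.lab d.1 = .t := by
  have : (K.lab d.1, d.2) ∈ winv (tw p n (ht (mt σ (B.ε s)).1)) := by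
    rw [← (B.sd s).lT2]
    exact List.mem_map_of_mem h
  exact lab_winv_tw this

lemma mem_cases {s : B.S} {d : K.E × Bool} (h : d ∈ K.bd (B.j s)) :
    d = B.xs s ∨ d ∈ (B.sd s).T1 ∨ d = B.ys s ∨ d = B.ye s ∨ d ∈ (B.sd s).T2 ∨ d = B.xe s := by
  rw [bd_eq] at h
  simpa using h

lemma eq_xs {s : B.S} {d : K.E × Bool} (h : d ∈ K.bd (B.j s)) {i : p.I} {a : Bool}
    (hl : K.lab d.1 = .x i a) (hs : d.2 = true) : d = B.xs s := by
  rcases B.mem_cases h with h | h | h | h | h | h
  · exact h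
  · rw [B.lab_T1 s h] at hl; cases hl
  · rw [h, lab_ys] at hl; cases hl
  · rw [h, lab_ye] at hl; cases hl
  · rw [B.lab_T2 s h] at hl; cases hl
  · rw [h, sg_xe] at hs; cases hs

lemma eq_xe {s : B.S} {d : K.E × Bool} (h : d ∈ K.bd (B.j s)) {i : p.I} {a : Bool}
    (hl : K.lab d.1 = .x i a) (hs : d.2 = false) : d = B.xe s := by
  rcases B.mem_cases h with h | h | h | h | h | h
  · rw [h, sg_xs] at hs; cases hs
  · rw [B.lab_T1 s h] at hl; cases hl
  · rw [h, lab_ys] at hl; cases hl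
  · rw [h, lab_ye] at hl; cases hl
  · rw [B.lab_T2 s h] at hl; cases hl
  · exact h

lemma eq_ys {s : B.S} {d : K.E × Bool} (h : d ∈ K.bd (B.j s)) {b : Blk p n}
    (hl : K.lab d.1 = .y b) (hs : d.2 = true) : d = B.ys s := by
  rcases B.mem_cases h with h | h | h | h | h | h
  · rw [h, lab_xs] at hl; cases hl
  · rw [B.lab_T1 s h] at hl; cases hl
  · exact h
  · rw [h, sg_ye] at hs; cases hs
  · rw [B.lab_T2 s h] at hl; cases hl
  · rw [h, lab_xe] at hl; cases hl

lemma eq_ye {s : B.S} {d : K.E × Bool} (h : d ∈ K.bd (B.j s)) {b : Blk p n}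
    (hl : K.lab d.1 = .y b) (hs : d.2 = false) : d = B.ye s := by
  rcases B.mem_cases h with h | h | h | h | h | h
  · rw [h, lab_xs] at hl; cases hl
  · rw [B.lab_T1 s h] at hl; cases hl
  · rw [h, sg_ys] at hs; cases hs
  · exact h
  · rw [B.lab_T2 s h] at hl; cases hl
  · rw [h, lab_xe] at hl; cases hl

open Classical in
/-- the square containing a dart -/
noncomputable def fs (d : K.E × Bool) : Option B.S :=
  if h : ∃ s, d ∈ K.bd (B.j s) then some h.choose else none

lemma fs_eq_some {d : K.E × Bool} {s : B.S} : B.fs d = some s ↔ d ∈ K.bd (B.j s) := by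
  unfold fs
  constructor
  · intro h
    split_ifs at h with h1
    rw [← Option.some_injective _ h]
    exact h1.choose_spec
  · intro h
    have h1 : ∃ s, d ∈ K.bd (B.j s) := ⟨s, h⟩
    rw [dif_pos h1]
    exact congrArg some (B.inj (K.face_unique h1.choose_spec h))

/-- the gluing data -/
noncomputable def glue : Glue σ where
  S := B.S
  ε := B.ε
  X :=
    { toFun := fun s => B.fs (rv (B.xs s))
      invFun := fun s => B.fs (rv (B.xe s))
      inv := fun a b => by
        show B.fs _ = some a ↔ B.fs _ = some b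
        rw [fs_eq_some, fs_eq_some]
        constructor
        · intro h
          have := B.eq_xs h (by rw [rv_fst, lab_xe]) (by rw [rv_snd, sg_xe]; rfl)
          rw [← this, rv_rv]
          exact B.xe_mem b
        · intro h
          have := B.eq_xe h (by rw [rv_fst, lab_xs]) (by rw [rv_snd, sg_xs]; rfl)
          rw [← this, rv_rv]
          exact B.xs_mem a }
  Y :=
    { toFun := fun s => B.fs (rv (B.ye s))
      invFun := fun s => B.fs (rv (B.ys s))
      inv := fun a b => by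
        show B.fs _ = some a ↔ B.fs _ = some b
        rw [fs_eq_some, fs_eq_some]
        constructor
        · intro h
          have := B.eq_ye h (by rw [rv_fst, lab_ys]) (by rw [rv_snd, sg_ys]; rfl)
          rw [← this, rv_rv]
          exact B.ys_mem b
        · intro h
          have := B.eq_ys h (by rw [rv_fst, lab_ye]) (by rw [rv_snd, sg_ye]; rfl)
          rw [← this, rv_rv]
          exact B.ye_mem a }

lemma X_eq_some {s s' : B.S} : B.glue.X s = some s' ↔ rv (B.xs s) = B.xe s' := by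
  show B.fs (rv (B.xs s)) = some s' ↔ _
  rw [fs_eq_some]
  constructor
  · intro h
    exact B.eq_xe h (by rw [rv_fst, lab_xs]) (by rw [rv_snd, sg_xs]; rfl)
  · intro h
    rw [h]
    exact B.xe_mem s'

lemma Y_eq_some {s s' : B.S} : B.glue.Y s = some s' ↔ rv (B.ye s) = B.ys s' := by
  show B.fs (rv (B.ye s)) = some s' ↔ _
  rw [fs_eq_some]
  constructor
  · intro h
    exact B.eq_ys h (by rw [rv_fst, lab_ye]) (by rw [rv_snd, sg_ye]; rfl)
  · intro h
    rw [h]
    exact B.ys_mem s'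

/-- the labels match (first halves of `Red`) -/
lemma blk_Y {s s' : B.S} (h : B.glue.Y s = some s') : blk (mt σ (B.ε s)).1 = blk (B.ε s').1 := by
  have h1 := B.Y_eq_some.1 h
  have h2 : K.lab (B.ye s).1 = K.lab (B.ys s').1 := by rw [← h1, rv_fst]
  rw [lab_ye, lab_ys] at h2
  exact Let.y.inj h2

lemma rc_X {s s' : B.S} (h : B.glue.X s = some s') : rc (B.ε s) = rc (mt σ (B.ε s')) := by
  have h1 := B.X_eq_some.1 h
  have h2 : K.lab (B.xs s).1 = K.lab (B.xe s').1 := by rw [← h1, rv_fst]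
  rw [lab_xs, lab_xe] at h2
  have := Let.x.inj h2
  exact Prod.ext this.1 this.2

/-! ## origins along the boundary -/

lemma chain_s (s : B.S) : (B.xs s :: ((B.sd s).T1 ++ B.ys s :: B.ye s ::
    ((B.sd s).T2 ++ [B.xe s]))).IsChain (fun a b => K.org b = K.org (rv a)) := by
  have := K.chain (B.j s)
  rwa [bd_eq] at this

/-- e-corner -/
lemma org_ye (s : B.S) : K.org (B.ye s) = K.org (rv (B.ys s)) := by
  have h := B.chain_s s
  rw [← List.cons_append] at h
  have h2 := (List.isChain_append.1 h).2.1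
  exact (List.isChain_cons_cons.1 h2).1

/-- o-corner -/
lemma org_xs (s : B.S) : K.org (B.xs s) = K.org (rv (B.xe s)) := by
  refine K.closed (B.j s) (B.xe s) ?_ (B.xs s) ?_
  · rw [bd_eq, ← List.cons_append, ← List.cons_append, ← List.cons_append, ← List.append_assoc,
      List.getLast?_append]
    simp
  · rw [bd_eq]
    simp

end Br

/-! ## The two instances -/

/-- disc version -/
noncomputable def brD {σ : Equiv.Perm (Cel p n)} (K : SqK σ) : Br σ K.toPC where
  S := K.F
  j := some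
  inj := Option.some_injective _
  ε := K.q
  sq := K.sq

lemma winv_append {A : Type} (a b : List (A × Bool)) : winv (a ++ b) = winv b ++ winv a := by
  simp [winv]

lemma winv_winv {A : Type} (a : List (A × Bool)) : winv (winv a) = a := by
  simp [winv, List.map_reverse, Function.comp_def]

lemma winv_relw {σ : Equiv.Perm (Cel p n)} (q : Port p n) :
    winv (relw σ q) = relw σ (mt σ q) := by
  rw [relw, relw, winv_append, winv_winv, mt_mt]

/-- sphere version -/
noncomputable def brS {σ : Equiv.Perm (Cel p n)} (K : SqK σ) (q0 : Port p n)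
    (h : K.outw = relw σ q0) : Br σ K.toPC where
  S := Option K.F
  j := id
  inj := Function.injective_id
  ε := fun f => match f with
    | none => mt σ q0
    | some f => K.q f
  sq := fun f => match f with
    | none => by
      show K.wd none = _
      rw [← winv_relw, ← h, SqK.outw, winv_winv]
    | some f => K.sq f

/-! ## Exact sub-statements (owners: see the notes; files Z/D/Br<Name>.lean) -/

/-- Eul and weight, disc (helper273) -/
def StmtBrEulD : Prop :=
  ∀ (p : Pat) (n : ℕ) (σ : Equiv.Perm (Cel p n)) (K : SqK σ), (brD K).glue.Eul ∧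
    ∀ Y : ℕ, 2 * (Fintype.card K.F - domc (brD K).glue.X) +
      Y * (2 * (Fintype.card K.F - domc (brD K).glue.Y)) ≤ wtw Y K.outw

/-- Eul and full domains, sphere (helper273) -/
def StmtBrEulS : Prop :=
  ∀ (p : Pat) (n : ℕ) (σ : Equiv.Perm (Cel p n)) (K : SqK σ) (q0 : Port p n)
    (h : K.outw = relw σ q0), (brS K q0 h).glue.Eul ∧
    domc (brS K q0 h).glue.X = Fintype.card K.F + 1 ∧
    domc (brS K q0 h).glue.Y = Fintype.card K.F + 1

/-- mirror pairs, disc: two squares glued along corresponding sides -/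
def StmtMirD : Prop :=
  ∀ (p : Pat) (n : ℕ) (σ : Equiv.Perm (Cel p n)) (K : SqK σ) (P : K.GPot),
    NoRed σ (val K.outw) (Fintype.card K.F) (K.chn P univ) →
    ∀ (s s' : K.F), K.q s' = mt σ (K.q s) →
      rv ((brD K).xs s) ≠ (brD K).xe s' ∧ rv ((brD K).ye s) ≠ (brD K).ys s'

/-- mirror pairs, sphere -/
def StmtMirS : Prop :=
  ∀ (p : Pat) (n : ℕ) (σ : Equiv.Perm (Cel p n)) (K : SqK σ) (P : K.GPot) (q0 : Port p n)
    (h : K.outw = relw σ q0),
    K.chn P univ - pch σ 1 q0 ≠ 0 →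
    (∀ k z, k ≤ Fintype.card K.F → Expr σ k 1 z → z = 0) →
    ∀ (s s' : Option K.F), (brS K q0 h).ε s' = mt σ ((brS K q0 h).ε s) →
      rv ((brS K q0 h).xs s) ≠ (brS K q0 h).xe s' ∧ rv ((brS K q0 h).ye s) ≠ (brS K q0 h).ys s'

/-- labels, disc -/
def StmtLabD : Prop :=
  ∀ (p : Pat) (n : ℕ) (σ : Equiv.Perm (Cel p n)) (K : SqK σ) (P : K.GPot),
    NoRed σ (val K.outw) (Fintype.card K.F) (K.chn P univ) →
    (∀ (m : ℤ) (k : ℕ) (z : Chn σ), m ≠ 0 → Expr σ k (val (tw p n m)) z → Fintype.card K.F < k ∨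
      (Fintype.card K.F ≤ k ∧ ∀ a ∈ K.outw, a.1 = Let.t)) → (brD K).glue.Lab

/-- labels, sphere -/
def StmtLabS : Prop :=
  ∀ (p : Pat) (n : ℕ) (σ : Equiv.Perm (Cel p n)) (K : SqK σ) (P : K.GPot) (q0 : Port p n)
    (h : K.outw = relw σ q0),
    K.chn P univ - pch σ 1 q0 ≠ 0 →
    (∀ k z, k ≤ Fintype.card K.F → Expr σ k 1 z → z = 0) →
    (∀ (m : ℤ) (k : ℕ) (z : Chn σ), m ≠ 0 → ¬ Expr σ k (val (tw p n m)) z) →
    (brS K q0 h).glue.Lab

theorem stmtBridge_of (h1 : StmtBrEulD) (h2 : StmtMirD) (h3 : StmtLabD) : StmtBridge := by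
  intro p n σ K P hN ht
  refine ⟨(brD K).glue, ⟨fun s s' h => ⟨(brD K).blk_Y h, fun e => ?_⟩,
    fun s s' h => ⟨(brD K).rc_X h, fun e => ?_⟩⟩, h3 p n σ K P hN ht, (h1 p n σ K).1, rfl,
    (h1 p n σ K).2⟩
  · exact (h2 p n σ K P hN s s' e).2 ((brD K).Y_eq_some.1 h)
  · refine (h2 p n σ K P hN s s' ?_).1 ((brD K).X_eq_some.1 h)
    have e' : K.q s = mt σ (K.q s') := e
    rw [e', mt_mt]

theorem stmtBridgeS_of (h1 : StmtBrEulS) (h2 : StmtMirS) (h3 : StmtLabS) : StmtBridgeS := by
  intro p n σ K P q0 h hc hz ht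
  have hcard : Fintype.card (brS K q0 h).glue.S = Fintype.card K.F + 1 :=
    Fintype.card_option
  refine ⟨(brS K q0 h).glue, ⟨fun s s' h' => ⟨(brS K q0 h).blk_Y h', fun e => ?_⟩,
    fun s s' h' => ⟨(brS K q0 h).rc_X h', fun e => ?_⟩⟩, h3 p n σ K P q0 h hc hz ht,
    (h1 p n σ K q0 h).1, hcard, ?_, ?_⟩
  · exact (h2 p n σ K P q0 h hc hz s s' e).2 ((brS K q0 h).Y_eq_some.1 h')
  · refine (h2 p n σ K P q0 h hc hz s s' ?_).1 ((brS K q0 h).X_eq_some.1 h')
    have e' : (brS K q0 h).ε s = mt σ ((brS K q0 h).ε s') := e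
    rw [e', mt_mt]
  · rw [hcard]
    exact (h1 p n σ K q0 h).2.1
  · rw [hcard]
    exact (h1 p n σ K q0 h).2.2

end Vale.Agent.P201.Z
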