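import Vale.Agent.P201.Z.D.BrDefs
import Vale.Agent.P201.Z.LA.Cyc

/-!
P201, part D6/D7 (bridge): Euler inequality and weights (helper273).
-/

namespace Vale.Agent.P201.Z.BrEul

open Finset Vale.Agent.P201.Z

variable {p : Pat} {n : ℕ}

/-! ## Number of classes -/

/-- a quotient by a relation generated by `E` pairs has at least `V - E` classes -/
theorem card_le_quot {V E : Type} [Fintype V] [Fintype E] (a b : E → V) (s : Setoid V)
    [Fintype (Quotient s)]
    (hs : ∀ x y, s x y → Relation.EqvGen (fun x y => ∃ e, a e = x ∧ b e = y) x y) :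
    Fintype.card V ≤ Fintype.card (Quotient s) + Fintype.card E := by
  classical
  let T : (V → ℚ) →ₗ[ℚ] (E → ℚ) :=
    { toFun := fun φ e => φ (a e) - φ (b e)
      map_add' := fun φ ψ => by funext e; simp; ring
      map_smul' := fun c φ => by funext e; simp; ring }
  let J : (Quotient s → ℚ) →ₗ[ℚ] (V → ℚ) :=
    { toFun := fun φ v => φ (Quotient.mk s v)
      map_add' := fun φ ψ => by funext e; simp
      map_smul' := fun c φ => by funext e; simp }
  have hker : LinearMap.ker T ≤ LinearMap.range J := by
    intro φ hφ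
    have h1 : ∀ e, φ (a e) = φ (b e) := by
      intro e
      have := congrFun (LinearMap.mem_ker.1 hφ) e
      have h2 : φ (a e) - φ (b e) = 0 := this
      linarith
    have h2 : ∀ x y, Relation.EqvGen (fun x y => ∃ e, a e = x ∧ b e = y) x y → φ x = φ y := by
      intro x y h
      induction h with
      | rel x y h =>
        obtain ⟨e, rfl, rfl⟩ := h
        exact h1 e
      | refl x => rfl
      | symm x y _ ih => exact ih.symm
      | trans x y z _ _ ih1 ih2 => exact ih1.trans ih2
    refine ⟨Quotient.lift φ (fun x y h => h2 x y (hs x y h)), ?_⟩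
    funext v
    rfl
  have h3 := LinearMap.finrank_range_add_finrank_ker T
  have h4 : Module.finrank ℚ (LinearMap.ker T) ≤ Fintype.card (Quotient s) := by
    refine le_trans (Submodule.finrank_mono hker) ?_
    refine le_trans (LinearMap.finrank_range_le J) ?_
    simp
  have h5 : Module.finrank ℚ (LinearMap.range T) ≤ Fintype.card E := by
    refine le_trans (Submodule.finrank_le _) ?_
    simp
  rw [Module.finrank_fintype_fun_eq_card] at h3
  omega

/-! ## Cycles from invariant steps -/

theorem per_of_step {S : Type} [Fintype S] {f : S ≃. S} {P : S → Prop}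
    (hP : ∀ s, P s → ∃ s', f s = some s' ∧ P s') {s : S} (hs : P s) :
    Per f s ∧ ∀ t ∈ orb f s, P t := by
  have h1 : ∀ k, ∃ t, pit f k s = some t ∧ P t := by
    intro k
    induction k with
    | zero => exact ⟨s, rfl, hs⟩
    | succ k ih =>
      obtain ⟨t, ht, hPt⟩ := ih
      obtain ⟨t', ht', hPt'⟩ := hP t hPt
      exact ⟨t', by rw [pit_succ', ht]; exact ht', hPt'⟩
  constructor
  · choose t ht _ using h1
    obtain ⟨i, j, hij, he⟩ := Finite.exists_ne_map_eq_of_infinite t
    wlog hlt : i < j generalizing i j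
    · exact this j i hij.symm he.symm (lt_of_le_of_ne (not_lt.1 hlt) hij.symm)
    refine ⟨j - i, by omega, ?_⟩
    have h2 : pit f ((j - i) + i) s = some (t j) := by
      rw [Nat.sub_add_cancel hlt.le]
      exact ht j
    rw [pit_add, ht (j - i)] at h2
    have h3 : pit f i (t (j - i)) = some (t i) := by
      rw [he]
      simpa using h2
    rw [ht (j - i), pit_inj h3 (ht i)]
  · intro t ht
    obtain ⟨k, hk⟩ := mem_orb.1 ht
    obtain ⟨t', ht', hPt'⟩ := h1 k
    rw [hk] at ht'
    rwa [Option.some_injective _ ht']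

theorem domc_symm {S : Type} [Fintype S] (f : S ≃. S) : domc f.symm = domc f := by
  classical
  unfold domc
  refine Finset.card_bij' (fun s hs => (f.symm s).get (Finset.mem_filter.1 hs).2)
    (fun s hs => (f s).get (Finset.mem_filter.1 hs).2) ?_ ?_ ?_ ?_
  · intro s hs
    obtain ⟨t, ht⟩ := Option.isSome_iff_exists.1 (Finset.mem_filter.1 hs).2
    have ht' : f t = some s := (PEquiv.eq_some_iff f).1 ht
    simp [ht, ht']
  · intro s hs
    obtain ⟨t, ht⟩ := Option.isSome_iff_exists.1 (Finset.mem_filter.1 hs).2
    have ht' : f.symm t = some s := (PEquiv.eq_some_iff f).2 ht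
    simp [ht, ht']
  · intro s hs
    obtain ⟨t, ht⟩ := Option.isSome_iff_exists.1 (Finset.mem_filter.1 hs).2
    have ht' : f t = some s := (PEquiv.eq_some_iff f).1 ht
    simp [ht, ht']
  · intro s hs
    obtain ⟨t, ht⟩ := Option.isSome_iff_exists.1 (Finset.mem_filter.1 hs).2
    have ht' : f.symm t = some s := (PEquiv.eq_some_iff f).2 ht
    simp [ht, ht']

/-! ## t-classes of vertices -/

section

variable {A : Type} (K : PC A)

lemma exists_next {g : Option K.F} {d : K.E × Bool} (hd : d ∈ K.bd g) :
    ∃ d' ∈ K.bd g, K.org d' = K.org (rv d) := by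
  obtain ⟨l1, l2, hl⟩ := List.append_of_mem hd
  have hc := K.chain g
  rw [hl] at hc
  cases l2 with
  | cons d' l3 =>
    refine ⟨d', by rw [hl]; simp, ?_⟩
    exact (List.isChain_cons_cons.1 (List.isChain_append.1 hc).2.1).1
  | nil =>
    have hne : K.bd g ≠ [] := by rw [hl]; simp
    refine ⟨(K.bd g).head hne, List.head_mem hne, ?_⟩
    refine K.closed g d ?_ _ ?_
    · rw [hl, List.getLast?_append]
      simp
    · rw [List.head?_eq_some_head hne]
      simp

lemma exists_org [Nonempty K.E] (v : K.V) : ∃ d : K.E × Bool, K.org d = v := by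
  obtain ⟨e⟩ := ‹Nonempty K.E›
  rcases Relation.ReflTransGen.cases_head (K.conn v (K.org (e, true))) with h | ⟨w, ⟨d, hd, _⟩, _⟩
  · exact ⟨(e, true), h.symm⟩
  · exact ⟨d, hd⟩

end

/-- the relation of being joined by `t`-edges -/
def tset (K : PC (Let p n)) : Setoid K.V :=
  Relation.EqvGen.setoid (fun x y => ∃ e : {e : K.E // K.lab e = .t},
    K.org (e.1, true) = x ∧ K.org (e.1, false) = y)

/-- t-classes -/
abbrev Cls (K : PC (Let p n)) : Type := Quotient (tset K)

noncomputable instance (K : PC (Let p n)) : Fintype (Cls K) := Fintype.ofFinite _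

noncomputable instance (K : PC (Let p n)) : DecidableEq (Cls K) := Classical.decEq _

def cl (K : PC (Let p n)) (v : K.V) : Cls K := Quotient.mk (tset K) v

lemma cl_t {K : PC (Let p n)} {d : K.E × Bool} (h : K.lab d.1 = .t) :
    cl K (K.org d) = cl K (K.org (rv d)) := by
  have h1 : cl K (K.org (d.1, true)) = cl K (K.org (d.1, false)) :=
    Quotient.sound (Relation.EqvGen.rel _ _ ⟨⟨d.1, h⟩, rfl, rfl⟩)
  rcases d with ⟨e, b⟩
  cases b
  · exact h1.symm
  · exact h1

lemma card_V_le (K : PC (Let p n)) :
    Fintype.card K.V ≤ Fintype.card (Cls K) + Fintype.card {e : K.E // K.lab e = .t} :=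
  card_le_quot (fun e : {e : K.E // K.lab e = .t} => K.org (e.1, true))
    (fun e => K.org (e.1, false)) (tset K) (fun _ _ h => h)

/-- along a run of `t`-darts the class does not change -/
lemma cl_run {K : PC (Let p n)} (T : List (K.E × Bool)) (hT : ∀ d ∈ T, K.lab d.1 = .t)
    (a b : K.E × Bool) (l : List (K.E × Bool))
    (hc : (a :: (T ++ b :: l)).IsChain (fun a b => K.org b = K.org (rv a))) :
    (∀ d ∈ T, cl K (K.org d) = cl K (K.org (rv a))) ∧ cl K (K.org b) = cl K (K.org (rv a)) := by
  induction T generalizing a with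
  | nil =>
    simp only [List.nil_append] at hc
    exact ⟨by simp, by rw [(List.isChain_cons_cons.1 hc).1]⟩
  | cons d T ih =>
    simp only [List.cons_append] at hc
    obtain ⟨h1, h2⟩ := List.isChain_cons_cons.1 hc
    obtain ⟨h3, h4⟩ := ih (fun d' hd' => hT d' (List.mem_cons_of_mem _ hd')) d h2
    have h5 : cl K (K.org (rv d)) = cl K (K.org (rv a)) := by
      rw [← cl_t (hT d List.mem_cons_self), h1]
    refine ⟨?_, h4.trans h5⟩
    intro d' hd'
    rcases List.mem_cons.1 hd' with rfl | hd'
    · rw [h1]
    · exact (h3 d' hd').trans h5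

/-! ## Boundary classes -/

open Classical in
/-- classes of the end points of a list of darts -/
noncomputable def vs (K : PC (Let p n)) (l : List (K.E × Bool)) : Finset (Cls K) :=
  univ.filter (fun c => ∃ d ∈ l, cl K (K.org d) = c ∨ cl K (K.org (rv d)) = c)

open Classical in
/-- non-t edges of a list -/
noncomputable def es (K : PC (Let p n)) (l : List (K.E × Bool)) : Finset K.E :=
  univ.filter (fun e => K.lab e ≠ .t ∧ ∃ d ∈ l, d.1 = e)

lemma vs_le (K : PC (Let p n)) (l : List (K.E × Bool))
    (hc : l.IsChain (fun a b => K.org b = K.org (rv a))) :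
    (vs K l).card ≤ (es K l).card + 1 := by
  classical
  induction l with
  | nil => simp [vs]
  | cons d l ih =>
    by_cases hd : cl K (K.org d) ∈ vs K l ∧ cl K (K.org (rv d)) ∈ vs K l
    · have h1 : vs K (d :: l) ⊆ vs K l := by
        intro c hcc
        simp only [vs, mem_filter, mem_univ, true_and] at hcc
        obtain ⟨d', hd', hh⟩ := hcc
        rcases List.mem_cons.1 hd' with rfl | hd'
        · rcases hh with rfl | rfl
          · exact hd.1
          · exact hd.2
        · simp only [vs, mem_filter, mem_univ, true_and]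
          exact ⟨d', hd', hh⟩
      have h2 : es K l ⊆ es K (d :: l) := by
        intro e he
        simp only [es, mem_filter, mem_univ, true_and] at he ⊢
        obtain ⟨h3, d', h4, h5⟩ := he
        exact ⟨h3, d', List.mem_cons_of_mem _ h4, h5⟩
      have hcl : l.IsChain (fun a b => K.org b = K.org (rv a)) := by
        cases l with
        | nil => exact List.isChain_nil
        | cons d' l' => exact (List.isChain_cons_cons.1 hc).2
      exact le_trans (Finset.card_le_card h1)
        (le_trans (ih hcl) (Nat.add_le_add_right (Finset.card_le_card h2) 1))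
    · cases l with
      | nil =>
        by_cases ht : K.lab d.1 = .t
        · have h1 : vs K [d] ⊆ {cl K (K.org d)} := by
            intro c hcc
            simp only [vs, mem_filter, mem_univ, true_and, List.mem_singleton] at hcc
            obtain ⟨d', rfl, hh⟩ := hcc
            rw [mem_singleton]
            rcases hh with rfl | rfl
            · rfl
            · exact (cl_t ht).symm
          exact le_trans (Finset.card_le_card h1) (by simp)
        · have h1 : vs K [d] ⊆ {cl K (K.org d), cl K (K.org (rv d))} := by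
            intro c hcc
            simp only [vs, mem_filter, mem_univ, true_and, List.mem_singleton] at hcc
            obtain ⟨d', rfl, hh⟩ := hcc
            rcases hh with rfl | rfl <;> simp
          have h2 : 1 ≤ (es K [d]).card := by
            rw [Nat.one_le_iff_ne_zero, Finset.card_ne_zero]
            exact ⟨d.1, by simp [es, ht]⟩
          exact le_trans (Finset.card_le_card h1) (le_trans Finset.card_le_two (by omega))
      | cons d1 l' =>
        obtain ⟨hc1, hc2⟩ := List.isChain_cons_cons.1 hc
        have h0 : cl K (K.org (rv d)) ∈ vs K (d1 :: l') := by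
          simp only [vs, mem_filter, mem_univ, true_and]
          exact ⟨d1, List.mem_cons_self, Or.inl (by rw [hc1])⟩
        have h1 : cl K (K.org d) ∉ vs K (d1 :: l') := fun h => hd ⟨h, h0⟩
        have ht : K.lab d.1 ≠ .t := by
          intro ht
          rw [cl_t ht] at h1
          exact h1 h0
        have h2 : vs K (d :: d1 :: l') ⊆ insert (cl K (K.org d)) (vs K (d1 :: l')) := by
          intro c hcc
          simp only [vs, mem_filter, mem_univ, true_and] at hcc
          obtain ⟨d', hd', hh⟩ := hcc
          rcases List.mem_cons.1 hd' with rfl | hd'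
          · rcases hh with rfl | rfl
            · exact mem_insert_self _ _
            · exact mem_insert_of_mem h0
          · refine mem_insert_of_mem ?_
            simp only [vs, mem_filter, mem_univ, true_and]
            exact ⟨d', hd', hh⟩
        have h3 : insert d.1 (es K (d1 :: l')) ⊆ es K (d :: d1 :: l') := by
          intro e he
          rcases mem_insert.1 he with rfl | he
          · simp only [es, mem_filter, mem_univ, true_and]
            exact ⟨ht, d, List.mem_cons_self, rfl⟩
          · simp only [es, mem_filter, mem_univ, true_and] at he ⊢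
            obtain ⟨h3, d', h4, h5⟩ := he
            exact ⟨h3, d', List.mem_cons_of_mem _ h4, h5⟩
        have h4 : d.1 ∉ es K (d1 :: l') := by
          intro he
          simp only [es, mem_filter, mem_univ, true_and] at he
          obtain ⟨-, d', h4, h5⟩ := he
          refine h1 ?_
          simp only [vs, mem_filter, mem_univ, true_and]
          refine ⟨d', h4, ?_⟩
          by_cases h6 : d'.2 = d.2
          · left
            rw [Prod.ext h5 h6]
          · right
            have : rv d' = d := Prod.ext h5 (by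
              rw [rv_snd]
              cases h7 : d'.2 <;> cases h8 : d.2 <;> simp_all)
            rw [this]
        calc (vs K (d :: d1 :: l')).card ≤ (insert (cl K (K.org d)) (vs K (d1 :: l'))).card :=
              Finset.card_le_card h2
          _ = (vs K (d1 :: l')).card + 1 := Finset.card_insert_of_notMem h1
          _ ≤ (es K (d1 :: l')).card + 1 + 1 := Nat.add_le_add_right (ih hc2) 1
          _ = (insert d.1 (es K (d1 :: l'))).card + 1 := by
              rw [Finset.card_insert_of_notMem h4]
          _ ≤ (es K (d :: d1 :: l')).card + 1 :=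
              Nat.add_le_add_right (Finset.card_le_card h3) 1

/-! ## Interior classes -/

variable {σ : Equiv.Perm (Cel p n)} {K : PC (Let p n)} (B : Br σ K)

/-- `X` of the gluing data, with plain types -/
noncomputable def gX (B : Br σ K) : B.S ≃. B.S := B.glue.X

/-- `Y` of the gluing data, with plain types -/
noncomputable def gY (B : Br σ K) : B.S ≃. B.S := B.glue.Y

/-- `XY` of the gluing data, with plain types -/
noncomputable def gXY (B : Br σ K) : B.S ≃. B.S := (gX B).trans (gY B)

lemma gX_fs {s s' : B.S} : gX B s = some s' ↔ rv (B.xs s) ∈ K.bd (B.j s') := B.fs_eq_some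

lemma gY_fs {s s' : B.S} : gY B s = some s' ↔ rv (B.ye s) ∈ K.bd (B.j s') := B.fs_eq_some

lemma gX_some {s s' : B.S} : gX B s = some s' ↔ rv (B.xs s) = B.xe s' := B.X_eq_some

lemma gY_some {s s' : B.S} : gY B s = some s' ↔ rv (B.ye s) = B.ys s' := B.Y_eq_some

/-- a class is interior if all darts starting in it lie on squares -/
def Int (c : Cls K) : Prop := ∀ d : K.E × Bool, cl K (K.org d) = c → ∃ s, d ∈ K.bd (B.j s)

lemma run1 (s : B.S) : (∀ d ∈ (B.sd s).T1, cl K (K.org d) = cl K (K.org (rv (B.xs s)))) ∧
    cl K (K.org (B.ys s)) = cl K (K.org (rv (B.xs s))) :=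
  cl_run (B.sd s).T1 (fun _ h => B.lab_T1 s h) (B.xs s) (B.ys s) _ (B.chain_s s)

lemma run2 (s : B.S) : (∀ d ∈ (B.sd s).T2, cl K (K.org d) = cl K (K.org (rv (B.ye s)))) ∧
    cl K (K.org (B.xe s)) = cl K (K.org (rv (B.ye s))) := by
  have h := B.chain_s s
  rw [← List.cons_append] at h
  have h2 := (List.isChain_append.1 h).2.1
  exact cl_run (B.sd s).T2 (fun _ h => B.lab_T2 s h) (B.ye s) (B.xe s) []
    (List.isChain_cons_cons.1 h2).2

variable {B}

lemma step_X {c : Cls K} (hc : Int B c) (s : B.S) (hs : cl K (K.org (B.xs s)) = c) :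
    ∃ s', (gX B) s = some s' ∧ cl K (K.org (B.xs s')) = c := by
  obtain ⟨d', hd', ho⟩ := exists_next K (K.mem_fc (rv (B.xs s)))
  rw [rv_rv] at ho
  obtain ⟨s', hs'⟩ := hc d' (by rw [ho, hs])
  have hg := K.face_unique hd' hs'
  have h1 : rv (B.xs s) ∈ K.bd (B.j s') := by
    rw [← hg]
    exact K.mem_fc _
  have h2 : (gX B) s = some s' := (gX_fs B).2 h1
  refine ⟨s', h2, ?_⟩
  rw [B.org_xs s', ← (gX_some B).1 h2, rv_rv, hs]

lemma step_Y {c : Cls K} (hc : Int B c) (s : B.S) (hs : cl K (K.org (B.ye s)) = c) :
    ∃ s', (gY B) s = some s' ∧ cl K (K.org (B.ye s')) = c := by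
  obtain ⟨d', hd', ho⟩ := exists_next K (K.mem_fc (rv (B.ye s)))
  rw [rv_rv] at ho
  obtain ⟨s', hs'⟩ := hc d' (by rw [ho, hs])
  have hg := K.face_unique hd' hs'
  have h1 : rv (B.ye s) ∈ K.bd (B.j s') := by
    rw [← hg]
    exact K.mem_fc _
  have h2 : (gY B) s = some s' := (gY_fs B).2 h1
  refine ⟨s', h2, ?_⟩
  rw [B.org_ye s', ← (gY_some B).1 h2, rv_rv, hs]

lemma step_e {c : Cls K} (hc : Int B c) (u : B.S) (hu : cl K (K.org (rv (B.ye u))) = c) :
    ∃ v, (gY B) u = some v ∧ cl K (K.org (B.ys v)) = c := by
  obtain ⟨v, hv⟩ := hc _ hu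
  have h2 : (gY B) u = some v := (gY_fs B).2 hv
  exact ⟨v, h2, by rw [← (gY_some B).1 h2, hu]⟩

lemma step_XY {c : Cls K} (hc : Int B c) (s : B.S) (hs : cl K (K.org (B.ys s)) = c) :
    ∃ s', (gXY B) s = some s' ∧ cl K (K.org (B.ys s')) = c := by
  have h0 : cl K (K.org (rv (B.xs s))) = c := by rw [← (run1 B s).2, hs]
  obtain ⟨u, hu⟩ := hc _ h0
  have h1 : (gX B) s = some u := (gX_fs B).2 hu
  have h2 : cl K (K.org (rv (B.ye u))) = c := by
    rw [← (run2 B u).2, ← (gX_some B).1 h1, h0]
  obtain ⟨v, hv, hv2⟩ := step_e hc u h2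
  refine ⟨v, ?_, hv2⟩
  exact (PEquiv.trans_eq_some _ _ _ _).2 ⟨u, h1, hv⟩

/-- every interior class carries a cycle -/
lemma int_cases [Nonempty K.E] {c : Cls K} (hc : Int B c) :
    (∃ s, cl K (K.org (B.xs s)) = c) ∨ (∃ s, cl K (K.org (B.ye s)) = c) ∨
      ∃ s, cl K (K.org (B.ys s)) = c := by
  obtain ⟨v, rfl⟩ := Quotient.exists_rep c
  obtain ⟨d, rfl⟩ := exists_org K v
  obtain ⟨s, hs⟩ := hc d rfl
  rcases B.mem_cases hs with h | h | h | h | h | h
  · exact Or.inl ⟨s, by rw [← h]; rfl⟩
  · exact Or.inr (Or.inr ⟨s, by rw [(run1 B s).2, ← (run1 B s).1 d h]; rfl⟩)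
  · exact Or.inr (Or.inr ⟨s, by rw [← h]; rfl⟩)
  · exact Or.inr (Or.inl ⟨s, by rw [← h]; rfl⟩)
  · obtain ⟨v, -, hv⟩ := step_e hc s ((run2 B s).1 d h).symm
    exact Or.inr (Or.inr ⟨v, hv⟩)
  · obtain ⟨v, -, hv⟩ := step_e hc s (by rw [← (run2 B s).2, ← h]; rfl)
    exact Or.inr (Or.inr ⟨v, hv⟩)

open Classical in
/-- the cycles -/
noncomputable def cycs {S : Type} [Fintype S] (f : S ≃. S) : Finset (Finset S) :=
  (univ.filter (Per f)).image (orb f)

lemma mem_cycs {S : Type} [Fintype S] {f : S ≃. S} {s : S} (h : Per f s) : orb f s ∈ cycs f := by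
  classical
  unfold cycs
  exact mem_image.2 ⟨s, mem_filter.2 ⟨mem_univ _, h⟩, rfl⟩

open Classical in
/-- value of a function on an element of a finset -/
noncomputable def pick {S C : Type} (φ : S → C) (c0 : C) (O : Finset S) : C :=
  if h : O.Nonempty then φ h.choose else c0

lemma pick_orb {S C : Type} [Fintype S] {φ : S → C} {c0 c : C} {f : S ≃. S} {s : S}
    (h : ∀ t ∈ orb f s, φ t = c) : pick φ c0 (orb f s) = c := by
  have hne : (orb f s).Nonempty := ⟨s, self_mem_orb f s⟩
  unfold pick
  rw [dif_pos hne]
  exact h _ hne.choose_spec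

open Classical in
lemma card_int_le [Nonempty K.E] :
    (univ.filter (fun c => Int B c)).card ≤
      cyc (gX B) + cyc (gY B) + cyc (gXY B) := by
  obtain ⟨e⟩ := ‹Nonempty K.E›
  have : Nonempty K.E := ⟨e⟩
  let c0 : Cls K := cl K (K.org (e, true))
  have hsub : univ.filter (fun c => Int B c) ⊆
      (cycs (gX B)).image (pick (fun s => cl K (K.org (B.xs s))) c0) ∪
      (cycs (gY B)).image (pick (fun s => cl K (K.org (B.ye s))) c0) ∪
      (cycs (gXY B)).image (pick (fun s => cl K (K.org (B.ys s))) c0) := by
    intro c hc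
    have hc : Int B c := (mem_filter.1 hc).2
    rw [mem_union, mem_union]
    rcases int_cases hc with ⟨s, hs⟩ | ⟨s, hs⟩ | ⟨s, hs⟩
    · left; left
      obtain ⟨h1, h2⟩ := per_of_step (f := (gX B))
        (P := fun s => cl K (K.org (B.xs s)) = c) (fun s hs => step_X hc s hs) hs
      exact mem_image.2 ⟨orb (gX B) s, mem_cycs h1, pick_orb h2⟩
    · left; right
      obtain ⟨h1, h2⟩ := per_of_step (f := (gY B))
        (P := fun s => cl K (K.org (B.ye s)) = c) (fun s hs => step_Y hc s hs) hs
      exact mem_image.2 ⟨orb (gY B) s, mem_cycs h1, pick_orb h2⟩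
    · right
      obtain ⟨h1, h2⟩ := per_of_step (f := (gXY B))
        (P := fun s => cl K (K.org (B.ys s)) = c) (fun s hs => step_XY hc s hs) hs
      exact mem_image.2 ⟨orb (gXY B) s, mem_cycs h1, pick_orb h2⟩
  refine le_trans (card_le_card hsub) (le_trans (card_union_le _ _) ?_)
  refine Nat.add_le_add (le_trans (card_union_le _ _) (Nat.add_le_add ?_ ?_)) ?_
  · exact card_image_le
  · exact card_image_le
  · exact card_image_le

/-! ## Counting edges -/

variable (B) in
open Classical in
/-- edges with both darts on squares and a non-t label -/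
noncomputable def innE : Finset K.E :=
  univ.filter (fun e => K.lab e ≠ .t ∧ ∀ b : Bool, ∃ s, (e, b) ∈ K.bd (B.j s))

open Classical in
lemma dom_le : domc (gX B) + domc (gY B) ≤ (innE B).card := by
  have hX : (univ.filter (fun s => ((gX B) s).isSome)).card =
      ((univ.filter (fun s => ((gX B) s).isSome)).image (fun s => (B.xs s).1)).card := by
    refine (card_image_of_injective _ ?_).symm
    intro s s' h
    have h1 : B.xs s = B.xs s' := Prod.ext h (by rw [B.sg_xs, B.sg_xs])
    exact B.inj (K.face_unique (B.xs_mem s) (by rw [h1]; exact B.xs_mem s'))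
  have hY : (univ.filter (fun s => ((gY B) s).isSome)).card =
      ((univ.filter (fun s => ((gY B) s).isSome)).image (fun s => (B.ye s).1)).card := by
    refine (card_image_of_injective _ ?_).symm
    intro s s' h
    have h1 : B.ye s = B.ye s' := Prod.ext h (by rw [B.sg_ye, B.sg_ye])
    exact B.inj (K.face_unique (B.ye_mem s) (by rw [h1]; exact B.ye_mem s'))
  have hd : domc (gX B) = (univ.filter (fun s => ((gX B) s).isSome)).card := rfl
  have hd' : domc (gY B) = (univ.filter (fun s => ((gY B) s).isSome)).card := rfl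
  rw [hd, hd', hX, hY, ← card_union_of_disjoint]
  · refine card_le_card ?_
    intro e he
    rcases mem_union.1 he with he | he
    · obtain ⟨s, hs, rfl⟩ := mem_image.1 he
      obtain ⟨s', hs'⟩ := Option.isSome_iff_exists.1 (mem_filter.1 hs).2
      refine mem_filter.2 ⟨mem_univ _, (by rw [B.lab_xs]; intro h; cases h), ?_⟩
      have h1 : rv (B.xs s) = B.xe s' := B.X_eq_some.1 hs'
      intro b
      cases b
      · refine ⟨s', ?_⟩
        have : ((B.xs s).1, false) = B.xe s' := by
          rw [← h1]
          exact Prod.ext rfl (by rw [rv_snd, B.sg_xs]; rfl)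
        rw [this]
        exact B.xe_mem s'
      · refine ⟨s, ?_⟩
        have : ((B.xs s).1, true) = B.xs s := Prod.ext rfl (by rw [B.sg_xs])
        rw [this]
        exact B.xs_mem s
    · obtain ⟨s, hs, rfl⟩ := mem_image.1 he
      obtain ⟨s', hs'⟩ := Option.isSome_iff_exists.1 (mem_filter.1 hs).2
      refine mem_filter.2 ⟨mem_univ _, (by rw [B.lab_ye]; intro h; cases h), ?_⟩
      have h1 : rv (B.ye s) = B.ys s' := B.Y_eq_some.1 hs'
      intro b
      cases b
      · refine ⟨s, ?_⟩
        have : ((B.ye s).1, false) = B.ye s := Prod.ext rfl (by rw [B.sg_ye])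
        rw [this]
        exact B.ye_mem s
      · refine ⟨s', ?_⟩
        have : ((B.ye s).1, true) = B.ys s' := by
          rw [← h1]
          exact Prod.ext rfl (by rw [rv_snd, B.sg_ye]; rfl)
        rw [this]
        exact B.ys_mem s'
  · rw [disjoint_left]
    intro e he he'
    obtain ⟨s, -, rfl⟩ := mem_image.1 he
    obtain ⟨s', -, h⟩ := mem_image.1 he'
    have h1 : K.lab (B.ye s').1 = K.lab (B.xs s).1 := congrArg K.lab h
    rw [B.lab_ye, B.lab_xs] at h1
    cases h1

open Classical in
/-- general inequality: `out` = the outer boundary list (darts not on squares) -/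
theorem eul_core [Nonempty K.E] (out : List (K.E × Bool))
    (hc : out.IsChain (fun a b => K.org b = K.org (rv a)))
    (h1 : ∀ d ∈ out, ¬ ∃ s, d ∈ K.bd (B.j s))
    (h2 : ∀ d, (¬ ∃ s, d ∈ K.bd (B.j s)) → d ∈ out) :
    domc (gX B) + domc (gY B) ≤
      Fintype.card K.F + cyc (gX B) + cyc (gY B) + cyc (gXY B) := by
  have e1 := card_V_le K
  have e2 := K.euler
  have e3 : Fintype.card (Cls K) ≤
      (univ.filter (fun c => Int B c)).card + (vs K out).card := by
    rw [← card_univ]
    refine le_trans (card_le_card (t := univ.filter (fun c => Int B c) ∪ vs K out) ?_)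
      (card_union_le _ _)
    intro c _
    rw [mem_union]
    by_cases h : Int B c
    · exact Or.inl (mem_filter.2 ⟨mem_univ _, h⟩)
    · right
      unfold Int at h
      push Not at h
      obtain ⟨d, hd, hd2⟩ := h
      exact mem_filter.2 ⟨mem_univ _, d, h2 d (by push Not; exact hd2), Or.inl hd⟩
  have e4 := vs_le K out hc
  have e5 : (es K out).card + (innE B).card + Fintype.card {e : K.E // K.lab e = .t} ≤
      Fintype.card K.E := by
    rw [Fintype.card_subtype, ← card_union_of_disjoint, ← card_union_of_disjoint]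
    · exact card_le_univ _
    · rw [disjoint_left]
      intro e he he'
      have ht := (mem_filter.1 he').2
      rcases mem_union.1 he with h | h
      · exact (mem_filter.1 h).2.1 ht
      · exact (mem_filter.1 h).2.1 ht
    · rw [disjoint_left]
      intro e he he'
      obtain ⟨-, -, d, hd, rfl⟩ := mem_filter.1 he
      exact h1 d hd ((mem_filter.1 he').2.2 d.2)
  have e6 := dom_le (B := B)
  have e7 := card_int_le (B := B)
  omega

/-- `Eul` for the disc -/
theorem eulD (K : SqK σ) : (brD K).glue.Eul := by
  show domc (gX (brD K)) + domc (gY (brD K)) ≤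
    Fintype.card K.F + cyc (gX (brD K)) + cyc (gY (brD K)) + cyc (gXY (brD K))
  by_cases hE : Nonempty K.E
  · refine eul_core (B := brD K) (K.bd none) (K.chain none) ?_ ?_
    · rintro d hd ⟨s, hs⟩
      exact absurd (K.face_unique hd hs) (by simp [brD])
    · intro d hd
      obtain ⟨f, hf⟩ := K.exists_face d
      cases f with
      | none => exact hf
      | some f => exact absurd ⟨f, hf⟩ hd
  · have h1 : IsEmpty K.F := ⟨fun f => hE ⟨((brD K).xs f).1⟩⟩
    have h2 : domc (gX (brD K)) ≤ Fintype.card K.F := domc_le_card _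
    have h3 : domc (gY (brD K)) ≤ Fintype.card K.F := domc_le_card _
    have h4 : Fintype.card K.F = 0 := Fintype.card_eq_zero
    omega

/-- `Eul` for the sphere -/
theorem eulS (K : SqK σ) (q0 : Port p n) (h : K.outw = relw σ q0) : (brS K q0 h).glue.Eul := by
  show domc (gX (brS K q0 h)) + domc (gY (brS K q0 h)) ≤
    Fintype.card (Option K.F) + cyc (gX (brS K q0 h)) + cyc (gY (brS K q0 h)) +
      cyc (gXY (brS K q0 h))
  have : Nonempty K.E := ⟨((brS K q0 h).xs none).1⟩
  have := eul_core (B := brS K q0 h) [] List.isChain_nil (by simp) (fun d hd =>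
    absurd (K.exists_face d) hd)
  rw [Fintype.card_option]
  omega

end Vale.Agent.P201.Z.BrEul
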