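import Vale.Agent.P201.Z.D.BrDefs

/-!
P201, part D6/D7 (bridge): weight inequality of the disc, full domains of the sphere (helper611).
-/

namespace Vale.Agent.P201.Z

open Finset

namespace BrW

/-- domain and range of a partial equivalence have the same size -/
theorem domc_symm {S : Type} [Fintype S] (f : S ≃. S) : domc f.symm = domc f := by
  classical
  unfold domc
  refine Finset.card_bij' (fun s hs => (f.symm s).get (by simpa using hs))
    (fun s hs => (f s).get (by simpa using hs)) ?_ ?_ ?_ ?_
  · intro s hs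
    have hs' : (f.symm s).isSome := by simpa using hs
    have e : f.symm s = some ((f.symm s).get hs') := (Option.some_get hs').symm
    have e2 := (PEquiv.eq_some_iff f).1 e
    simp [e2]
  · intro s hs
    have hs' : (f s).isSome := by simpa using hs
    have e : f s = some ((f s).get hs') := (Option.some_get hs').symm
    have e2 := (PEquiv.eq_some_iff f).2 e
    simp [e2]
  · intro s hs
    have hs' : (f.symm s).isSome := by simpa using hs
    have e : f.symm s = some ((f.symm s).get hs') := (Option.some_get hs').symm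
    have e2 := (PEquiv.eq_some_iff f).1 e
    simp [e2]
  · intro s hs
    have hs' : (f s).isSome := by simpa using hs
    have e : f s = some ((f s).get hs') := (Option.some_get hs').symm
    have e2 := (PEquiv.eq_some_iff f).2 e
    simp [e2]

theorem card_none_add_domc {S : Type} [Fintype S] (f : S ≃. S) (A : Finset S)
    (hA : ∀ s, s ∈ A ↔ f s = none) : A.card + domc f = Fintype.card S := by
  classical
  unfold domc
  rw [← Finset.card_univ, ← Finset.card_filter_add_card_filter_not (s := (univ : Finset S))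
    (fun s => f s = none)]
  congr 2
  · ext s
    simp [hA]
  · ext s
    simp [Option.isSome_iff_ne_none]

end BrW

variable {p : Pat} {n : ℕ} {σ : Equiv.Perm (Cel p n)}

namespace Br

variable {K : PC (Let p n)} (B : Br σ K)

theorem brw_xs_inj {s t : B.S} (h : B.xs s = B.xs t) : s = t :=
  B.inj (K.face_unique (B.xs_mem s) (h ▸ B.xs_mem t))
theorem brw_ys_inj {s t : B.S} (h : B.ys s = B.ys t) : s = t :=
  B.inj (K.face_unique (B.ys_mem s) (h ▸ B.ys_mem t))
theorem brw_ye_inj {s t : B.S} (h : B.ye s = B.ye t) : s = t :=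
  B.inj (K.face_unique (B.ye_mem s) (h ▸ B.ye_mem t))
theorem brw_xe_inj {s t : B.S} (h : B.xe s = B.xe t) : s = t :=
  B.inj (K.face_unique (B.xe_mem s) (h ▸ B.xe_mem t))

theorem brw_fs_eq_none {d : K.E × Bool} : B.fs d = none ↔ ∀ s, d ∉ K.bd (B.j s) := by
  constructor
  · intro h s hs
    rw [B.fs_eq_some.2 hs] at h
    exact absurd h (by simp)
  · intro h
    cases e : B.fs d with
    | none => rfl
    | some s => exact absurd (B.fs_eq_some.1 e) (h s)

/-- sphere: the domains are full -/
theorem brw_domc_full (hj : Function.Surjective B.j) :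
    domc B.glue.X = Fintype.card B.S ∧ domc B.glue.Y = Fintype.card B.S := by
  classical
  have key : ∀ d, (B.fs d).isSome = true := by
    intro d
    obtain ⟨s, hs⟩ := hj (K.fc d)
    have : B.fs d = some s := B.fs_eq_some.2 (hs ▸ K.mem_fc d)
    rw [this]
    rfl
  have hX : ∀ s, (B.glue.X s).isSome = true := fun s => key (rv (B.xs s))
  have hY : ∀ s, (B.glue.Y s).isSome = true := fun s => key (rv (B.ye s))
  constructor
  · unfold domc
    rw [Finset.filter_true_of_mem (fun s _ => hX s)]
    rfl
  · unfold domc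
    rw [Finset.filter_true_of_mem (fun s _ => hY s)]
    rfl

end Br

/-- domains on the sphere -/
theorem brw_domc_S (K : SqK σ) (q0 : Port p n) (h : K.outw = relw σ q0) :
    domc (brS K q0 h).glue.X = Fintype.card K.F + 1 ∧
    domc (brS K q0 h).glue.Y = Fintype.card K.F + 1 := by
  have h1 := (brS K q0 h).brw_domc_full Function.surjective_id
  have h2 : Fintype.card (brS K q0 h).S = Fintype.card K.F + 1 := Fintype.card_option
  rw [h2] at h1
  exact h1

namespace SqK

variable (K : SqK σ)

theorem brw_fsD_none {d : K.E × Bool} : (brD K).fs d = none ↔ d ∈ K.bd none := by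
  rw [Br.brw_fs_eq_none]
  constructor
  · intro h
    obtain ⟨g, hg⟩ := K.exists_face d
    cases g with
    | none => exact hg
    | some g => exact absurd hg (h g)
  · intro h s hs
    have h1 : (none : Option K.F) = some s := K.face_unique h hs
    exact absurd h1 (by simp)

theorem brw_wtw_winv (Y : ℕ) (l : List (Let p n × Bool)) :
    wtw Y (winv l) = (l.map (fun a => wtl Y a.1)).sum := by
  unfold wtw winv
  rw [List.map_reverse, List.sum_reverse, List.map_map]
  rfl

theorem brw_wtw_outw (Y : ℕ) :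
    wtw Y K.outw = ∑ d ∈ (K.bd none).toFinset, wtl Y (K.lab d.1) := by
  unfold outw
  rw [brw_wtw_winv, PC.wd, List.map_map, List.sum_toFinset _ (K.bd_nodup none)]
  rfl

/-- the weight inequality of the bridge -/
theorem brw_weight_D (Y : ℕ) :
    2 * (Fintype.card K.F - domc (brD K).glue.X) +
      Y * (2 * (Fintype.card K.F - domc (brD K).glue.Y)) ≤ wtw Y K.outw := by
  classical
  have c1' : ∀ s : K.F, (brD K).glue.X s = none ↔ rv ((brD K).xs s) ∈ K.bd none :=
    fun s => K.brw_fsD_none
  have c2' : ∀ s : K.F, (brD K).glue.Y s = none ↔ rv ((brD K).ye s) ∈ K.bd none :=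
    fun s => K.brw_fsD_none
  have c3' : ∀ s : K.F, (brD K).glue.X.symm s = none ↔ rv ((brD K).xe s) ∈ K.bd none :=
    fun s => K.brw_fsD_none
  have c4' : ∀ s : K.F, (brD K).glue.Y.symm s = none ↔ rv ((brD K).ys s) ∈ K.bd none :=
    fun s => K.brw_fsD_none
  set A1 : Finset K.F := univ.filter (fun s : K.F => (brD K).glue.X s = none) with hA1
  set A2 : Finset K.F := univ.filter (fun s : K.F => (brD K).glue.Y s = none) with hA2
  set A3 : Finset K.F := univ.filter (fun s : K.F => (brD K).glue.X.symm s = none) with hA3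
  set A4 : Finset K.F := univ.filter (fun s : K.F => (brD K).glue.Y.symm s = none) with hA4
  have e1 : A1.card + domc (brD K).glue.X = Fintype.card K.F :=
    BrW.card_none_add_domc (S := K.F) (brD K).glue.X A1 (fun s => by rw [hA1, Finset.mem_filter]; exact ⟨fun h => h.2, fun h => ⟨Finset.mem_univ _, h⟩⟩)
  have e2 : A2.card + domc (brD K).glue.Y = Fintype.card K.F :=
    BrW.card_none_add_domc (S := K.F) (brD K).glue.Y A2 (fun s => by rw [hA2, Finset.mem_filter]; exact ⟨fun h => h.2, fun h => ⟨Finset.mem_univ _, h⟩⟩)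
  have e3 : A3.card + domc (brD K).glue.X = Fintype.card K.F := by
    rw [← BrW.domc_symm (S := (brD K).glue.S)]
    exact BrW.card_none_add_domc (S := K.F) (brD K).glue.X.symm A3 (fun s => by rw [hA3, Finset.mem_filter]; exact ⟨fun h => h.2, fun h => ⟨Finset.mem_univ _, h⟩⟩)
  have e4 : A4.card + domc (brD K).glue.Y = Fintype.card K.F := by
    rw [← BrW.domc_symm (S := (brD K).glue.S)]
    exact BrW.card_none_add_domc (S := K.F) (brD K).glue.Y.symm A4 (fun s => by rw [hA4, Finset.mem_filter]; exact ⟨fun h => h.2, fun h => ⟨Finset.mem_univ _, h⟩⟩)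
  set B := (K.bd none).toFinset with hB
  set T1 := A1.image (fun f => rv ((brD K).xs f)) with hT1
  set T2 := A2.image (fun f => rv ((brD K).ye f)) with hT2
  set T3 := A3.image (fun f => rv ((brD K).xe f)) with hT3
  set T4 := A4.image (fun f => rv ((brD K).ys f)) with hT4
  have c1 : T1.card = A1.card := Finset.card_image_of_injective _
    (fun _ _ h => (brD K).brw_xs_inj (rv_inj h))
  have c2 : T2.card = A2.card := Finset.card_image_of_injective _
    (fun _ _ h => (brD K).brw_ye_inj (rv_inj h))
  have c3 : T3.card = A3.card := Finset.card_image_of_injective _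
    (fun _ _ h => (brD K).brw_xe_inj (rv_inj h))
  have c4 : T4.card = A4.card := Finset.card_image_of_injective _
    (fun _ _ h => (brD K).brw_ys_inj (rv_inj h))
  have hd1 : ∀ d ∈ T1, (∃ i b, K.lab d.1 = Let.x i b) ∧ d.2 = false := by
    intro d hd
    obtain ⟨f, -, rfl⟩ := Finset.mem_image.1 hd
    exact ⟨⟨_, _, (brD K).lab_xs f⟩, by rw [rv_snd, (brD K).sg_xs]; rfl⟩
  have hd3 : ∀ d ∈ T3, (∃ i b, K.lab d.1 = Let.x i b) ∧ d.2 = true := by
    intro d hd
    obtain ⟨f, -, rfl⟩ := Finset.mem_image.1 hd
    exact ⟨⟨_, _, (brD K).lab_xe f⟩, by rw [rv_snd, (brD K).sg_xe]; rfl⟩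
  have hd2 : ∀ d ∈ T2, (∃ j, K.lab d.1 = Let.y j) ∧ d.2 = true := by
    intro d hd
    obtain ⟨f, -, rfl⟩ := Finset.mem_image.1 hd
    exact ⟨⟨_, (brD K).lab_ye f⟩, by rw [rv_snd, (brD K).sg_ye]; rfl⟩
  have hd4 : ∀ d ∈ T4, (∃ j, K.lab d.1 = Let.y j) ∧ d.2 = false := by
    intro d hd
    obtain ⟨f, -, rfl⟩ := Finset.mem_image.1 hd
    exact ⟨⟨_, (brD K).lab_ys f⟩, by rw [rv_snd, (brD K).sg_ys]; rfl⟩
  have d13 : Disjoint T1 T3 := by
    rw [Finset.disjoint_left]
    intro d h h'
    have := (hd1 d h).2
    rw [(hd3 d h').2] at this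
    exact absurd this (by simp)
  have d24 : Disjoint T2 T4 := by
    rw [Finset.disjoint_left]
    intro d h h'
    have := (hd2 d h).2
    rw [(hd4 d h').2] at this
    exact absurd this (by simp)
  have dx : Disjoint (T1 ∪ T3) (T2 ∪ T4) := by
    rw [Finset.disjoint_left]
    intro d h h'
    have h1 : ∃ i b, K.lab d.1 = Let.x i b := by
      rcases Finset.mem_union.1 h with h | h
      · exact (hd1 d h).1
      · exact (hd3 d h).1
    have h2 : ∃ j, K.lab d.1 = Let.y j := by
      rcases Finset.mem_union.1 h' with h | h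
      · exact (hd2 d h).1
      · exact (hd4 d h).1
    obtain ⟨i, b, h1⟩ := h1
    obtain ⟨j, h2⟩ := h2
    rw [h1] at h2
    exact absurd h2 (by simp)
  have hsub : (T1 ∪ T3) ∪ (T2 ∪ T4) ⊆ B := by
    intro d hd
    rw [hB, List.mem_toFinset]
    rcases Finset.mem_union.1 hd with h | h
    · rcases Finset.mem_union.1 h with h | h
      · obtain ⟨f, hf, rfl⟩ := Finset.mem_image.1 h
        exact (c1' f).1 (Finset.mem_filter.1 hf).2
      · obtain ⟨f, hf, rfl⟩ := Finset.mem_image.1 h
        exact (c3' f).1 (Finset.mem_filter.1 hf).2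
    · rcases Finset.mem_union.1 h with h | h
      · obtain ⟨f, hf, rfl⟩ := Finset.mem_image.1 h
        exact (c2' f).1 (Finset.mem_filter.1 hf).2
      · obtain ⟨f, hf, rfl⟩ := Finset.mem_image.1 h
        exact (c4' f).1 (Finset.mem_filter.1 hf).2
  have s1 : ∑ d ∈ T1 ∪ T3, wtl Y (K.lab d.1) = A1.card + A3.card := by
    rw [← c1, ← c3, ← Finset.card_union_of_disjoint d13, Finset.card_eq_sum_ones]
    refine Finset.sum_congr rfl fun d h => ?_
    have h1 : ∃ i b, K.lab d.1 = Let.x i b := by
      rcases Finset.mem_union.1 h with h | h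
      · exact (hd1 d h).1
      · exact (hd3 d h).1
    obtain ⟨i, b, h1⟩ := h1
    rw [h1]
    rfl
  have s2 : ∑ d ∈ T2 ∪ T4, wtl Y (K.lab d.1) = Y * (A2.card + A4.card) := by
    rw [← c2, ← c4, ← Finset.card_union_of_disjoint d24, mul_comm, Finset.card_eq_sum_ones,
      Finset.sum_mul]
    refine Finset.sum_congr rfl fun d h => ?_
    have h1 : ∃ j, K.lab d.1 = Let.y j := by
      rcases Finset.mem_union.1 h with h | h
      · exact (hd2 d h).1
      · exact (hd4 d h).1
    obtain ⟨j, h1⟩ := h1
    rw [h1, one_mul]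
    rfl
  have key : ∑ d ∈ (T1 ∪ T3) ∪ (T2 ∪ T4), wtl Y (K.lab d.1) ≤ ∑ d ∈ B, wtl Y (K.lab d.1) :=
    Finset.sum_le_sum_of_subset hsub
  rw [Finset.sum_union dx, s1, s2] at key
  rw [K.brw_wtw_outw]
  refine le_trans (le_of_eq ?_) key
  have f1 : Fintype.card K.F - domc (brD K).glue.X = A1.card := by omega
  have f3 : A3.card = A1.card := by omega
  have f2 : Fintype.card K.F - domc (brD K).glue.Y = A2.card := by omega
  have f4 : A4.card = A2.card := by omega
  rw [f1, f2, f3, f4]
  ring

end SqK

end Vale.Agent.P201.Z
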