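import Vale.Agent.P201.Z.D.BrEulI
import Vale.Agent.P201.Z.D.BrWeight

/-!
P201, part D6: `StmtBrEulD` (Eul: helper112, weight: helper611).
-/

namespace Vale.Agent.P201.Z

theorem stmtBrEulD : StmtBrEulD := fun _ _ _ K => ⟨eul_disc K, fun Y => K.brw_weight_D Y⟩

end Vale.Agent.P201.Z
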