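import Vale.Agent.P201.Z.D.EulCore
import Vale.Agent.P201.Z.D.BrDefs

/-!
P201, part D6/D7: `Eul` for the gluing data of a planar complex, disc and sphere (helper112).
-/

namespace Vale.Agent.P201.Z

open Finset

variable {p : Pat} {n : ℕ}

namespace Br

variable {σ : Equiv.Perm (Cel p n)} {K : PC (Let p n)} (B : Br σ K)

/-- along a chain of darts whose inner darts are t-darts the value of an invariant map is constant -/
private lemma eu_chain {V E : Type} (org : E × Bool → V) (isT : E → Prop) (r : V → V)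
    (hr : ∀ d : E × Bool, isT d.1 → r (org d) = r (org (rv d))) (a : E × Bool)
    (T : List (E × Bool)) (hT : ∀ d ∈ T, isT d.1) (b : E × Bool) (L : List (E × Bool))
    (h : (a :: (T ++ b :: L)).IsChain (fun a b => org b = org (rv a))) :
    r (org b) = r (org (rv a)) ∧ ∀ d ∈ T, r (org d) = r (org b) := by
  induction T generalizing a with
  | nil =>
    refine ⟨?_, by simp⟩
    rw [List.nil_append, List.isChain_cons_cons] at h
    rw [h.1]
  | cons c T ih =>
    rw [List.cons_append, List.isChain_cons_cons] at h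
    obtain ⟨h1, h2⟩ := ih c (fun d hd => hT d (List.mem_cons_of_mem _ hd)) h.2
    have h3 := hr c (hT c List.mem_cons_self)
    refine ⟨by rw [h1, ← h3, h.1], ?_⟩
    intro d hd
    rcases List.mem_cons.1 hd with rfl | hd
    · rw [h3, h1]
    · exact h2 d hd

/-- Euler inequality for a family of squares -/
theorem eul_of (l : List (K.E × Bool)) (F : ℕ) (hF : F ≤ Fintype.card B.S)
    (euler : Fintype.card K.V + F = Fintype.card K.E + 1)
    (hcov : ∀ d, d ∈ l ∨ ∃ s, d ∈ K.bd (B.j s))
    (hdl : ∀ s d, d ∈ K.bd (B.j s) → d ∉ l)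
    (hch : l.IsChain (fun a b => K.org b = K.org (rv a)))
    (hcl : ∀ a ∈ l.getLast?, ∀ b ∈ l.head?, K.org b = K.org (rv a)) : B.glue.Eul := by
  have htt : ∀ r : K.V → K.V, (∀ d : K.E × Bool, K.lab d.1 = Let.t → r (K.org d) = r (K.org (rv d))) →
      ∀ s, (r (K.org (B.ys s)) = r (K.org (rv (B.xs s))) ∧
        ∀ d ∈ (B.sd s).T1, r (K.org d) = r (K.org (B.ys s))) ∧
      (r (K.org (B.xe s)) = r (K.org (rv (B.ye s))) ∧
        ∀ d ∈ (B.sd s).T2, r (K.org d) = r (K.org (B.xe s))) := by
    intro r hr s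
    have h := B.chain_s s
    refine ⟨eu_chain K.org (fun e => K.lab e = Let.t) r hr (B.xs s) (B.sd s).T1
      (fun d hd => B.lab_T1 s hd) (B.ys s) _ h, ?_⟩
    rw [← List.cons_append] at h
    have h2 := (List.isChain_cons_cons.1 (List.isChain_append.1 h).2.1).2
    exact eu_chain K.org (fun e => K.lab e = Let.t) r hr (B.ye s) (B.sd s).T2
      (fun d hd => B.lab_T2 s hd) (B.xe s) [] h2
  refine EulCore.eul_core K.org (fun e => K.lab e = Let.t) (fun s => K.bd (B.j s)) l B.xs B.ys B.ye
    B.xe B.glue.X B.glue.Y F hF euler (fun s s' => B.X_eq_some) (fun s s' => B.Y_eq_some) hcov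
    (fun s s' d h h' => B.inj (K.face_unique h h')) hdl hch hcl ?_ ?_ ?_ B.xs_mem B.ye_mem
    B.ys_mem B.xe_mem B.sg_xs B.sg_ye ?_ ?_ ?_ B.org_xs B.org_ye ?_ ?_ ?_
  · rintro ⟨s⟩ v
    by_contra hv
    push Not at hv
    have h1 : K.org (B.xs s) = v := by
      have h2 := K.conn (K.org (B.xs s)) v
      rcases Relation.ReflTransGen.cases_tail h2 with h3 | ⟨c, -, d, hd, hd'⟩
      · exact h3.symm
      · exact absurd hd' (hv (rv d))
    exact hv _ h1
  · intro s s' h
    exact B.eq_xe h (by rw [rv_fst, lab_xs]) (by rw [rv_snd, sg_xs]; rfl)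
  · intro s s' h
    exact B.eq_ys h (by rw [rv_fst, lab_ye]) (by rw [rv_snd, sg_ye]; rfl)
  · intro s s' h
    have h1 := B.lab_xs s
    rw [h, B.lab_ye s'] at h1
    cases h1
  · intro s h
    rw [B.lab_xs s] at h
    cases h
  · intro s h
    rw [B.lab_ye s] at h
    cases h
  · intro r hr s
    exact (htt r hr s).1.1.symm
  · intro r hr s
    exact (htt r hr s).2.1.symm
  · intro r hr s d hd
    obtain ⟨⟨h1, h2⟩, h3, h4⟩ := htt r hr s
    rcases B.mem_cases hd with h | h | h | h | h | h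
    · exact Or.inl h
    · exact Or.inr (Or.inr (Or.inl (h2 d h)))
    · exact Or.inr (Or.inr (Or.inl (by rw [h])))
    · exact Or.inr (Or.inl h)
    · exact Or.inr (Or.inr (Or.inr (h4 d h)))
    · exact Or.inr (Or.inr (Or.inr (by rw [h])))

theorem eul_X_isSome (s s' : B.S) (h : rv (B.xs s) ∈ K.bd (B.j s')) :
    (B.glue.X s).isSome = true := by
  rw [Option.isSome_iff_exists]
  exact ⟨s', B.X_eq_some.2 (B.eq_xe h (by rw [rv_fst, lab_xs]) (by rw [rv_snd, sg_xs]; rfl))⟩

theorem eul_Y_isSome (s s' : B.S) (h : rv (B.ye s) ∈ K.bd (B.j s')) :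
    (B.glue.Y s).isSome = true := by
  rw [Option.isSome_iff_exists]
  exact ⟨s', B.Y_eq_some.2 (B.eq_ys h (by rw [rv_fst, lab_ye]) (by rw [rv_snd, sg_ye]; rfl))⟩

end Br

/-- Eul, disc -/
theorem eul_disc {σ : Equiv.Perm (Cel p n)} (K : SqK σ) : (brD K).glue.Eul := by
  refine (brD K).eul_of (K.bd none) (Fintype.card K.F) le_rfl K.euler ?_ ?_ (K.chain none)
    (K.closed none)
  · intro d
    obtain ⟨f, hf⟩ := K.toPC.exists_face d
    cases f with
    | none => exact Or.inl hf
    | some f => exact Or.inr ⟨f, hf⟩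
  · intro s d h h'
    have := K.toPC.face_unique (show d ∈ K.bd (some s) from h) h'
    cases this

/-- Eul, sphere -/
theorem eul_sphere {σ : Equiv.Perm (Cel p n)} (K : SqK σ) (q0 : Port p n)
    (h : K.outw = relw σ q0) : (brS K q0 h).glue.Eul := by
  refine (brS K q0 h).eul_of [] (Fintype.card K.F) ?_ K.euler ?_ ?_ List.isChain_nil (by simp)
  · have : Fintype.card (brS K q0 h).S = Fintype.card K.F + 1 := Fintype.card_option
    omega
  · intro d
    exact Or.inr (K.toPC.exists_face d)
  · intro s d _ h'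
    simp at h'

/-- full domains, sphere -/
theorem dom_sphere {σ : Equiv.Perm (Cel p n)} (K : SqK σ) (q0 : Port p n)
    (h : K.outw = relw σ q0) : domc (brS K q0 h).glue.X = Fintype.card K.F + 1 ∧
      domc (brS K q0 h).glue.Y = Fintype.card K.F + 1 := by
  have hc : Fintype.card (brS K q0 h).glue.S = Fintype.card K.F + 1 := Fintype.card_option
  constructor
  · unfold domc
    rw [← hc, Finset.filter_true_of_mem, Finset.card_univ]
    intro s _
    obtain ⟨f, hf⟩ := K.toPC.exists_face (rv ((brS K q0 h).xs s))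
    exact (brS K q0 h).eul_X_isSome s f hf
  · unfold domc
    rw [← hc, Finset.filter_true_of_mem, Finset.card_univ]
    intro s _
    obtain ⟨f, hf⟩ := K.toPC.exists_face (rv ((brS K q0 h).ye s))
    exact (brS K q0 h).eul_Y_isSome s f hf

theorem stmtBrEulS : StmtBrEulS := fun _ _ _ K q0 h => ⟨eul_sphere K q0 h, dom_sphere K q0 h⟩

end Vale.Agent.P201.Z
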