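import Vale.Agent.P201.Z.D.BrEul
import Vale.Agent.P201.Z.D.BrWeight

/-!
P201, part D6/D7 (bridge): StmtBrEulD and StmtBrEulS (helper273, weights by helper611).
-/

namespace Vale.Agent.P201.Z.BrEul

theorem stmtBrEulD : StmtBrEulD :=
  fun _ _ _ K => ⟨BrEul.eulD K, K.brw_weight_D⟩

theorem stmtBrEulS : StmtBrEulS :=
  fun _ _ _ K q0 h => ⟨BrEul.eulS K q0 h, brw_domc_S K q0 h⟩

end Vale.Agent.P201.Z.BrEul
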