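import Vale.Agent.P201.Z.D.LabConn
import Vale.Agent.P201.Z.D.BndA

/-!
P201, part D6 (helper43): heights of the vertices along the t-edges.

`PosO K`: a function `τ` on the vertices rising by 1 along every t-edge except at most one edge,
which lies on the outer boundary.
-/

namespace Vale.Agent.P201.Z.Pos

open Finset Relation LabConn

variable {p : Pat} {n : ℕ} {σ : Equiv.Perm (Cel p n)}

/-- heights along t-edges; at most one exceptional edge, on the outer boundary -/
def PosO (K : PC (Let p n)) : Prop := ∃ (τ : K.V → ℤ) (O : K.E → Prop),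
  (∀ e e', O e → O e' → e = e') ∧ (∀ e, O e → ∃ b, (e, b) ∈ K.bd none) ∧
  ∀ e, K.lab e = Let.t → ¬ O e → τ (K.org (e, false)) = τ (K.org (e, true)) + 1

/-- heights along t-edges, no exception -/
def PosN (K : PC (Let p n)) : Prop := ∃ (τ : K.V → ℤ),
  ∀ e, K.lab e = Let.t → τ (K.org (e, false)) = τ (K.org (e, true)) + 1

/-! ### exponent of t -/

open Classical in
/-- total exponent of `t` -/
noncomputable def te : FreeGroup (Let p n) →* Multiplicative ℤ :=
  FreeGroup.lift (fun a => if a = Let.t then Multiplicative.ofAdd 1 else 1)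

theorem te_t : te (FreeGroup.mk [((Let.t : Let p n), true)]) = Multiplicative.ofAdd 1 := by
  simp [te]

/-- powers of t -/
theorem mk_all_t (l : List (Let p n × Bool)) (h : ∀ a ∈ l, a.1 = Let.t) :
    ∃ m : ℤ, FreeGroup.mk l = (FreeGroup.of (Let.t : Let p n)) ^ m := by
  induction l with
  | nil => exact ⟨0, by simp [FreeGroup.one_eq_mk]⟩
  | cons a l ih =>
    obtain ⟨m, hm⟩ := ih (fun a ha => h a (List.mem_cons_of_mem _ ha))
    have ha := h a List.mem_cons_self
    obtain ⟨x, b⟩ := a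
    simp only at ha
    subst ha
    have e1 : FreeGroup.mk ((Let.t, b) :: l) = FreeGroup.mk [((Let.t : Let p n), b)] * FreeGroup.mk l := by
      rw [FreeGroup.mul_mk]; rfl
    cases b with
    | true =>
      refine ⟨1 + m, ?_⟩
      rw [e1, hm, zpow_add, zpow_one]
      rfl
    | false =>
      refine ⟨-1 + m, ?_⟩
      rw [e1, hm, zpow_add, zpow_neg, zpow_one]
      congr 1

theorem val_tw (m : ℤ) : val (tw p n m) = (FreeGroup.of (Let.t : Let p n)) ^ m := by
  have key : ∀ (k : ℕ) (b : Bool), FreeGroup.mk (List.replicate k ((Let.t : Let p n), b)) =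
      (FreeGroup.mk [((Let.t : Let p n), b)]) ^ k := by
    intro k b
    induction k with
    | zero => simp [FreeGroup.one_eq_mk]
    | succ k ih =>
      rw [pow_succ', ← ih, FreeGroup.mul_mk, List.replicate_succ]
      rfl
  rw [val, tw, key]
  rcases le_or_gt 0 m with hm | hm
  · rw [show decide (0 ≤ m) = true from by simpa using hm]
    obtain ⟨k, rfl⟩ := Int.eq_ofNat_of_zero_le hm
    rw [Int.natAbs_natCast, zpow_natCast]
    rfl
  · rw [show decide (0 ≤ m) = false from by simpa using hm]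
    obtain ⟨k, hk⟩ := Int.eq_ofNat_of_zero_le (show 0 ≤ -m by omega)
    have : m = -(k : ℤ) := by omega
    subst this
    rw [Int.natAbs_neg, Int.natAbs_natCast, zpow_neg, zpow_natCast, ← inv_pow]
    congr 1

/-- conjugates of expressions -/
theorem expr_conj {k : ℕ} {u : FreeGroup (Let p n)} {z : Chn σ} (h : Expr σ k u z)
    (w : FreeGroup (Let p n)) : ∃ z', Expr σ k (w * u * w⁻¹) z' := by
  induction h with
  | nil =>
    refine ⟨0, ?_⟩
    rw [mul_one, mul_inv_cancel]
    exact Expr.nil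
  | cons k u z v q _ ih =>
    obtain ⟨z', hz'⟩ := ih
    have h := Expr.cons k _ z' (w * v) q hz'
    have e : w * (v * val (relw σ q) * v⁻¹ * u) * w⁻¹ =
        w * v * val (relw σ q) * (w * v)⁻¹ * (w * u * w⁻¹) := by group
    rw [← e] at h
    exact ⟨_, h⟩

/-! ### bonds whose boundary consists of t-edges -/

theorem bond_ne_nil (K : PC (Let p n)) {C : Finset K.F} (h : K.Bond C) : K.bd none ≠ [] := by
  intro h0
  obtain ⟨f, _⟩ := h.1
  have h1 : ∀ b : Option K.F, ReflTransGen (fun a b => ∃ d, d ∈ K.bd a ∧ rv d ∈ K.bd b) none b →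
      b = none := by
    intro b hb
    induction hb with
    | refl => rfl
    | @tail x y _ hxy ih =>
      subst ih
      obtain ⟨d, h1, _⟩ := hxy
      rw [h0] at h1
      cases h1
  have := h1 (some f) (K.dconn none (some f))
  cases this

/-- value of a bond with t-boundary -/
theorem bond_expr (hBond : StmtBond) (hRec : StmtRec) (K : SqK σ) (P : K.GPot) (C : Finset K.F)
    (hC : K.toPC.Bond C) (ht : ∀ e ∈ K.toPC.bdry C, K.lab e = Let.t) :
    ∃ (T : K.toPC.Cotree) (f : K.F) (m : ℤ) (v : FreeGroup (Let p n)), T.sub f = C ∧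
      P.π T.root = 1 ∧ (∀ d ∈ (K.bd none).head?, K.org d = T.root) ∧
      T.c (T.dd f) = v * val (tw p n m) * v⁻¹ ∧
      Expr σ C.card (v * val (tw p n m) * v⁻¹) (K.chn P C) := by
  obtain ⟨T, f, l, v, h1, h2, h3, h4, h5⟩ := hBond _ K.toPC C hC
  have hroot : P.π T.root = 1 := by
    obtain ⟨d, hd⟩ : ∃ d, d ∈ (K.bd none).head? := by
      cases h : K.bd none with
      | nil => exact absurd h (bond_ne_nil K.toPC hC)
      | cons a l => exact ⟨a, by simp⟩
    rw [← h2 d hd]
    exact P.base d hd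
  obtain ⟨m, hm⟩ := mk_all_t (l.map (fun d => (K.lab d.1, d.2))) (by
    intro a ha
    obtain ⟨d, hd, rfl⟩ := List.mem_map.1 ha
    refine ht d.1 ?_
    rw [← h4, List.mem_toFinset]
    exact List.mem_map_of_mem hd)
  have hR := (hRec p n σ K P T hroot).2 f
  rw [hm, ← val_tw] at h5
  rw [h1, h5] at hR
  exact ⟨T, f, m, v, h1, hroot, h2, h5, hR⟩

/-- (L1), disc -/
theorem bond_univ (hBond : StmtBond) (hRec : StmtRec) (hRepl : StmtRepl) (K : SqK σ) (P : K.GPot)
    (hN : NoRed σ (val K.outw) (Fintype.card K.F) (K.chn P univ))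
    (hp : ∀ (m : ℤ) (k : ℕ) (z : Chn σ), m ≠ 0 → Expr σ k (val (tw p n m)) z → Fintype.card K.F ≤ k)
    (C : Finset K.F) (hC : K.toPC.Bond C) (ht : ∀ e ∈ K.toPC.bdry C, K.lab e = Let.t) :
    C = univ := by
  obtain ⟨T, f, m, v, h1, h2, h3, h4, h5⟩ := bond_expr hBond hRec K P C hC ht
  by_cases hm : m = 0
  · exfalso
    subst hm
    rw [val_tw, zpow_zero, mul_one, mul_inv_cancel] at h4 h5
    have h6 := hRepl p n σ K P T h2 h3 f 0 0 (by rw [h4]; exact Expr.nil)
    rw [h1, add_zero, add_zero] at h6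
    exact hN C.card (K.chn P C) (card_pos.2 hC.1) (card_le_univ C) h5 h6
  · obtain ⟨z', hz'⟩ := expr_conj h5 v⁻¹
    have e : v⁻¹ * (v * val (tw p n m) * v⁻¹) * v⁻¹⁻¹ = val (tw p n m) := by group
    rw [e] at hz'
    exact (card_eq_iff_eq_univ C).1 (le_antisymm (card_le_univ C) (hp m _ _ hm hz'))

/-- (L1), sphere -/
theorem bond_false (hBond : StmtBond) (hRec : StmtRec) (hRepl : StmtRepl) (K : SqK σ) (P : K.GPot)
    (q0 : Port p n) (h : K.outw = relw σ q0)
    (hc : K.chn P univ - pch σ 1 q0 ≠ 0)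
    (hz : ∀ k z, k ≤ Fintype.card K.F → Expr σ k 1 z → z = 0)
    (hp : ∀ (m : ℤ) (k : ℕ) (z : Chn σ), m ≠ 0 → ¬ Expr σ k (val (tw p n m)) z)
    (C : Finset K.F) (hC : K.toPC.Bond C) (ht : ∀ e ∈ K.toPC.bdry C, K.lab e = Let.t) : False := by
  obtain ⟨T, f, m, v, h1, h2, h3, h4, h5⟩ := bond_expr hBond hRec K P C hC ht
  by_cases hm : m = 0
  · subst hm
    rw [val_tw, zpow_zero, mul_one, mul_inv_cancel] at h4 h5
    have h6 := hRepl p n σ K P T h2 h3 f 0 0 (by rw [h4]; exact Expr.nil)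
    rw [h1, add_zero, add_zero] at h6
    have h7 : K.chn P C = 0 := hz _ _ (card_le_univ C) h5
    rw [h7, sub_zero, h] at h6
    have h8 := Expr.cons _ _ _ 1 (mt σ q0) h6
    have e : (1 : FreeGroup (Let p n)) * val (relw σ (mt σ q0)) * 1⁻¹ * val (relw σ q0) = 1 := by
      rw [one_mul, inv_one, mul_one]
      have e1 : relw σ (mt σ q0) = winv (relw σ q0) := by
        have e2 : mt σ (mt σ q0) = q0 := by
          rcases q0 with ⟨c, b⟩
          cases b <;> simp [mt]
        simp only [relw, e2]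
        simp [winv, Function.comp_def]
      have e3 : val (winv (relw σ q0)) = (val (relw σ q0))⁻¹ := by
        rw [val, val, FreeGroup.inv_mk]
        rfl
      rw [e1, e3, inv_mul_cancel]
    rw [e] at h8
    have hcard : Fintype.card K.F - C.card + 1 ≤ Fintype.card K.F := by
      have := card_pos.2 hC.1
      have := card_le_univ C
      omega
    have h9 := hz _ _ hcard h8
    apply hc
    have h10 : pch σ (PresentedGroup.mk (rels σ) 1) (mt σ q0) = - pch σ 1 q0 := by
      rw [map_one]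
      rcases q0 with ⟨c, b⟩
      cases b <;> simp [pch, mt]
    rw [h10] at h9
    rw [← h9]
    abel
  · obtain ⟨z', hz'⟩ := expr_conj h5 v⁻¹
    have e : v⁻¹ * (v * val (tw p n m) * v⁻¹) * v⁻¹⁻¹ = val (tw p n m) := by group
    rw [e] at hz'
    exact hp m _ _ hm hz'

/-! ### from dual trees to heights -/

theorem pos_of_tree (K : PC (Let p n)) (O : K.E → Prop)
    (h : ∀ f : Option K.F, ReflTransGen
      (fun a b => ∃ d, d ∈ K.bd a ∧ rv d ∈ K.bd b ∧ (K.lab d.1 ≠ Let.t ∨ O d.1)) none f)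
    (hV : Nonempty K.V) :
    ∃ τ : K.V → ℤ, ∀ e, K.lab e = Let.t → ¬ O e →
      τ (K.org (e, false)) = τ (K.org (e, true)) + 1 := by
  obtain ⟨par, dd, rank, h1, h2, h3, h4⟩ := allowed_tree K (fun e => K.lab e ≠ Let.t ∨ O e) h
  obtain ⟨C, T, -, hdd, -, -, -⟩ := Bnd.exists_cotree (K := K) ⟨par, dd, rank, h1, h2, h3⟩ hV.some
  refine ⟨fun v => Multiplicative.toAdd (te (C.pot v)), fun e he hO => ?_⟩
  have h5 := C.triv (e, true) (by
    intro f hf
    rw [hdd] at hf
    rcases h4 f with h6 | h6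
    · exact h6 (by rw [hf]; exact he)
    · exact hO (by rw [hf] at h6; exact h6))
  have h6 : K.lt (e, true) = FreeGroup.mk [(Let.t, true)] := by
    unfold PC.lt
    simp only [he]
  have h7 : rv (e, true) = (e, false) := rfl
  rw [h6, h7] at h5
  simp only
  rw [← h5, map_mul, te_t]
  rfl

/-- heights exist, disc version -/
theorem posO_of (hBond : StmtBond) (hRec : StmtRec) (hRepl : StmtRepl) (K : SqK σ) (P : K.GPot)
    (hN : NoRed σ (val K.outw) (Fintype.card K.F) (K.chn P univ))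
    (hp : ∀ (m : ℤ) (k : ℕ) (z : Chn σ), m ≠ 0 → Expr σ k (val (tw p n m)) z → Fintype.card K.F ≤ k) :
    PosO K.toPC := by
  classical
  by_cases hV : Nonempty K.V
  · obtain ⟨oe, h1, h2⟩ := allowed_conn K.toPC (fun e => K.lab e = Let.t)
      (fun C hC ht => bond_univ hBond hRec hRepl K P hN hp C hC ht)
    obtain ⟨τ, hτ⟩ := pos_of_tree K.toPC (fun e => e ∈ oe) h2 hV
    refine ⟨τ, fun e => e ∈ oe, ?_, ?_, hτ⟩
    · intro e e' he he'
      exact Option.mem_unique he he'
    · intro e he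
      obtain ⟨d, hd, hd2, -⟩ := h1 e he
      obtain ⟨x, b⟩ := d
      simp only at hd
      subst hd
      exact ⟨b, hd2⟩
  · exact ⟨fun _ => 0, fun _ => False, fun _ _ h => h.elim, fun _ h => h.elim,
      fun e => absurd ⟨K.org (e, true)⟩ hV⟩

/-- heights exist, sphere version -/
theorem posN_of (hBond : StmtBond) (hRec : StmtRec) (hRepl : StmtRepl) (K : SqK σ) (P : K.GPot)
    (q0 : Port p n) (h : K.outw = relw σ q0)
    (hc : K.chn P univ - pch σ 1 q0 ≠ 0)
    (hz : ∀ k z, k ≤ Fintype.card K.F → Expr σ k 1 z → z = 0)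
    (hp : ∀ (m : ℤ) (k : ℕ) (z : Chn σ), m ≠ 0 → ¬ Expr σ k (val (tw p n m)) z) :
    PosN K.toPC := by
  classical
  by_cases hV : Nonempty K.V
  · have h2 := allowed_conn_none K.toPC (fun e => K.lab e = Let.t)
      (fun C hC ht => bond_false hBond hRec hRepl K P q0 h hc hz hp C hC ht)
    obtain ⟨τ, hτ⟩ := pos_of_tree K.toPC (fun _ => False) (fun f => rtg_mono (by
      rintro a b ⟨d, h3, h4, h5⟩
      exact ⟨d, h3, h4, Or.inl h5⟩) (h2 f)) hV
    exact ⟨τ, fun e he => hτ e he id⟩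
  · exact ⟨fun _ => 0, fun e => absurd ⟨K.org (e, true)⟩ hV⟩

end Vale.Agent.P201.Z.Pos
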