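import Vale.Agent.P201.Z.D.BrDefs
import Vale.Agent.P201.Z.D.OrbTel
import Vale.Agent.P201.Z.D.Pos
import Vale.Agent.P201.Z.F.Good

/-!
P201, part D6 (helper43): `Lab` for the gluing data of a planar complex with heights along the t-edges.
-/

namespace Vale.Agent.P201.Z.BrLab

open Finset

variable {p : Pat} {n : ℕ} {σ : Equiv.Perm (Cel p n)}

/-! ### periodic orbits -/

theorem orb_back {T : Type} [Fintype T] (f : T ≃. T) {s t : T} (hs : Per f s) (ht : t ∈ orb f s) :
    s ∈ orb f t ∧ Per f t ∧ orb f t = orb f s := by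
  obtain ⟨k, hk, hks⟩ := hs
  obtain ⟨j, hj⟩ := (OrbTel.mem_orb f s t).1 ht
  have h1 := OrbTel.pit_mul f hks (j + 1)
  have hle : j + 1 ≤ k * (j + 1) := Nat.le_mul_of_pos_left _ hk
  obtain ⟨r, hr⟩ := Nat.exists_eq_add_of_le hle
  rw [hr, Nat.add_assoc, OrbTel.pit_add, hj] at h1
  have h2 : pit f (1 + r) t = some s := h1
  have h3 : s ∈ orb f t := (OrbTel.mem_orb f t s).2 ⟨_, h2⟩
  refine ⟨h3, ⟨1 + r + j, by omega, ?_⟩, ?_⟩
  · rw [OrbTel.pit_add, h2]
    exact hj
  · ext x
    rw [OrbTel.mem_orb, OrbTel.mem_orb]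
    constructor
    · rintro ⟨i, hi⟩
      exact ⟨j + i, by rw [OrbTel.pit_add, hj]; exact hi⟩
    · rintro ⟨i, hi⟩
      exact ⟨1 + r + i, by rw [OrbTel.pit_add, h2]; exact hi⟩

/-! ### walks along t-edges -/

section walk

variable (K : PC (Let p n))

/-- walk from `a` to `b` -/
def Wk : List (K.E × Bool) → K.V → K.V → Prop
  | [], a, b => a = b
  | d :: l, a, b => K.org d = a ∧ Wk l (K.org (rv d)) b

theorem wk_of_chain (l : List (K.E × Bool)) (d e : K.E × Bool)
    (h : (d :: (l ++ [e])).IsChain (fun a b => K.org b = K.org (rv a))) :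
    Wk K l (K.org (rv d)) (K.org e) := by
  induction l generalizing d with
  | nil =>
    rw [List.nil_append] at h
    exact ((List.isChain_cons_cons.1 h).1).symm
  | cons a l ih =>
    rw [List.cons_append] at h
    have h2 := List.isChain_cons_cons.1 h
    exact ⟨h2.1, ih a h2.2⟩

/-- signed length -/
def sg (l : List Bool) : ℤ := (l.map (fun b => if b then (1 : ℤ) else -1)).sum

theorem wk_height (τ : K.V → ℤ) (O : K.E → Prop)
    (hτ : ∀ e, K.lab e = Let.t → ¬ O e → τ (K.org (e, false)) = τ (K.org (e, true)) + 1)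
    (l : List (K.E × Bool)) (a b : K.V) (h : Wk K l a b) (hl : ∀ d ∈ l, K.lab d.1 = Let.t)
    (hO : ∀ d ∈ l, ¬ O d.1) : τ b = τ a + sg (l.map Prod.snd) := by
  induction l generalizing a with
  | nil =>
    have h' : a = b := h
    rw [h']
    simp [sg]
  | cons d l ih =>
    obtain ⟨h1, h2⟩ := h
    have h3 := ih _ h2 (fun d hd => hl d (List.mem_cons_of_mem _ hd))
      (fun d hd => hO d (List.mem_cons_of_mem _ hd))
    have h4 := hτ d.1 (hl d List.mem_cons_self) (hO d List.mem_cons_self)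
    rw [h3, ← h1]
    obtain ⟨e, s⟩ := d
    cases s
    · have e1 : rv (e, false) = (e, true) := rfl
      rw [e1]
      simp only [sg, List.map_cons, List.sum_cons] at h4 ⊢
      simp only [Bool.false_eq_true, if_false]
      omega
    · have e1 : rv (e, true) = (e, false) := rfl
      rw [e1]
      simp only [sg, List.map_cons, List.sum_cons] at h4 ⊢
      simp only [if_true]
      omega

theorem sg_tw (h : ℤ) : sg ((tw p n h).map Prod.snd) = h := by
  rw [tw, List.map_replicate]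
  simp only [sg, List.map_replicate, List.sum_replicate]
  rcases le_or_gt 0 h with h1 | h1
  · rw [show decide (0 ≤ h) = true from by simpa using h1]
    simp only [if_true, nsmul_eq_mul, mul_one]
    omega
  · rw [show decide (0 ≤ h) = false from by simpa using h1]
    simp only [Bool.false_eq_true, if_false, nsmul_eq_mul]
    omega

theorem sg_winv_tw (h : ℤ) : sg ((winv (tw p n h)).map Prod.snd) = - h := by
  have e : (winv (tw p n h)).map Prod.snd = List.replicate h.natAbs (!decide (0 ≤ h)) := by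
    simp [winv, tw]
  rw [e]
  simp only [sg, List.map_replicate, List.sum_replicate]
  rcases le_or_gt 0 h with h1 | h1
  · rw [show decide (0 ≤ h) = true from by simpa using h1]
    simp only [Bool.not_true, Bool.false_eq_true, if_false, nsmul_eq_mul]
    omega
  · rw [show decide (0 ≤ h) = false from by simpa using h1]
    simp only [Bool.not_false, if_true, nsmul_eq_mul, mul_one]
    omega

end walk

/-! ### heights at the corners of a square -/

section corners

variable {K : PC (Let p n)} (B : Br σ K)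

theorem wk_T1 (s : B.S) : Wk K (B.sd s).T1 (K.org (rv (B.xs s))) (K.org (B.ys s)) := by
  have h := B.chain_s s
  have e : (B.xs s :: ((B.sd s).T1 ++ B.ys s :: B.ye s :: ((B.sd s).T2 ++ [B.xe s]))) =
      (B.xs s :: ((B.sd s).T1 ++ [B.ys s])) ++ (B.ye s :: ((B.sd s).T2 ++ [B.xe s])) := by simp
  rw [e] at h
  exact wk_of_chain K _ _ _ (List.isChain_append.1 h).1

theorem wk_T2 (s : B.S) : Wk K (B.sd s).T2 (K.org (rv (B.ye s))) (K.org (B.xe s)) := by
  have h := B.chain_s s
  have e : (B.xs s :: ((B.sd s).T1 ++ B.ys s :: B.ye s :: ((B.sd s).T2 ++ [B.xe s]))) =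
      (B.xs s :: ((B.sd s).T1 ++ [B.ys s])) ++ (B.ye s :: ((B.sd s).T2 ++ [B.xe s])) := by simp
  rw [e] at h
  exact wk_of_chain K _ _ _ (List.isChain_append.1 h).2.1

variable (τ : K.V → ℤ) (O : K.E → Prop)
    (hτ : ∀ e, K.lab e = Let.t → ¬ O e → τ (K.org (e, false)) = τ (K.org (e, true)) + 1)

include hτ

theorem height_T1 (s : B.S) (h : ∀ d ∈ (B.sd s).T1, ¬ O d.1) :
    τ (K.org (B.ys s)) = τ (K.org (rv (B.xs s))) + ht (B.ε s).1 := by
  rw [wk_height K τ O hτ _ _ _ (wk_T1 B s) (fun d hd => B.lab_T1 s hd) h]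
  have e : (B.sd s).T1.map Prod.snd = (tw p n (ht (B.ε s).1)).map Prod.snd := by
    rw [← (B.sd s).lT1, List.map_map]
    rfl
  rw [e, sg_tw]

theorem height_T2 (s : B.S) (h : ∀ d ∈ (B.sd s).T2, ¬ O d.1) :
    τ (K.org (B.xe s)) = τ (K.org (rv (B.ye s))) - ht (mt σ (B.ε s)).1 := by
  rw [wk_height K τ O hτ _ _ _ (wk_T2 B s) (fun d hd => B.lab_T2 s hd) h]
  have e : (B.sd s).T2.map Prod.snd = (winv (tw p n (ht (mt σ (B.ε s)).1))).map Prod.snd := by
    rw [← (B.sd s).lT2, List.map_map]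
    rfl
  rw [e, sg_winv_tw]
  ring

end corners

/-! ### the theorem -/

section main

variable {K : PC (Let p n)} (B : Br σ K)

theorem XY_eq_some {s v : B.glue.S} : B.glue.XY s = some v ↔
    ∃ u, B.glue.X s = some u ∧ B.glue.Y u = some v := by
  unfold Glue.XY
  rw [PEquiv.trans_eq_some]

theorem inc_eq {s u v : B.glue.S} (hu : B.glue.X s = some u) (hv : B.glue.Y u = some v) :
    B.glue.inc s = ht (mt σ (B.ε u)).1 - ht (B.ε v).1 := by
  unfold Glue.inc
  simp only [hu, hv]
  rfl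

theorem nodup_bd (s : B.S) {d : K.E × Bool} (h1 : d ∈ (B.sd s).T1) (h2 : d ∈ (B.sd s).T2) :
    False := by
  have h := K.bd_nodup (B.j s)
  rw [B.bd_eq] at h
  have h3 := (List.nodup_cons.1 h).2
  rw [List.nodup_append] at h3
  exact h3.2.2 d h1 d (by simp [h2]) rfl

theorem lab_of (τ : K.V → ℤ) (O : K.E → Prop) (hO : ∀ e e', O e → O e' → e = e')
    (hO2 : ∀ e, O e → ∃ b, B.fs (e, b) = none)
    (hτ : ∀ e, K.lab e = Let.t → ¬ O e → τ (K.org (e, false)) = τ (K.org (e, true)) + 1) :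
    B.glue.Lab := by
  classical
  -- the bad corners
  set Bad : B.glue.S → Prop := fun s => ∃ u v, B.glue.X s = some u ∧ B.glue.Y u = some v ∧
    ∃ d : K.E × Bool, O d.1 ∧ (d ∈ (B.sd u).T2 ∨ d ∈ (B.sd v).T1) with hBad
  -- good corners
  have good : ∀ s, ¬ Bad s → ∀ v, B.glue.XY s = some v →
      B.glue.inc s = τ (K.org (rv (B.xs v))) - τ (K.org (rv (B.xs s))) := by
    intro s hs v hv
    obtain ⟨u, h1, h2⟩ := (XY_eq_some B).1 hv
    rw [inc_eq B h1 h2]
    have h3 : ∀ d ∈ (B.sd u).T2, ¬ O d.1 := fun d hd hOd => hs ⟨u, v, h1, h2, d, hOd, Or.inl hd⟩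
    have h4 : ∀ d ∈ (B.sd v).T1, ¬ O d.1 := fun d hd hOd => hs ⟨u, v, h1, h2, d, hOd, Or.inr hd⟩
    have h5 := height_T2 B τ O hτ u h3
    have h6 := height_T1 B τ O hτ v h4
    rw [← B.X_eq_some.1 h1] at h5
    rw [← B.Y_eq_some.1 h2] at h6
    omega
  -- at most one bad corner
  have dart : ∀ (d d' : K.E × Bool) (s s' : B.S), O d.1 → O d'.1 → d ∈ K.bd (B.j s) →
      d' ∈ K.bd (B.j s') → d = d' ∧ s = s' := by
    intro d d' s s' h1 h2 h3 h4
    have h5 := hO _ _ h1 h2
    obtain ⟨b, hb⟩ := hO2 d.1 h1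
    have key : ∀ (x : K.E × Bool) (y : B.S), x.1 = d.1 → x ∈ K.bd (B.j y) → x = (d.1, !b) := by
      intro x y hx hxy
      obtain ⟨x1, x2⟩ := x
      simp only at hx
      subst hx
      have h6 := B.fs_eq_some.2 hxy
      by_cases hbx : x2 = b
      · rw [hbx, hb] at h6
        cases h6
      · cases x2 <;> cases b <;> simp_all
    have h6 : d = d' := by
      rw [key d s rfl h3, key d' s' h5.symm h4]
    refine ⟨h6, ?_⟩
    rw [← h6] at h4
    have h7 := B.fs_eq_some.2 h3
    have h8 := B.fs_eq_some.2 h4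
    rw [h7] at h8
    exact Option.some_injective _ h8
  have memT1 : ∀ (s : B.S) (d : K.E × Bool), d ∈ (B.sd s).T1 → d ∈ K.bd (B.j s) := by
    intro s d h
    rw [B.bd_eq]
    simp [h]
  have memT2 : ∀ (s : B.S) (d : K.E × Bool), d ∈ (B.sd s).T2 → d ∈ K.bd (B.j s) := by
    intro s d h
    rw [B.bd_eq]
    simp [h]
  have uniq : ∀ s s', Bad s → Bad s' → s = s' := by
    rintro s s' ⟨u, v, h1, h2, d, hd, h3⟩ ⟨u', v', h1', h2', d', hd', h3'⟩
    rcases h3 with h3 | h3 <;> rcases h3' with h3' | h3'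
    · obtain ⟨-, e⟩ := dart d d' u u' hd hd' (memT2 _ _ h3) (memT2 _ _ h3')
      rw [← e] at h1'
      exact B.glue.X.inj h1 h1'
    · obtain ⟨e1, e⟩ := dart d d' u v' hd hd' (memT2 _ _ h3) (memT1 _ _ h3')
      rw [← e1, ← e] at h3'
      exact (nodup_bd B u h3' h3).elim
    · obtain ⟨e1, e⟩ := dart d d' v u' hd hd' (memT1 _ _ h3) (memT2 _ _ h3')
      rw [← e1, ← e] at h3'
      exact (nodup_bd B v h3 h3').elim
    · obtain ⟨-, e⟩ := dart d d' v v' hd hd' (memT1 _ _ h3) (memT1 _ _ h3')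
      rw [← e] at h2'
      have h4 := B.glue.Y.inj h2 h2'
      rw [← h4] at h1'
      exact B.glue.X.inj h1 h1'
  by_cases hex : ∃ s0, Bad s0 ∧ Per B.glue.XY s0
  · obtain ⟨s0, hs0, hper⟩ := hex
    refine ⟨orb B.glue.XY s0, ?_, ?_⟩
    · intro s s' hs hs'
      rw [(orb_back _ hper hs).2.2, (orb_back _ hper hs').2.2]
    · intro s hs hsE
      refine OrbTel.orb_telescope _ hs (fun t => τ (K.org (rv (B.xs t)))) _ ?_
      intro t ht t2 ht2
      refine good t ?_ t2 ht2
      intro hbt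
      rw [uniq t s0 hbt hs0] at ht
      exact hsE (orb_back _ hs ht).1
  · refine ⟨∅, fun s s' hs => absurd hs (notMem_empty s), ?_⟩
    intro s hs _
    refine OrbTel.orb_telescope _ hs (fun t => τ (K.org (rv (B.xs t)))) _ ?_
    intro t ht t2 ht2
    refine good t ?_ t2 ht2
    intro hbt
    exact hex ⟨t, hbt, (orb_back _ hs ht).2.1⟩

end main

/-! ### results -/

/-- the gluing data of a disc with heights -/
theorem lab_of_posK (K : SqK σ) (h : K.PosK) : (brD K).glue.Lab := by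
  obtain ⟨τ, O, h1, h2, h3⟩ := h
  refine lab_of (brD K) τ O h1 ?_ h3
  intro e he
  obtain ⟨b, hb⟩ := h2 e he
  refine ⟨b, ?_⟩
  cases hf : (brD K).fs (e, b) with
  | none => rfl
  | some s =>
    have h4 := (brD K).fs_eq_some.1 hf
    have h5 := K.toPC.face_unique h4 hb
    cases h5

/-- the gluing data of a sphere with heights -/
theorem lab_of_posN (K : SqK σ) (q0 : Port p n) (hq : K.outw = relw σ q0) (h : Pos.PosN K.toPC) :
    (brS K q0 hq).glue.Lab := by
  obtain ⟨τ, h3⟩ := h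
  exact lab_of (brS K q0 hq) τ (fun _ => False) (fun _ _ h => h.elim) (fun _ h => h.elim)
    (fun e he _ => h3 e he)

theorem posK_of (hBond : StmtBond) (hRec : StmtRec) (hRepl : StmtRepl) (K : SqK σ) (P : K.GPot)
    (hN : NoRed σ (val K.outw) (Fintype.card K.F) (K.chn P univ))
    (hp : ∀ (m : ℤ) (k : ℕ) (z : Chn σ), m ≠ 0 → Expr σ k (val (tw p n m)) z → Fintype.card K.F < k ∨
      (Fintype.card K.F ≤ k ∧ ∀ a ∈ K.outw, a.1 = Let.t)) : K.PosK :=
  Pos.posO_of hBond hRec hRepl K P hN (fun m k z hm h => by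
    rcases hp m k z hm h with h1 | h1
    · exact h1.le
    · exact h1.1)

theorem stmtLabD_of (hBond : StmtBond) (hRec : StmtRec) (hRepl : StmtRepl) : StmtLabD := by
  intro p n σ K P hN hp
  exact lab_of_posK K (posK_of hBond hRec hRepl K P hN hp)

theorem stmtLabS_of (hBond : StmtBond) (hRec : StmtRec) (hRepl : StmtRepl) : StmtLabS := by
  intro p n σ K P q0 h hc hz hp
  exact lab_of_posN K q0 h (Pos.posN_of hBond hRec hRepl K P q0 h hc hz hp)

end Vale.Agent.P201.Z.BrLab
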