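import Vale.Agent.P201.Z.Defs

/-!
P201, part D: closure properties of `Expr` (products, inverses, conjugates, one square).
-/

namespace Vale.Agent.P201.Z

open Finset

namespace EX

variable {p : Pat} {n : ℕ} {σ : Equiv.Perm (Cel p n)}

theorem val_append {A : Type} (l l' : List (A × Bool)) : val (l ++ l') = val l * val l' := by
  simp [val]

theorem val_winv {A : Type} (l : List (A × Bool)) : val (winv l) = (val l)⁻¹ := by
  simp [val, winv, FreeGroup.invRev]

theorem mt_mt (q : Port p n) : mt σ (mt σ q) = q := by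
  obtain ⟨c, b⟩ := q
  cases b <;> simp [mt]

theorem val_relw_mt (q : Port p n) : val (relw σ (mt σ q)) = (val (relw σ q))⁻¹ := by
  unfold relw
  rw [mt_mt, val_append, val_append, val_winv, val_winv, mul_inv_rev, inv_inv]

theorem pch_mt (g : Gp σ) (q : Port p n) : pch σ g (mt σ q) = -pch σ g q := by
  obtain ⟨c, b⟩ := q
  cases b <;> simp [mt, pch]

theorem mk_relw (q : Port p n) : PresentedGroup.mk (rels σ) (val (relw σ q)) = 1 :=
  (PresentedGroup.mk_eq_one_iff).2 (Subgroup.subset_normalClosure ⟨q, rfl⟩)

theorem cast {k k' : ℕ} {u u' : FreeGroup (Let p n)} {z z' : Chn σ} (h : Expr σ k u z)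
    (hk : k = k') (hu : u = u') (hz : z = z') : Expr σ k' u' z' := by
  subst hk hu hz
  exact h

/-- one square -/
theorem sq (v : FreeGroup (Let p n)) (q : Port p n) :
    Expr σ 1 (v * val (relw σ q) * v⁻¹) (pch σ (PresentedGroup.mk (rels σ) v) q) :=
  cast (Expr.cons 0 1 0 v q Expr.nil) rfl (mul_one _) (add_zero _)

theorem mul {k k' : ℕ} {u u' : FreeGroup (Let p n)} {z z' : Chn σ} (h : Expr σ k u z)
    (h' : Expr σ k' u' z') : Expr σ (k + k') (u * u') (z + z') := by
  induction h with
  | nil => exact cast h' (Nat.zero_add _).symm (one_mul _).symm (zero_add _).symm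
  | cons k u z v q _ ih =>
    exact cast (Expr.cons _ _ _ v q ih) (by omega) (mul_assoc _ _ _).symm (add_assoc _ _ _).symm

theorem inv {k : ℕ} {u : FreeGroup (Let p n)} {z : Chn σ} (h : Expr σ k u z) :
    Expr σ k u⁻¹ (-z) := by
  induction h with
  | nil => exact cast Expr.nil rfl inv_one.symm neg_zero.symm
  | cons k u z v q _ ih =>
    refine cast (mul ih (sq v (mt σ q))) rfl ?_ ?_
    · rw [val_relw_mt]
      group
    · rw [pch_mt, neg_add, add_comm]

theorem mk_one {k : ℕ} {u : FreeGroup (Let p n)} {z : Chn σ} (h : Expr σ k u z) :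
    PresentedGroup.mk (rels σ) u = 1 := by
  induction h with
  | nil => exact map_one _
  | cons k u z v q _ ih => rw [map_mul, ih, map_mul, map_mul, mk_relw, mul_one, mul_one, map_inv,
      mul_inv_cancel]

/-- action of the group on chains -/
noncomputable def act (g : Gp σ) : Chn σ →+ Chn σ :=
  Finsupp.mapDomain.addMonoidHom (fun x : Gp σ × Cel p n => (g * x.1, x.2))

theorem act_pch (g h : Gp σ) (q : Port p n) : act g (pch σ h q) = pch σ (g * h) q := by
  unfold pch act
  split_ifs
  · exact Finsupp.mapDomain_single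
  · exact Finsupp.mapDomain_single

theorem conj {k : ℕ} {u : FreeGroup (Let p n)} {z : Chn σ} (w : FreeGroup (Let p n))
    (h : Expr σ k u z) :
    Expr σ k (w * u * w⁻¹) (act (PresentedGroup.mk (rels σ) w) z) := by
  induction h with
  | nil => exact cast Expr.nil rfl (by group) (map_zero _).symm
  | cons k u z v q _ ih =>
    refine cast (Expr.cons _ _ _ (w * v) q ih) rfl (by group) ?_
    rw [map_add, act_pch, map_mul]

end EX

end Vale.Agent.P201.Z
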