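import Vale.Agent.P201.Z.PC
import Vale.Agent.P201.Z.D.ExprAPI

/-!
P201, part D: D3 (`stmtRec`) and D4 (`stmtRepl`).

General facts on face lists (`DR.once'`, `DR.nodup`), cotrees (`DR.par_iff`, `DR.ind`, `DR.indUp`,
`DR.sum_sub`, `DR.sum_root`) and products of the values along face lists.
-/

namespace Vale.Agent.P201.Z

open Finset

namespace DR

section pc

variable {A : Type} {K : PC A}

theorem rv_rv {E : Type} (d : E × Bool) : rv (rv d) = d := by
  obtain ⟨e, b⟩ := d
  simp [rv]

theorem once' {d : K.E × Bool} {f g : Option K.F} (hf : d ∈ K.bd f) (hg : d ∈ K.bd g) : f = g := by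
  by_contra hne
  have h1 : 1 ≤ (K.bd f).count d := List.one_le_count_iff.2 hf
  have h2 : 1 ≤ (K.bd g).count d := List.one_le_count_iff.2 hg
  have h3 := K.once d
  have h4 : ∑ x ∈ ({f, g} : Finset (Option K.F)), (K.bd x).count d ≤ ∑ x, (K.bd x).count d :=
    Finset.sum_le_sum_of_subset (Finset.subset_univ _)
  rw [Finset.sum_pair hne] at h4
  omega

theorem nodup (f : Option K.F) : (K.bd f).Nodup := by
  rw [List.nodup_iff_count_le_one]
  intro d
  have h3 := K.once d
  have h4 : (K.bd f).count d ≤ ∑ x, (K.bd x).count d :=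
    Finset.single_le_sum (f := fun x => (K.bd x).count d) (fun _ _ => Nat.zero_le _)
      (Finset.mem_univ f)
  omega

theorem lt_rv (d : K.E × Bool) : K.lt (rv d) = (K.lt d)⁻¹ := by
  simp [PC.lt, rv, FreeGroup.invRev]

theorem prod_lt (l : List (K.E × Bool)) :
    (l.map K.lt).prod = val (l.map fun d => (K.lab d.1, d.2)) := by
  induction l with
  | nil => rfl
  | cons d l ih =>
    rw [List.map_cons, List.prod_cons, ih, List.map_cons]
    unfold PC.lt val
    rw [FreeGroup.mul_mk, List.singleton_append]

variable (C : K.Cotree)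

theorem c_rv (d : K.E × Bool) : C.c (rv d) = (C.c d)⁻¹ := by
  unfold PC.Cotree.c
  rw [lt_rv, rv_rv]
  group

theorem c_triv {d : K.E × Bool} (h : ∀ f, (C.dd f).1 ≠ d.1) : C.c d = 1 := by
  unfold PC.Cotree.c
  rw [C.triv d h, mul_inv_cancel]

theorem dart_cases (d : K.E × Bool) :
    (∀ f, (C.dd f).1 ≠ d.1) ∨ (∃ f, C.dd f = d) ∨ ∃ f, rv (C.dd f) = d := by
  by_cases h : ∃ f, (C.dd f).1 = d.1
  · obtain ⟨f, hf⟩ := h
    right
    by_cases hb : (C.dd f).2 = d.2
    · exact Or.inl ⟨f, Prod.ext hf hb⟩
    · refine Or.inr ⟨f, Prod.ext hf ?_⟩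
      show (!(C.dd f).2) = d.2
      revert hb
      cases (C.dd f).2 <;> cases d.2 <;> simp
  · push Not at h
    exact Or.inl h

theorem dd_inj {f g : K.F} (h : C.dd f = C.dd g) : f = g := by
  have h1 := C.mem f
  rw [h] at h1
  exact Option.some.inj (once' h1 (C.mem g))

theorem par_iff (g : K.F) (h : Option K.F) : C.par g = h ↔ rv (C.dd g) ∈ K.bd h :=
  ⟨fun e => e ▸ C.memr g, fun e => once' (C.memr g) e⟩

theorem rv_dd_ne (f g : K.F) : rv (C.dd g) ≠ C.dd f := by
  intro h
  have h1 : C.par g = some f := (par_iff C g _).2 (h ▸ C.mem f)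
  have h2 : C.par f = some g := by
    refine (par_iff C f _).2 ?_
    rw [← h, rv_rv]
    exact C.mem g
  have := C.dec _ _ h1
  have := C.dec _ _ h2
  omega

/-- induction from the leaves -/
theorem ind {motive : K.F → Prop} (h : ∀ f, (∀ g, C.par g = some f → motive g) → motive f) :
    ∀ f, motive f := by
  have hb : ∀ g, C.rank g ≤ ∑ x, C.rank x := fun g =>
    Finset.single_le_sum (f := C.rank) (fun _ _ => Nat.zero_le _) (Finset.mem_univ g)
  have key : ∀ m f, (∑ x, C.rank x) - C.rank f ≤ m → motive f := by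
    intro m
    induction m with
    | zero =>
      intro f hf
      refine h f fun g hg => ?_
      have := C.dec _ _ hg
      have := hb g
      omega
    | succ m ih =>
      intro f hf
      refine h f fun g hg => ih g ?_
      have := C.dec _ _ hg
      have := hb g
      omega
  exact fun f => key _ f le_rfl

/-- induction from the roots -/
theorem indUp {motive : K.F → Prop} (h : ∀ g, (∀ f, C.par g = some f → motive f) → motive g) :
    ∀ g, motive g := by
  have key : ∀ m g, C.rank g ≤ m → motive g := by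
    intro m
    induction m with
    | zero =>
      intro g hg
      refine h g fun f hf => ?_
      have := C.dec _ _ hf
      omega
    | succ m ih =>
      intro g hg
      refine h g fun f hf => ih f ?_
      have := C.dec _ _ hf
      omega
  exact fun g => key _ g le_rfl

theorem mem_sub {f g : K.F} : g ∈ C.sub f ↔ C.Desc f g := by
  classical
  unfold PC.Cotree.sub
  simp

theorem self_mem (f : K.F) : f ∈ C.sub f := (mem_sub C).2 Relation.ReflTransGen.refl

theorem rank_le {f g : K.F} (h : C.Desc f g) : C.rank f ≤ C.rank g := by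
  unfold PC.Cotree.Desc at h
  induction h with
  | refl => exact le_rfl
  | tail _ h ih => exact (C.dec _ _ h).le.trans ih

theorem desc_child {f g x : K.F} (hg : C.par g = some f) (h : C.Desc g x) : C.Desc f x :=
  Relation.ReflTransGen.tail h hg

theorem desc_cases {f x : K.F} (h : C.Desc f x) : x = f ∨ ∃ g, C.par g = some f ∧ C.Desc g x := by
  rcases Relation.ReflTransGen.cases_tail h with h | ⟨g, h1, h2⟩
  · exact Or.inl h.symm
  · exact Or.inr ⟨g, h2, h1⟩

theorem desc_head {f x : K.F} (h : C.Desc f x) (hne : x ≠ f) :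
    ∃ y, C.par x = some y ∧ C.Desc f y := by
  rcases Relation.ReflTransGen.cases_head h with h | ⟨y, h1, h2⟩
  · exact absurd h hne
  · exact ⟨y, h1, h2⟩

theorem desc_total {f g x : K.F} (hf : C.Desc f x) (hg : C.Desc g x) : C.Desc g f ∨ C.Desc f g :=
  Relation.ReflTransGen.total_of_right_unique
    (fun _ _ _ h1 h2 => Option.some.inj (h1.symm.trans h2)) hf hg

theorem not_desc_child {f g : K.F} (hg : C.par g = some f) : ¬ C.Desc g f := fun h => by
  have := rank_le C h
  have := C.dec _ _ hg
  omega

/-- two faces with the same parent and a common descendant are equal -/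
theorem sib_eq {g1 g2 x : K.F} (h : C.par g1 = C.par g2) (h1 : C.Desc g1 x) (h2 : C.Desc g2 x) :
    g1 = g2 := by
  by_contra hne
  rcases desc_total C h1 h2 with h3 | h3
  · obtain ⟨y, hy, hy2⟩ := desc_head C h3 hne
    rw [h] at hy
    exact not_desc_child C hy hy2
  · obtain ⟨y, hy, hy2⟩ := desc_head C h3 (Ne.symm hne)
    rw [← h] at hy
    exact not_desc_child C hy hy2

open Classical in
theorem sum_sub {M : Type} [AddCommMonoid M] (φ : K.F → M) (f : K.F) :
    ∑ x ∈ C.sub f, φ x = φ f + ∑ g ∈ univ.filter (fun g => C.par g = some f),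
      ∑ x ∈ C.sub g, φ x := by
  have e : C.sub f = insert f ((univ.filter fun g => C.par g = some f).biUnion C.sub) := by
    ext x
    rw [mem_sub, Finset.mem_insert, Finset.mem_biUnion]
    constructor
    · intro h
      rcases desc_cases C h with h | ⟨g, hg, hx⟩
      · exact Or.inl h
      · exact Or.inr ⟨g, by simpa using hg, (mem_sub C).2 hx⟩
    · rintro (rfl | ⟨g, hg, hx⟩)
      · exact Relation.ReflTransGen.refl
      · exact desc_child C (by simpa using hg) ((mem_sub C).1 hx)
  rw [e, Finset.sum_insert, Finset.sum_biUnion]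
  · intro g1 hg1 g2 hg2 hne
    rw [Function.onFun, Finset.disjoint_left]
    intro x hx1 hx2
    have h1 : C.par g1 = some f := by simpa using hg1
    have h2 : C.par g2 = some f := by simpa using hg2
    exact hne (sib_eq C (h1.trans h2.symm) ((mem_sub C).1 hx1) ((mem_sub C).1 hx2))
  · intro h
    rw [Finset.mem_biUnion] at h
    obtain ⟨g, hg, hx⟩ := h
    exact not_desc_child C (by simpa using hg) ((mem_sub C).1 hx)

open Classical in
theorem sum_root {M : Type} [AddCommMonoid M] (φ : K.F → M) :
    ∑ g ∈ univ.filter (fun g => C.par g = none), ∑ x ∈ C.sub g, φ x = ∑ x, φ x := by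
  have e : (univ : Finset K.F) = (univ.filter fun g => C.par g = none).biUnion C.sub := by
    ext x
    refine ⟨fun _ => ?_, fun _ => Finset.mem_univ _⟩
    rw [Finset.mem_biUnion]
    have key : ∀ x, ∃ g, C.par g = none ∧ C.Desc g x := by
      refine indUp C fun x h => ?_
      cases hx : C.par x with
      | none => exact ⟨x, hx, Relation.ReflTransGen.refl⟩
      | some f =>
        obtain ⟨g, hg, hd⟩ := h f hx
        exact ⟨g, hg, Relation.ReflTransGen.head hx hd⟩
    obtain ⟨g, hg, hd⟩ := key x
    exact ⟨g, by simpa using hg, (mem_sub C).2 hd⟩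
  conv_rhs => rw [e]
  rw [Finset.sum_biUnion]
  intro g1 hg1 g2 hg2 hne
  rw [Function.onFun, Finset.disjoint_left]
  intro x hx1 hx2
  have h1 : C.par g1 = none := by simpa using hg1
  have h2 : C.par g2 = none := by simpa using hg2
  exact hne (sib_eq C (h1.trans h2.symm) ((mem_sub C).1 hx1) ((mem_sub C).1 hx2))

/-- the product of the values along a walk -/
theorem prod_c (l : List (K.E × Bool)) : ∀ a : K.E × Bool,
    (a :: l).IsChain (fun a b => K.org b = K.org (rv a)) →
    ((a :: l).map C.c).prod = C.pot (K.org a) * ((a :: l).map K.lt).prod *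
      (C.pot (K.org (rv ((a :: l).getLast (List.cons_ne_nil _ _)))))⁻¹ := by
  induction l with
  | nil =>
    intro a _
    simp [PC.Cotree.c]
  | cons b l ih =>
    intro a h
    rw [List.isChain_cons_cons] at h
    rw [List.map_cons, List.prod_cons, ih b h.2, List.getLast_cons (List.cons_ne_nil _ _), h.1]
    simp only [List.map_cons, List.prod_cons]
    unfold PC.Cotree.c
    group

/-- the product of the values along a face -/
theorem prod_face {f : Option K.F} {d : K.E × Bool} (hd : d ∈ (K.bd f).head?) :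
    ((K.bd f).map C.c).prod = C.pot (K.org d) * val (K.wd f) * (C.pot (K.org d))⁻¹ := by
  have hch := K.chain f
  have hcl := K.closed f
  unfold PC.wd
  rw [← prod_lt]
  cases hl : K.bd f with
  | nil =>
    rw [hl] at hd
    simp at hd
  | cons a l =>
    rw [hl] at hd hch hcl
    have hda : a = d := by simpa using hd
    subst hda
    rw [prod_c C l a hch]
    congr 3
    exact (hcl _ (List.getLast?_eq_getLast_of_ne_nil (List.cons_ne_nil _ _) ▸ rfl) a rfl).symm

end pc

section sqk

variable {p : Pat} {n : ℕ} {σ : Equiv.Perm (Cel p n)} {K : SqK σ} (C : K.toPC.Cotree)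

open Classical in
/-- the product along a list of darts without parent darts, in terms of the children -/
theorem prod_list (N : K.F → ℕ) (Z : K.F → Chn σ) (l : List (K.E × Bool)) :
    l.Nodup → (∀ d ∈ l, ∀ f, C.dd f ≠ d) →
    (∀ g, rv (C.dd g) ∈ l → Expr σ (N g) (C.c (C.dd g)) (Z g)) →
    Expr σ (∑ g ∈ univ.filter (fun g => rv (C.dd g) ∈ l), N g) (l.map C.c).prod
      (-∑ g ∈ univ.filter (fun g => rv (C.dd g) ∈ l), Z g) := by
  induction l with
  | nil =>
    intro _ _ _
    simpa using Expr.nil
  | cons d l ih =>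
    intro hnd hdd hE
    rw [List.nodup_cons] at hnd
    have h1 := ih hnd.2 (fun d' hd' => hdd d' (List.mem_cons_of_mem _ hd'))
      (fun g hg => hE g (List.mem_cons_of_mem _ hg))
    rcases dart_cases C d with h | ⟨f, hf⟩ | ⟨g, hg⟩
    · have e : (univ.filter fun g => rv (C.dd g) ∈ d :: l) =
          univ.filter fun g => rv (C.dd g) ∈ l := by
        refine Finset.filter_congr fun g _ => ?_
        rw [List.mem_cons]
        refine ⟨fun h2 => h2.resolve_left fun h3 => h g ?_, Or.inr⟩
        rw [← h3]
        rfl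
      rw [e, List.map_cons, List.prod_cons, c_triv C h, one_mul]
      exact h1
    · exact absurd hf (hdd d List.mem_cons_self f)
    · have e : (univ.filter fun g => rv (C.dd g) ∈ d :: l) =
          insert g (univ.filter fun g => rv (C.dd g) ∈ l) := by
        ext x
        rw [Finset.mem_filter, Finset.mem_insert, Finset.mem_filter, List.mem_cons]
        constructor
        · rintro ⟨_, h2 | h2⟩
          · left
            refine dd_inj C ?_
            rw [← rv_rv (C.dd x), h2, ← hg, rv_rv]
          · exact Or.inr ⟨Finset.mem_univ _, h2⟩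
        · rintro (rfl | h2)
          · exact ⟨Finset.mem_univ _, Or.inl hg⟩
          · exact ⟨Finset.mem_univ _, Or.inr h2.2⟩
      have hn : g ∉ univ.filter fun g => rv (C.dd g) ∈ l := by
        rw [Finset.mem_filter, hg]
        exact fun h2 => hnd.1 h2.2
      rw [e, Finset.sum_insert hn, Finset.sum_insert hn, List.map_cons, List.prod_cons]
      have h2 := EX.inv (hE g (hg ▸ List.mem_cons_self))
      rw [← c_rv, hg] at h2
      exact EX.cast (EX.mul h2 h1) rfl rfl (by rw [neg_add])

theorem outer_dd {d : K.E × Bool} (hd : d ∈ K.bd none) (f : K.F) : C.dd f ≠ d := by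
  rintro rfl
  exact Option.some_ne_none f (once' (C.mem f) hd)

/-- the parent dart in the list of a face -/
theorem split_face (f : K.F) : ∃ l1 l2 : List (K.E × Bool), K.bd (some f) = l1 ++ C.dd f :: l2 ∧
    (∀ d ∈ l1, ∀ g, C.dd g ≠ d) ∧ (∀ d ∈ l2, ∀ g, C.dd g ≠ d) ∧ l1.Nodup ∧ l2.Nodup ∧
    List.Disjoint l1 l2 := by
  obtain ⟨l1, l2, h⟩ := List.append_of_mem (C.mem f)
  have hn := nodup (K := K.toPC) (some f)
  rw [h, List.nodup_append] at hn
  obtain ⟨h1, h2, h3⟩ := hn
  rw [List.nodup_cons] at h2
  have hm : ∀ d, d ∈ l1 ∨ d ∈ l2 → d ∈ K.bd (some f) := by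
    intro d hd
    rw [h]
    simp only [List.mem_append, List.mem_cons]
    rcases hd with hd | hd
    · exact Or.inl hd
    · exact Or.inr (Or.inr hd)
  have key : ∀ d, (d ∈ l1 ∨ d ∈ l2) → ∀ g, C.dd g ≠ d := by
    rintro d hd g rfl
    have h5 : g = f := Option.some.inj (once' (C.mem g) (hm _ hd))
    subst h5
    rcases hd with hd | hd
    · exact h3 _ hd _ List.mem_cons_self rfl
    · exact h2.1 hd
  refine ⟨l1, l2, h, fun d hd => key d (Or.inl hd), fun d hd => key d (Or.inr hd), h1, h2.2, ?_⟩
  intro d hd1 hd2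
  exact h3 _ hd1 _ (List.mem_cons_of_mem _ hd2) rfl

theorem exists_head (f : K.F) : ∃ d, d ∈ (K.bd (some f)).head? := by
  have := K.ne f
  cases h : K.bd (some f) with
  | nil => exact absurd h this
  | cons a l => exact ⟨a, rfl⟩

/-- the value of a cotree edge is trivial in the group -/
theorem mk_dd (f : K.F) : PresentedGroup.mk (rels σ) (C.c (C.dd f)) = 1 := by
  refine ind C (motive := fun f => PresentedGroup.mk (rels σ) (C.c (C.dd f)) = 1) ?_ f
  intro f hf
  obtain ⟨l1, l2, h, h1, h2, -, -, -⟩ := split_face C f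
  obtain ⟨d, hd⟩ := exists_head f
  have hp := prod_face C hd
  rw [h] at hp
  have key : ∀ l : List (K.E × Bool), (∀ d ∈ l, ∀ g, C.dd g ≠ d) →
      (∀ d ∈ l, d ∈ K.bd (some f)) → PresentedGroup.mk (rels σ) ((l.map C.c).prod) = 1 := by
    intro l
    induction l with
    | nil => intro _ _; exact map_one _
    | cons a l ih =>
      intro ha hb
      rw [List.map_cons, List.prod_cons, map_mul,
        ih (fun d hd => ha d (List.mem_cons_of_mem _ hd))
          (fun d hd => hb d (List.mem_cons_of_mem _ hd)), mul_one]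
      rcases dart_cases C a with h3 | ⟨g, hg⟩ | ⟨g, hg⟩
      · rw [c_triv C h3, map_one]
      · exact absurd hg (ha a List.mem_cons_self g)
      · rw [← hg, c_rv, map_inv, hf g, inv_one]
        rw [par_iff, hg]
        exact hb a List.mem_cons_self
  have k1 := key l1 h1 fun d hd => by
    rw [h]
    exact List.mem_append_left _ hd
  have k2 := key l2 h2 fun d hd => by
    rw [h]
    exact List.mem_append_right _ (List.mem_cons_of_mem _ hd)
  have h5 := congrArg (PresentedGroup.mk (rels σ)) hp
  unfold PC.wd at h5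
  rw [K.sq f] at h5
  rw [List.map_append, List.prod_append, List.map_cons, List.prod_cons, map_mul, map_mul, k1, k2,
    one_mul, mul_one, map_mul, map_mul, EX.mk_relw, mul_one, map_inv, mul_inv_cancel] at h5
  exact h5

theorem mk_c (d : K.E × Bool) : PresentedGroup.mk (rels σ) (C.c d) = 1 := by
  rcases dart_cases C d with h | ⟨f, hf⟩ | ⟨g, hg⟩
  · rw [c_triv C h, map_one]
  · rw [← hf, mk_dd]
  · rw [← hg, c_rv, map_inv, mk_dd, inv_one]

/-- the potential of the cotree is the group potential -/
theorem mk_pot (P : K.GPot) (hr : P.π C.root = 1) (v : K.V) :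
    PresentedGroup.mk (rels σ) (C.pot v) = P.π v := by
  have h := K.conn C.root v
  induction h with
  | refl => rw [C.pot_root, map_one, hr]
  | tail _ h ih =>
    obtain ⟨d, h1, h2⟩ := h
    have h3 := mk_c C d
    unfold PC.Cotree.c at h3
    rw [map_mul, map_mul, map_inv, mul_inv_eq_one, h1, h2, ih] at h3
    rw [← h3, ← h1, P.st d, h2]

/-- chain of one square -/
noncomputable def sqz (P : K.GPot) (f : K.F) : Chn σ :=
  ∑ d ∈ ((K.bd (some f)).head?).toFinset, pch σ (P.π (K.org d)) (K.q f)

theorem chn_eq (P : K.GPot) (S : Finset K.F) : K.chn P S = ∑ f ∈ S, sqz P f := rfl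

open Classical in
/-- one step of the recursion -/
theorem step (P : K.GPot) (hr : P.π C.root = 1) (N : K.F → ℕ) (Z : K.F → Chn σ) (f : K.F)
    (hE : ∀ g, C.par g = some f → Expr σ (N g) (C.c (C.dd g)) (Z g)) :
    Expr σ (1 + ∑ g ∈ univ.filter (fun g => C.par g = some f), N g) (C.c (C.dd f))
      (sqz P f + ∑ g ∈ univ.filter (fun g => C.par g = some f), Z g) := by
  obtain ⟨l1, l2, h, h1, h2, h3, h4, h5⟩ := split_face C f
  obtain ⟨d, hd⟩ := exists_head f
  have hp := prod_face C hd
  have hm : ∀ g, C.par g = some f ↔ (rv (C.dd g) ∈ l1 ∨ rv (C.dd g) ∈ l2) := by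
    intro g
    rw [par_iff, h, List.mem_append, List.mem_cons]
    have := rv_dd_ne C f g
    tauto
  have E1 := prod_list C N Z l1 h3 h1 fun g hg => hE g ((hm g).2 (Or.inl hg))
  have E2 := prod_list C N Z l2 h4 h2 fun g hg => hE g ((hm g).2 (Or.inr hg))
  have e : (univ.filter fun g => C.par g = some f) =
      (univ.filter fun g => rv (C.dd g) ∈ l1) ∪ univ.filter fun g => rv (C.dd g) ∈ l2 := by
    ext g
    simp only [Finset.mem_union, Finset.mem_filter, Finset.mem_univ, true_and]
    exact hm g
  have hdis : Disjoint (univ.filter fun g => rv (C.dd g) ∈ l1)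
      (univ.filter fun g => rv (C.dd g) ∈ l2) := by
    rw [Finset.disjoint_left]
    intro g hg1 hg2
    exact h5 (Finset.mem_filter.1 hg1).2 (Finset.mem_filter.1 hg2).2
  rw [e, Finset.sum_union hdis, Finset.sum_union hdis]
  have hz : sqz P f = pch σ (PresentedGroup.mk (rels σ) (C.pot (K.org d))) (K.q f) := by
    unfold sqz
    rw [mk_pot C P hr]
    have : (K.bd (some f)).head? = some d := hd
    rw [this]
    simp
  have hc : C.c (C.dd f) = ((l1.map C.c).prod)⁻¹ *
      (C.pot (K.org d) * val (relw σ (K.q f)) * (C.pot (K.org d))⁻¹) * ((l2.map C.c).prod)⁻¹ := by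
    have hw : K.toPC.wd (some f) = relw σ (K.q f) := K.sq f
    rw [← hw, ← hp, h, List.map_append, List.prod_append, List.map_cons, List.prod_cons]
    group
  rw [hc]
  refine EX.cast (EX.mul (EX.mul (EX.inv E1) (EX.sq (C.pot (K.org d)) (K.q f))) (EX.inv E2))
    (by omega) rfl ?_
  rw [hz, neg_neg, neg_neg]
  abel

end sqk

end DR

/-- **D3** -/
theorem DR.stmtRec' : StmtRec := by
  classical
  intro p n σ K P C hr
  refine ⟨DR.mk_pot C P hr, ?_⟩
  refine DR.ind C (motive := fun f => Expr σ (C.sub f).card (C.c (C.dd f)) (K.chn P (C.sub f))) ?_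
  intro f hf
  refine EX.cast (DR.step C P hr (fun g => (C.sub g).card) (fun g => K.chn P (C.sub g)) f hf)
    ?_ rfl ?_
  · have := DR.sum_sub C (fun _ => 1) f
    simp only [Finset.sum_const, smul_eq_mul, mul_one] at this
    exact this.symm
  · exact (DR.sum_sub C (DR.sqz P) f).symm

/-- **D4** -/
theorem stmtRepl : StmtRepl := by
  classical
  intro p n σ K P C hr hroot f0 k z hE
  set φ : K.F → ℕ := fun x => if x ∈ C.sub f0 then (if x = f0 then k else 0) else 1 with hφ
  set ζ : K.F → Chn σ := fun x => if x ∈ C.sub f0 then (if x = f0 then z else 0) else DR.sqz P x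
    with hζ
  have hφ0 : ∑ x ∈ C.sub f0, φ x = k := by
    rw [Finset.sum_congr rfl (g := fun x => if x = f0 then k else 0) fun x hx => if_pos hx,
      Finset.sum_ite_eq', if_pos (DR.self_mem C f0)]
  have hζ0 : ∑ x ∈ C.sub f0, ζ x = z := by
    rw [Finset.sum_congr rfl (g := fun x => if x = f0 then z else 0) fun x hx => if_pos hx,
      Finset.sum_ite_eq', if_pos (DR.self_mem C f0)]
  have key : ∀ g, (g ∉ C.sub f0 ∨ g = f0) →
      Expr σ (∑ x ∈ C.sub g, φ x) (C.c (C.dd g)) (∑ x ∈ C.sub g, ζ x) := by
    refine DR.ind C (motive := fun g => (g ∉ C.sub f0 ∨ g = f0) →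
      Expr σ (∑ x ∈ C.sub g, φ x) (C.c (C.dd g)) (∑ x ∈ C.sub g, ζ x)) ?_
    intro g ih hg
    by_cases hgf : g = f0
    · subst hgf
      rw [hφ0, hζ0]
      exact hE
    · have hg' : g ∉ C.sub f0 := hg.resolve_right hgf
      have h1 := DR.step C P hr (fun g => ∑ x ∈ C.sub g, φ x) (fun g => ∑ x ∈ C.sub g, ζ x) g
        fun g' hg'' => ih g' hg'' (by
          by_contra hcon
          push Not at hcon
          obtain ⟨y, hy, hy2⟩ := DR.desc_head C ((DR.mem_sub C).1 hcon.1) hcon.2
          rw [hg''] at hy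
          rw [← Option.some.inj hy] at hy2
          exact hg' ((DR.mem_sub C).2 hy2))
      refine EX.cast h1 ?_ rfl ?_
      · rw [DR.sum_sub C φ g]
        have : φ g = 1 := if_neg hg'
        rw [this]
      · rw [DR.sum_sub C ζ g]
        have : ζ g = DR.sqz P g := if_neg hg'
        rw [this]
  have hout := DR.prod_list C (fun g => ∑ x ∈ C.sub g, φ x) (fun g => ∑ x ∈ C.sub g, ζ x)
    (K.bd none) (DR.nodup (K := K.toPC) none) (fun d hd f => DR.outer_dd C hd f) fun g hg =>
      key g (by
        by_contra hcon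
        push Not at hcon
        obtain ⟨y, hy, -⟩ := DR.desc_head C ((DR.mem_sub C).1 hcon.1) hcon.2
        rw [(DR.par_iff C g none).2 hg] at hy
        exact Option.some_ne_none y hy.symm)
  have e : (univ.filter fun g => rv (C.dd g) ∈ K.bd none) =
      univ.filter fun g => C.par g = none :=
    Finset.filter_congr fun g _ => (DR.par_iff C g none).symm
  rw [e, DR.sum_root C φ, DR.sum_root C ζ] at hout
  have hval : ((K.bd none).map C.c).prod = val (K.toPC.wd none) := by
    cases hl : (K.bd none).head? with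
    | none =>
      have h0 : K.bd none = [] := List.head?_eq_none_iff.1 hl
      unfold PC.wd
      rw [h0]
      rfl
    | some d =>
      have h1 := hroot d (by rw [hl]; rfl)
      rw [DR.prod_face C (f := none) (d := d) (by rw [hl]; rfl), h1, C.pot_root, one_mul, inv_one,
        mul_one]
  refine EX.cast (EX.inv hout) ?_ ?_ ?_
  · rw [← Finset.sum_add_sum_compl (C.sub f0) φ, hφ0,
      Finset.sum_congr rfl (g := fun _ => 1) fun x hx => if_neg (Finset.mem_compl.1 hx)]
    rw [Finset.sum_const, smul_eq_mul, mul_one, Finset.card_compl]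
    have := Finset.card_le_univ (C.sub f0)
    omega
  · rw [hval]
    unfold SqK.outw
    rw [EX.val_winv]
  · rw [neg_neg, ← Finset.sum_add_sum_compl (C.sub f0) ζ, hζ0,
      Finset.sum_congr rfl (g := DR.sqz P) fun x hx => if_neg (Finset.mem_compl.1 hx),
      DR.chn_eq, DR.chn_eq, ← Finset.sum_add_sum_compl (C.sub f0) (DR.sqz P)]
    abel

end Vale.Agent.P201.Z
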