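import Vale.Agent.P201.Z.PC

/-!
P201, part D0 (d) (helper155): a rooted dual spanning tree has a complementary primal spanning tree, potentials;
`V + F ≤ E + 1` for every connected and dual connected complex (Euler not assumed).
Everything is in the namespace `T2`.
-/

namespace Vale.Agent.P201.Z.T2

open Finset

lemma rv_rv {E : Type} (d : E × Bool) : rv (rv d) = d := by
  obtain ⟨e, b⟩ := d
  simp [rv]

lemma rv_fst {E : Type} (d : E × Bool) : (rv d).1 = d.1 := rfl

lemma rv_ne {E : Type} (d : E × Bool) : rv d ≠ d := by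
  obtain ⟨e, b⟩ := d
  intro h
  have := congrArg Prod.snd h
  simp [rv] at this

lemma rv_inj {E : Type} {a b : E × Bool} (h : rv a = rv b) : a = b := by
  rw [← rv_rv a, h, rv_rv]

lemma eq_or_rv {E : Type} {a b : E × Bool} (h : a.1 = b.1) : a = b ∨ a = rv b := by
  obtain ⟨e, x⟩ := a
  obtain ⟨e', y⟩ := b
  dsimp only at h
  subst h
  cases x <;> cases y <;> simp [rv]

/-! ### breadth first trees -/

/-- a connected graph has a spanning tree rooted at any point, given by parent darts -/
theorem exists_rooted {W D : Type} (src tgt : D → W) (P : D → Prop) (root : W)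
    (h : ∀ v, Relation.ReflTransGen (fun a b => ∃ d, P d ∧ src d = a ∧ tgt d = b) v root) :
    ∃ (pd : W → Option D) (hgt : W → ℕ), (∀ v, pd v = none ↔ v = root) ∧
      ∀ v d, pd v = some d → P d ∧ src d = v ∧ hgt (tgt d) < hgt v := by
  classical
  set Rch : ℕ → W → Prop := fun m => Nat.rec (fun v => v = root) (fun _ ih v => ∃ d, P d ∧ src d = v ∧ ih (tgt d)) m
    with hR
  have h0 : ∀ v, Rch 0 v ↔ v = root := fun v => Iff.rfl
  have h1 : ∀ m v, Rch (m + 1) v ↔ ∃ d, P d ∧ src d = v ∧ Rch m (tgt d) := fun m v => Iff.rfl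
  have hex : ∀ v, ∃ m, Rch m v := by
    intro v
    induction h v using Relation.ReflTransGen.head_induction_on with
    | refl => exact ⟨0, (h0 _).2 rfl⟩
    | head hab _ ih =>
      obtain ⟨d, hd, hs, ht⟩ := hab
      obtain ⟨m, hm⟩ := ih
      exact ⟨m + 1, (h1 _ _).2 ⟨d, hd, hs, ht ▸ hm⟩⟩
  set hgt : W → ℕ := fun v => Nat.find (hex v) with hhgt
  have hspec : ∀ v, Rch (hgt v) v := fun v => Nat.find_spec (hex v)
  have hmin : ∀ v m, Rch m v → hgt v ≤ m := fun v m hm => Nat.find_min' (hex v) hm
  have hstep : ∀ v, v ≠ root → ∃ d, P d ∧ src d = v ∧ hgt (tgt d) < hgt v := by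
    intro v hv
    obtain ⟨m, hm⟩ : ∃ m, hgt v = m + 1 := by
      cases hc : hgt v with
      | zero =>
        have := hspec v
        rw [hc] at this
        exact absurd ((h0 v).1 this) hv
      | succ m => exact ⟨m, rfl⟩
    have h2 := hspec v
    rw [hm] at h2
    obtain ⟨d, hd, hs, ht⟩ := (h1 m v).1 h2
    exact ⟨d, hd, hs, by rw [hm]; exact Nat.lt_succ_of_le (hmin _ _ ht)⟩
  refine ⟨fun v => if hv : v = root then none else some (Classical.choose (hstep v hv)), hgt, ?_, ?_⟩
  · intro v
    by_cases hv : v = root
    · simp [hv]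
    · simp [hv]
  · intro v d hd
    by_cases hv : v = root
    · simp [hv] at hd
    · simp only [hv, dite_false, Option.some.injEq] at hd
      rw [← hd]
      exact Classical.choose_spec (hstep v hv)

/-! ### rotation systems without Euler's formula -/

section

variable {V E F : Type} [Fintype V] [Fintype E] [Fintype F] [DecidableEq V] [DecidableEq E] [DecidableEq F]

/-- complex without Euler's formula -/
structure Rot (org : E × Bool → V) (bd : Option F → List (E × Bool)) : Prop where
  chain : ∀ f, (bd f).IsChain (fun a b => org b = org (rv a))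
  closed : ∀ f, ∀ a ∈ (bd f).getLast?, ∀ b ∈ (bd f).head?, org b = org (rv a)
  once : ∀ d, ∑ f, (bd f).count d = 1
  conn : ∀ u v : V, Relation.ReflTransGen (fun a b => ∃ d, org d = a ∧ org (rv d) = b) u v
  dconn : ∀ f g : Option F, Relation.ReflTransGen (fun a b => ∃ d, d ∈ bd a ∧ rv d ∈ bd b) f g

/-- dual spanning tree rooted at the outer face -/
structure DT (bd : Option F → List (E × Bool)) (par : F → Option F) (dd : F → E × Bool) (rank : F → ℕ) : Prop where
  mem : ∀ f, dd f ∈ bd (some f)
  memr : ∀ f, rv (dd f) ∈ bd (par f)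
  dec : ∀ f g, par f = some g → rank g < rank f

/-- primal spanning tree -/
structure PT (org : E × Bool → V) (pd : V → Option (E × Bool)) (hgt : V → ℕ) (root : V) : Prop where
  rt : ∀ v, pd v = none ↔ v = root
  or : ∀ v d, pd v = some d → org d = v
  dec : ∀ v d, pd v = some d → hgt (org (rv d)) < hgt v

variable {org : E × Bool → V} {bd : Option F → List (E × Bool)}

namespace Rot

variable (K : Rot org bd)

include K

omit [Fintype V] [Fintype E] [DecidableEq V] in
lemma exists_face (d : E × Bool) : ∃ f, d ∈ bd f := by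
  by_contra h
  push Not at h
  have h1 := K.once d
  rw [Finset.sum_eq_zero fun f _ => List.count_eq_zero.2 (h f)] at h1
  exact zero_ne_one h1

omit [Fintype V] [Fintype E] [DecidableEq V] in
lemma face_unique {d : E × Bool} {f g : Option F} (hf : d ∈ bd f) (hg : d ∈ bd g) : f = g := by
  by_contra hne
  have h1 := K.once d
  have h2 : ∑ x ∈ ({f, g} : Finset (Option F)), (bd x).count d ≤ ∑ x, (bd x).count d :=
    Finset.sum_le_sum_of_subset (Finset.subset_univ _)
  rw [Finset.sum_pair hne, h1] at h2
  have h3 := List.count_pos_iff.2 hf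
  have h4 := List.count_pos_iff.2 hg
  omega

omit [Fintype V] [Fintype E] [DecidableEq V] in
lemma bd_nodup (f : Option F) : (bd f).Nodup := by
  rw [List.nodup_iff_count_le_one]
  intro d
  rw [← K.once d]
  exact Finset.single_le_sum (f := fun x => (bd x).count d) (fun _ _ => Nat.zero_le _) (Finset.mem_univ f)

end Rot

omit [Fintype V] [Fintype E] [DecidableEq V] [DecidableEq E] in
lemma chain_sum {M : Type*} [AddCommMonoid M] (h : V → M) :
    ∀ (l : List (E × Bool)) (a : E × Bool), (a :: l).IsChain (fun a b => org b = org (rv a)) →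
      ((a :: l).map fun d => h (org d)).sum + h (org (rv ((a :: l).getLast (List.cons_ne_nil _ _)))) =
        ((a :: l).map fun d => h (org (rv d))).sum + h (org a) := by
  intro l
  induction l with
  | nil =>
    intro a _
    simp [add_comm]
  | cons b l ih =>
    intro a hc
    rw [List.isChain_cons_cons] at hc
    have h1 := ih b hc.2
    rw [List.getLast_cons (List.cons_ne_nil _ _)]
    rw [List.map_cons, List.sum_cons, add_assoc, h1, List.map_cons (l := b :: l), List.sum_cons, hc.1]
    abel

omit [Fintype V] [Fintype E] [DecidableEq V] in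
lemma closed_sum (K : Rot org bd) {M : Type*} [AddCommMonoid M] [IsRightCancelAdd M] (h : V → M) (f : Option F) :
    ((bd f).map fun d => h (org d)).sum = ((bd f).map fun d => h (org (rv d))).sum := by
  have h1 := K.chain f
  have h2 := K.closed f
  generalize bd f = l at h1 h2
  cases l with
  | nil => rfl
  | cons a l =>
    have h3 := chain_sum h l a h1
    have h4 := h2 _ (List.getLast?_eq_getLast_of_ne_nil (List.cons_ne_nil a l)) a (by simp)
    rw [← h4] at h3
    exact add_right_cancel h3

/-- joined by edges which are not dual tree edges -/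
def Jn (org : E × Bool → V) (dd : F → E × Bool) : V → V → Prop :=
  Relation.ReflTransGen fun a b => ∃ d, (∀ f, (dd f).1 ≠ d.1) ∧ org d = a ∧ org (rv d) = b

omit [Fintype V] [Fintype E] [Fintype F] [DecidableEq V] [DecidableEq E] [DecidableEq F] in
lemma Jn.symm {dd : F → E × Bool} {u v : V} (h : Jn org dd u v) : Jn org dd v u := by
  unfold Jn at h ⊢
  induction h with
  | refl => exact Relation.ReflTransGen.refl
  | tail _ hbc ih =>
    obtain ⟨d, hd, h1, h2⟩ := hbc
    exact Relation.ReflTransGen.head ⟨rv d, hd, h2, by rw [rv_rv]; exact h1⟩ ih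

omit [Fintype V] [Fintype E] [Fintype F] [DecidableEq V] [DecidableEq E] [DecidableEq F] in
lemma Jn.trans {dd : F → E × Bool} {u v w : V} (h : Jn org dd u v) (h' : Jn org dd v w) : Jn org dd u w :=
  Relation.ReflTransGen.trans h h'

omit [Fintype V] [Fintype E] [DecidableEq V] in
/-- the edges of a dual tree are distinct -/
lemma dd_inj (K : Rot org bd) {par : F → Option F} {dd : F → E × Bool} {rank : F → ℕ} (T : DT bd par dd rank)
    {f g : F} (h : (dd f).1 = (dd g).1) : f = g := by
  rcases eq_or_rv h with h1 | h1
  · exact Option.some.inj (K.face_unique (T.mem f) (h1 ▸ T.mem g))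
  · exfalso
    have h2 : par g = some f := K.face_unique (T.memr g) (h1 ▸ T.mem f)
    have h3 : par f = some g := K.face_unique (T.memr f) (by rw [h1, rv_rv]; exact T.mem g)
    have h4 := T.dec g f h2
    have h5 := T.dec f g h3
    omega

omit [Fintype V] [Fintype E] [DecidableEq V] in
/-- going around a face -/
lemma around (K : Rot org bd) {dd : F → E × Bool} {f : Option F} {x : E × Bool} (hx : x ∈ bd f)
    (h : ∀ d ∈ bd f, d ≠ x → Jn org dd (org d) (org (rv d))) : Jn org dd (org x) (org (rv x)) := by
  classical
  have h1 := closed_sum K (fun v => if Jn org dd (org x) v then 1 else 0 : V → ℕ) f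
  rw [← List.sum_toFinset _ (K.bd_nodup f), ← List.sum_toFinset _ (K.bd_nodup f)] at h1
  have hx' : x ∈ (bd f).toFinset := List.mem_toFinset.2 hx
  rw [← Finset.add_sum_erase _ _ hx', ← Finset.add_sum_erase _ _ hx'] at h1
  have h2 : ∑ d ∈ (bd f).toFinset.erase x, (if Jn org dd (org x) (org d) then 1 else 0 : ℕ) =
      ∑ d ∈ (bd f).toFinset.erase x, (if Jn org dd (org x) (org (rv d)) then 1 else 0 : ℕ) := by
    refine Finset.sum_congr rfl fun d hd => ?_
    have hd1 := Finset.ne_of_mem_erase hd
    have hd2 := List.mem_toFinset.1 (Finset.mem_of_mem_erase hd)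
    have h3 := h d hd2 hd1
    have h4 : Jn org dd (org x) (org d) ↔ Jn org dd (org x) (org (rv d)) :=
      ⟨fun h5 => h5.trans h3, fun h5 => h5.trans h3.symm⟩
    simp only [h4]
  rw [h2] at h1
  have h5 := add_right_cancel h1
  have h6 : Jn org dd (org x) (org x) := Relation.ReflTransGen.refl
  rw [if_pos h6] at h5
  by_contra h7
  rw [if_neg h7] at h5
  exact one_ne_zero h5

omit [Fintype V] [Fintype E] [DecidableEq V] in
/-- the ends of a dual tree edge are joined by other edges -/
lemma joined (K : Rot org bd) {par : F → Option F} {dd : F → E × Bool} {rank : F → ℕ} (T : DT bd par dd rank) :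
    ∀ f, Jn org dd (org (dd f)) (org (rv (dd f))) := by
  classical
  set M := (univ : Finset F).sup rank with hM
  have hle : ∀ f, rank f ≤ M := fun f => Finset.le_sup (f := rank) (mem_univ f)
  have key : ∀ m : ℕ, ∀ f, M - rank f ≤ m → Jn org dd (org (dd f)) (org (rv (dd f))) := by
    intro m
    induction m with
    | zero =>
      intro f hf
      refine around K (T.mem f) fun d hd hne => ?_
      by_cases hc : ∃ g, (dd g).1 = d.1
      · obtain ⟨g, hg⟩ := hc
        rcases eq_or_rv hg with h1 | h1
        · exfalso
          have h2 : some g = some f := K.face_unique (T.mem g) (h1 ▸ hd)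
          rw [Option.some.inj h2] at h1
          exact hne h1.symm
        · exfalso
          have h2 : par g = some f := K.face_unique (T.memr g) (by rw [h1, rv_rv]; exact hd)
          have h3 := T.dec g f h2
          have h4 := hle g
          omega
      · push Not at hc
        exact Relation.ReflTransGen.single ⟨d, hc, rfl, rfl⟩
    | succ m ih =>
      intro f hf
      refine around K (T.mem f) fun d hd hne => ?_
      by_cases hc : ∃ g, (dd g).1 = d.1
      · obtain ⟨g, hg⟩ := hc
        rcases eq_or_rv hg with h1 | h1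
        · exfalso
          have h2 : some g = some f := K.face_unique (T.mem g) (h1 ▸ hd)
          rw [Option.some.inj h2] at h1
          exact hne h1.symm
        · have h2 : par g = some f := K.face_unique (T.memr g) (by rw [h1, rv_rv]; exact hd)
          have h3 := T.dec g f h2
          have h4 := hle g
          have h5 := ih g (by omega)
          rw [h1, rv_rv] at h5
          exact h5.symm
      · push Not at hc
        exact Relation.ReflTransGen.single ⟨d, hc, rfl, rfl⟩
  exact fun f => key _ f le_rfl

omit [Fintype V] [Fintype E] [DecidableEq V] in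
/-- the primal graph without the dual tree edges is connected -/
theorem conn_compl (K : Rot org bd) {par : F → Option F} {dd : F → E × Bool} {rank : F → ℕ} (T : DT bd par dd rank)
    (u v : V) : Jn org dd u v := by
  have h1 := K.conn u v
  induction h1 with
  | refl => exact Relation.ReflTransGen.refl
  | tail _ hbc ih =>
    refine ih.trans ?_
    obtain ⟨d, rfl, rfl⟩ := hbc
    by_cases hc : ∃ g, (dd g).1 = d.1
    · obtain ⟨g, hg⟩ := hc
      have h2 := joined K T g
      rcases eq_or_rv hg with h3 | h3
      · rw [h3] at h2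
        exact h2
      · rw [h3, rv_rv] at h2
        exact h2.symm
    · push Not at hc
      exact Relation.ReflTransGen.single ⟨d, hc, rfl, rfl⟩

/-- complementary primal spanning tree -/
theorem exists_PT (K : Rot org bd) {par : F → Option F} {dd : F → E × Bool} {rank : F → ℕ} (T : DT bd par dd rank)
    (root : V) : ∃ (pd : V → Option (E × Bool)) (hgt : V → ℕ), PT org pd hgt root ∧
      ∀ v d, pd v = some d → ∀ f, (dd f).1 ≠ d.1 := by
  obtain ⟨pd, hgt, h1, h2⟩ := exists_rooted (fun d : E × Bool => org d) (fun d => org (rv d))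
    (fun d => ∀ f, (dd f).1 ≠ d.1) root (fun v => conn_compl K T v root)
  exact ⟨pd, hgt, ⟨h1, fun v d hd => (h2 v d hd).2.1, fun v d hd => (h2 v d hd).2.2⟩, fun v d hd => (h2 v d hd).1⟩

omit [Fintype V] [Fintype E] [DecidableEq V] [DecidableEq E] in
lemma pd_unique {pd : V → Option (E × Bool)} {hgt : V → ℕ} {root : V} (T : PT org pd hgt root) {v : V} {d d' : E × Bool}
    (h : pd v = some d) {v' : V} (h' : pd v' = some d') (he : d.1 = d'.1) : v = v' ∧ d = d' := by
  rcases eq_or_rv he with rfl | rfl
  · exact ⟨(T.or v d h).symm.trans (T.or v' d h'), rfl⟩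
  · exfalso
    have h1 := T.dec v _ h
    have h2 := T.dec v' _ h'
    rw [rv_rv, T.or v' d' h'] at h1
    rw [T.or v _ h] at h2
    omega

omit [Fintype F] [DecidableEq F] in
open Classical in
/-- the number of tree edges is `V - 1` -/
lemma card_tree {pd : V → Option (E × Bool)} {hgt : V → ℕ} {root : V} (T : PT org pd hgt root) :
    (univ.filter fun e : E => ∃ v d, pd v = some d ∧ d.1 = e).card + 1 = Fintype.card V := by
  have h1 : (univ.filter fun e : E => ∃ v d, pd v = some d ∧ d.1 = e).card = ((univ : Finset V).erase root).card := by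
    symm
    have hex : ∀ v, v ≠ root → ∃ d, pd v = some d := by
      intro v hv
      rw [← Option.isSome_iff_exists, ← Option.ne_none_iff_isSome]
      intro h
      exact hv ((T.rt v).1 h)
    refine Finset.card_bij (fun v hv => (Classical.choose (hex v (Finset.ne_of_mem_erase hv))).1) ?_ ?_ ?_
    · intro v hv
      simp only [mem_filter, mem_univ, true_and]
      exact ⟨v, _, Classical.choose_spec (hex v (Finset.ne_of_mem_erase hv)), rfl⟩
    · intro v hv v' hv' h
      exact (pd_unique T (Classical.choose_spec (hex v (Finset.ne_of_mem_erase hv)))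
        (Classical.choose_spec (hex v' (Finset.ne_of_mem_erase hv'))) h).1
    · intro e he
      obtain ⟨v, d, hd, hde⟩ := (Finset.mem_filter.1 he).2
      have hv : v ≠ root := by
        intro h
        rw [(T.rt v).2 h] at hd
        exact Option.some_ne_none _ hd.symm
      refine ⟨v, by simp [hv], ?_⟩
      have h2 := hd.symm.trans (Classical.choose_spec (hex v hv))
      rw [← hde]
      exact congrArg Prod.fst (Option.some.inj h2).symm
  rw [h1, Finset.card_erase_of_mem (mem_univ _), Finset.card_univ]
  have : 0 < Fintype.card V := Fintype.card_pos_iff.2 ⟨root⟩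
  omega

open Classical in
omit [Fintype V] [DecidableEq V] in
/-- the number of dual tree edges is `F` -/
lemma card_cotree (K : Rot org bd) {par : F → Option F} {dd : F → E × Bool} {rank : F → ℕ} (T : DT bd par dd rank) :
    (univ.filter fun e : E => ∃ f, (dd f).1 = e).card = Fintype.card F := by
  rw [← Finset.card_univ]
  symm
  refine Finset.card_bij (fun f _ => (dd f).1) ?_ ?_ ?_
  · intro f _
    simp only [mem_filter, mem_univ, true_and]
    exact ⟨f, rfl⟩
  · intro f _ g _ h
    exact dd_inj K T h
  · intro e he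
    obtain ⟨f, hf⟩ := (Finset.mem_filter.1 he).2
    exact ⟨f, mem_univ _, hf⟩

omit [Fintype V] [Fintype E] [DecidableEq V] in
/-- a dual spanning tree exists -/
theorem exists_DT (K : Rot org bd) : ∃ (par : F → Option F) (dd : F → E × Bool) (rank : F → ℕ), DT bd par dd rank := by
  classical
  choose fc hfc using K.exists_face
  obtain ⟨pd, hgt, h1, h2⟩ := exists_rooted (W := Option F) (fun d : E × Bool => fc d) (fun d => fc (rv d))
    (fun _ => True) none (by
      intro v
      refine Relation.ReflTransGen.mono ?_ v none (K.dconn v none)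
      rintro a b ⟨d, ha, hb⟩
      exact ⟨d, trivial, K.face_unique (hfc d) ha, K.face_unique (hfc (rv d)) hb⟩)
  have hex : ∀ f : F, ∃ d, pd (some f) = some d := by
    intro f
    rw [← Option.isSome_iff_exists, ← Option.ne_none_iff_isSome]
    intro h
    exact Option.some_ne_none _ ((h1 _).1 h)
  choose dd hdd using hex
  refine ⟨fun f => fc (rv (dd f)), dd, fun f => hgt (some f), ?_, ?_, ?_⟩
  · intro f
    have := (h2 _ _ (hdd f)).2.1
    rw [← this]
    exact hfc _
  · intro f
    exact hfc _
  · intro f g hg
    have h3 := (h2 _ _ (hdd f)).2.2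
    rw [hg] at h3
    exact h3

/-- **`V + F ≤ E + 1` without Euler's formula** -/
theorem euler_le (K : Rot org bd) : Fintype.card V + Fintype.card F ≤ Fintype.card E + 1 := by
  classical
  obtain ⟨par, dd, rank, T⟩ := exists_DT K
  have h1 := card_cotree K T
  rcases isEmpty_or_nonempty V with hV | ⟨⟨root⟩⟩
  · rw [Fintype.card_eq_zero]
    have h2 : (univ.filter fun e : E => ∃ f, (dd f).1 = e).card ≤ Fintype.card E := Finset.card_le_univ _
    omega
  · obtain ⟨pd, hgt, hP, hd⟩ := exists_PT K T root
    have h2 := card_tree hP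
    have h3 : Disjoint (univ.filter fun e : E => ∃ v d, pd v = some d ∧ d.1 = e)
        (univ.filter fun e : E => ∃ f, (dd f).1 = e) := by
      rw [Finset.disjoint_left]
      intro e he he'
      obtain ⟨v, d, h4, h5⟩ := (Finset.mem_filter.1 he).2
      obtain ⟨f, hf⟩ := (Finset.mem_filter.1 he').2
      exact hd v d h4 f (hf.trans h5.symm)
    have h6 := Finset.card_le_univ ((univ.filter fun e : E => ∃ v d, pd v = some d ∧ d.1 = e) ∪
      (univ.filter fun e : E => ∃ f, (dd f).1 = e))
    rw [Finset.card_union_of_disjoint h3] at h6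
    omega

/-- with Euler's formula the primal tree is exactly the complement of the dual tree -/
theorem tree_iff (K : Rot org bd) (heul : Fintype.card V + Fintype.card F = Fintype.card E + 1) {par : F → Option F}
    {dd : F → E × Bool} {rank : F → ℕ} (T : DT bd par dd rank) {pd : V → Option (E × Bool)} {hgt : V → ℕ} {root : V}
    (hP : PT org pd hgt root) (hd : ∀ v d, pd v = some d → ∀ f, (dd f).1 ≠ d.1) (e : E) :
    (∃ v d, pd v = some d ∧ d.1 = e) ↔ ∀ f, (dd f).1 ≠ e := by
  classical
  constructor
  · rintro ⟨v, d, h1, rfl⟩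
    exact hd v d h1
  · intro h
    by_contra hc
    have h1 := card_cotree K T
    have h2 := card_tree hP
    have h3 : Disjoint (univ.filter fun e : E => ∃ v d, pd v = some d ∧ d.1 = e)
        (univ.filter fun e : E => ∃ f, (dd f).1 = e) := by
      rw [Finset.disjoint_left]
      intro e he he'
      obtain ⟨v, d, h4, h5⟩ := (Finset.mem_filter.1 he).2
      obtain ⟨f, hf⟩ := (Finset.mem_filter.1 he').2
      exact hd v d h4 f (hf.trans h5.symm)
    have h4 : ((univ.filter fun e : E => ∃ v d, pd v = some d ∧ d.1 = e) ∪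
      (univ.filter fun e : E => ∃ f, (dd f).1 = e)) ⊆ (univ : Finset E).erase e := by
      intro x hx
      rw [Finset.mem_erase]
      refine ⟨?_, mem_univ _⟩
      rintro rfl
      rcases Finset.mem_union.1 hx with hx | hx
      · exact hc (Finset.mem_filter.1 hx).2
      · obtain ⟨f, hf⟩ := (Finset.mem_filter.1 hx).2
        exact h f hf
    have h5 := Finset.card_le_card h4
    rw [Finset.card_union_of_disjoint h3, Finset.card_erase_of_mem (mem_univ _), Finset.card_univ] at h5
    have h6 : 0 < Fintype.card E := Fintype.card_pos_iff.2 ⟨e⟩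
    omega

end

/-! ### the statement for planar complexes -/

section PCx

variable {A : Type} (K : PC A)

lemma rot : Rot K.org K.bd := ⟨K.chain, K.closed, K.once, K.conn, K.dconn⟩

lemma lt_rv (d : K.E × Bool) : K.lt (rv d) = (K.lt d)⁻¹ := by
  unfold PC.lt rv
  rw [FreeGroup.inv_mk]
  rfl

variable {K}

/-- potential along the tree path from the root -/
noncomputable def potT (T : K.STree) (v : K.V) : FreeGroup A :=
  match h : T.pd v with
  | none => 1
  | some d => potT T (K.org (rv d)) * K.lt (rv d)
termination_by T.hgt v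
decreasing_by exact T.dec v d h

lemma potT_none (T : K.STree) {v : K.V} (h : T.pd v = none) : potT T v = 1 := by
  rw [potT]
  split
  · rfl
  · rename_i d hd
    rw [h] at hd
    exact absurd hd (by simp)

lemma potT_some (T : K.STree) {v : K.V} {d : K.E × Bool} (h : T.pd v = some d) :
    potT T v = potT T (K.org (rv d)) * K.lt (rv d) := by
  rw [potT]
  split
  · rename_i hd
    rw [h] at hd
    exact absurd hd (by simp)
  · rename_i d' hd
    rw [h] at hd
    rw [Option.some.inj hd]

lemma potT_root (T : K.STree) : potT T T.root = 1 := potT_none T ((T.rt _).2 rfl)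

/-- the potential along tree darts -/
lemma potT_tree (T : K.STree) (d : K.E × Bool) (h : T.Ed d.1) :
    potT T (K.org d) * K.lt d = potT T (K.org (rv d)) := by
  obtain ⟨v, d', hd', he⟩ := h
  rcases eq_or_rv he with rfl | rfl
  · rw [T.or v d' hd', potT_some T hd', lt_rv, inv_mul_cancel_right]
  · have h1 := T.or v _ hd'
    rw [h1, potT_some T hd', rv_rv]

/-- **T2**: a rooted dual spanning tree gives a cotree with the same dual tree, any root, whose potential is the potential of a
complementary primal spanning tree -/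
theorem exists_cotree (K : PC A) {par : K.F → Option K.F} {dd : K.F → K.E × Bool} {rank : K.F → ℕ}
    (T : DT K.bd par dd rank) (root : K.V) :
    ∃ (C : K.Cotree) (S : K.STree), C.par = par ∧ C.dd = dd ∧ C.rank = rank ∧ C.root = root ∧ S.root = root ∧
      (∀ e, S.Ed e ↔ ∀ f, (dd f).1 ≠ e) ∧ C.pot = potT S := by
  obtain ⟨pd, hgt, hP, hd⟩ := exists_PT (rot K) T root
  set S : K.STree := ⟨pd, hgt, root, hP.rt, hP.or, hP.dec⟩ with hS
  have hEd : ∀ e, S.Ed e ↔ ∀ f, (dd f).1 ≠ e := tree_iff (rot K) K.euler T hP hd
  exact ⟨⟨par, dd, rank, T.mem, T.memr, T.dec, root, potT S, potT_root S, fun d h => potT_tree S d ((hEd _).2 h)⟩, S,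
    rfl, rfl, rfl, rfl, rfl, hEd, rfl⟩

/-- form of helper45: primal spanning tree complementary to a given dual tree -/
theorem exists_stree_of_dual (K : PC A) (par : K.F → Option K.F) (dd : K.F → K.E × Bool) (rank : K.F → ℕ)
    (mem : ∀ f, dd f ∈ K.bd (some f)) (memr : ∀ f, rv (dd f) ∈ K.bd (par f))
    (dec : ∀ f g, par f = some g → rank g < rank f) (r : K.V) :
    ∃ T : K.STree, T.root = r ∧ ∀ e, T.Ed e ↔ ∀ f, (dd f).1 ≠ e := by
  obtain ⟨-, S, -, -, -, -, h5, h6, -⟩ := exists_cotree K ⟨mem, memr, dec⟩ r
  exact ⟨S, h5, h6⟩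

/-- form of helper43: cotree with a given dual tree -/
theorem exists_cotree_of_dual (K : PC A) (par : K.F → Option K.F) (dd : K.F → K.E × Bool) (rank : K.F → ℕ)
    (mem : ∀ f, dd f ∈ K.bd (some f)) (memr : ∀ f, rv (dd f) ∈ K.bd (par f))
    (dec : ∀ f g, par f = some g → rank g < rank f) (r : K.V) :
    ∃ C : K.Cotree, C.par = par ∧ C.dd = dd ∧ C.root = r := by
  obtain ⟨C, -, h1, h2, -, h4, -, -, -⟩ := exists_cotree K ⟨mem, memr, dec⟩ r
  exact ⟨C, h1, h2, h4⟩

/-- existence of some cotree with any root -/
theorem exists_cotree' (K : PC A) (root : K.V) :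
    ∃ (C : K.Cotree) (S : K.STree), C.root = root ∧ S.root = root ∧
      (∀ e, S.Ed e ↔ ∀ f, (C.dd f).1 ≠ e) ∧ C.pot = potT S := by
  obtain ⟨par, dd, rank, T⟩ := exists_DT (rot K)
  obtain ⟨C, S, -, h2, -, h4, h5, h6, h7⟩ := exists_cotree K T root
  exact ⟨C, S, h4, h5, fun e => by rw [h2]; exact h6 e, h7⟩

/-- a connected graph has a spanning tree with any root -/
theorem exists_stree (K : PC A) (root : K.V) : ∃ S : K.STree, S.root = root := by
  obtain ⟨-, S, -, h, -⟩ := exists_cotree' K root
  exact ⟨S, h⟩

end PCx

end Vale.Agent.P201.Z.T2
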