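import Vale.Agent.P201.Z.PC

/-! P201, block D: spanning trees adapted to the classes of a set of edges (helper731).
Everything is stated for a general complex `K : PC A` and a general set `Q` of edges. -/

namespace Vale.Agent.P201.Z

open Finset

namespace PC

variable {A : Type} (K : PC A)

/-- vertices joined by an edge of `Q` -/
def QAdj (Q : K.E → Prop) (v w : K.V) : Prop := ∃ d : K.E × Bool, Q d.1 ∧ K.org d = v ∧ K.org (rv d) = w

/-- same class with respect to the edges of `Q` -/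
def QCon (Q : K.E → Prop) : K.V → K.V → Prop := Relation.ReflTransGen (K.QAdj Q)

end PC

section reach

/-- a walk of length `k` from `v` into `S` -/
def TTRch {V : Type} (adj : V → V → Prop) (S : V → Prop) : ℕ → V → Prop
  | 0, v => S v
  | k + 1, v => ∃ w, adj v w ∧ TTRch adj S k w

private theorem TTRch_of_rtg {V : Type} {adj : V → V → Prop} {S : V → Prop} {v w : V}
    (h : Relation.ReflTransGen adj v w) (hw : S w) : ∃ k, TTRch adj S k v := by
  induction h using Relation.ReflTransGen.head_induction_on with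
  | refl => exact ⟨0, hw⟩
  | head hab _ ih =>
    obtain ⟨k, hk⟩ := ih
    exact ⟨k + 1, _, hab, hk⟩

end reach

namespace PC

variable {A : Type} (K : PC A)

private theorem ttree_rv (d : K.E × Bool) : rv (rv d) = d := by
  obtain ⟨e, b⟩ := d
  simp [rv]

private theorem ttree_adj_symm {Q : K.E → Prop} {v w : K.V} (h : K.QAdj Q v w) : K.QAdj Q w v := by
  obtain ⟨d, h1, h2, h3⟩ := h
  exact ⟨rv d, h1, h3, by rw [K.ttree_rv]; exact h2⟩

private theorem ttree_con_symm {Q : K.E → Prop} {v w : K.V} (h : K.QCon Q v w) : K.QCon Q w v := by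
  induction h with
  | refl => exact Relation.ReflTransGen.refl
  | tail _ hbc ih => exact Relation.ReflTransGen.head (ttree_adj_symm K hbc) ih

/-- rank function, root map and parent darts -/
theorem exists_rho (Q : K.E → Prop) (r : K.V) : ∃ (ρ : K.V → K.V) (hgt : K.V → ℕ), ρ r = r ∧
    (∀ v w, K.QCon Q v w → ρ v = ρ w) ∧ (∀ v, K.QCon Q v (ρ v)) ∧
    ∀ v, v ≠ r → ∃ d : K.E × Bool, K.org d = v ∧ hgt (K.org (rv d)) < hgt v ∧ (ρ v = v ∨ Q d.1) := by
  classical
  -- classes
  let st : Setoid K.V := ⟨K.QCon Q, ⟨fun v => Relation.ReflTransGen.refl, fun h => ttree_con_symm K h,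
    fun h h' => Relation.ReflTransGen.trans h h'⟩⟩
  let rep : K.V → K.V := fun v => (Quotient.mk st v).out
  have hrep : ∀ v, K.QCon Q v (rep v) := fun v => ttree_con_symm K (Quotient.exact (Quotient.out_eq (Quotient.mk st v)))
  have hrep2 : ∀ v w, K.QCon Q v w → rep v = rep w := fun v w h => by
    have : Quotient.mk st v = Quotient.mk st w := Quotient.sound h
    simp only [rep, this]
  -- level of a class
  let adj : K.V → K.V → Prop := fun v w => ∃ d : K.E × Bool, K.QCon Q v (K.org d) ∧ K.QCon Q (K.org (rv d)) w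
  have hR : ∀ v, ∃ k, TTRch adj (fun u => K.QCon Q u r) k v := by
    intro v
    have h := K.conn v r
    have h2 : Relation.ReflTransGen adj v r := by
      induction h with
      | refl => exact Relation.ReflTransGen.refl
      | tail _ hbc ih =>
        obtain ⟨d, rfl, rfl⟩ := hbc
        exact Relation.ReflTransGen.tail ih ⟨d, Relation.ReflTransGen.refl, Relation.ReflTransGen.refl⟩
    exact TTRch_of_rtg h2 Relation.ReflTransGen.refl
  let D : K.V → ℕ := fun v => Nat.find (hR v)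
  have hcl : ∀ k v w, K.QCon Q v w → TTRch adj (fun u => K.QCon Q u r) k w →
      TTRch adj (fun u => K.QCon Q u r) k v := by
    intro k v w hvw
    cases k with
    | zero => exact fun h => Relation.ReflTransGen.trans hvw h
    | succ k =>
      rintro ⟨u, ⟨d, h1, h2⟩, h3⟩
      exact ⟨u, ⟨d, Relation.ReflTransGen.trans hvw h1, h2⟩, h3⟩
  have hDle : ∀ v w, K.QCon Q v w → D v ≤ D w := fun v w h => Nat.find_min' _ (hcl _ v w h (Nat.find_spec (hR w)))
  have hD : ∀ v w, K.QCon Q v w → D v = D w := fun v w h => le_antisymm (hDle v w h) (hDle w v (ttree_con_symm K h))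
  have hD0 : ∀ v, D v = 0 → K.QCon Q v r := by
    intro v h
    have h1 := Nat.find_spec (hR v)
    have h2 : Nat.find (hR v) = 0 := h
    rw [h2] at h1
    exact h1
  have hDr : D r = 0 := (Nat.find_eq_zero (hR r)).2 Relation.ReflTransGen.refl
  have hDs : ∀ v, D v ≠ 0 → ∃ d : K.E × Bool, K.QCon Q v (K.org d) ∧ D (K.org (rv d)) < D v := by
    intro v h
    obtain ⟨k, hk⟩ := Nat.exists_eq_succ_of_ne_zero h
    have h1 := Nat.find_spec (hR v)
    have h2 : Nat.find (hR v) = k + 1 := hk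
    rw [h2] at h1
    obtain ⟨w, ⟨d, h3, h4⟩, h5⟩ := h1
    refine ⟨d, h3, ?_⟩
    rw [hD _ _ h4]
    have h6 : D w ≤ k := Nat.find_min' _ h5
    omega
  have hent : ∀ v, ∃ u, K.QCon Q v u ∧ (D v = 0 → u = r) ∧
      (D v ≠ 0 → ∃ d : K.E × Bool, K.org d = u ∧ D (K.org (rv d)) < D v) := by
    intro v
    by_cases h0 : D v = 0
    · exact ⟨r, hD0 v h0, fun _ => rfl, fun h => absurd h0 h⟩
    · obtain ⟨d, h1, h2⟩ := hDs v h0
      exact ⟨K.org d, h1, fun h => absurd h h0, fun _ => ⟨d, rfl, h2⟩⟩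
  choose ent hent0 hent1 hent2 using hent
  -- entry vertex
  let ρ : K.V → K.V := fun v => ent (rep v)
  have hρ0 : ∀ v, D v = 0 → ρ v = r := fun v h => hent1 _ (by rw [← hD _ _ (hrep v)]; exact h)
  have hρc : ∀ v w, K.QCon Q v w → ρ v = ρ w := fun v w h => by
    show ent (rep v) = ent (rep w)
    rw [hrep2 v w h]
  have hρv : ∀ v, K.QCon Q v (ρ v) := fun v => Relation.ReflTransGen.trans (hrep v) (hent0 _)
  -- distance inside the class
  have hE : ∀ v, ∃ k, TTRch (K.QAdj Q) (fun u => u = ρ v) k v := fun v => TTRch_of_rtg (hρv v) rfl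
  let δ : K.V → ℕ := fun v => Nat.find (hE v)
  have hδ0 : ∀ v, δ v = 0 → v = ρ v := by
    intro v h
    have h1 := Nat.find_spec (hE v)
    have h2 : Nat.find (hE v) = 0 := h
    rw [h2] at h1
    exact h1
  have hδs : ∀ v, v ≠ ρ v → ∃ d : K.E × Bool, K.org d = v ∧ Q d.1 ∧ δ (K.org (rv d)) < δ v := by
    intro v hv
    obtain ⟨k, hk⟩ := Nat.exists_eq_succ_of_ne_zero (fun h => hv (hδ0 v h) : δ v ≠ 0)
    have h1 := Nat.find_spec (hE v)
    have h2 : Nat.find (hE v) = k + 1 := hk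
    rw [h2] at h1
    obtain ⟨w, ⟨d, hQ, h3, h4⟩, h5⟩ := h1
    subst h4
    refine ⟨d, h3, hQ, ?_⟩
    have h6 : ρ v = ρ (K.org (rv d)) := hρc _ _ (Relation.ReflTransGen.single ⟨d, hQ, h3, rfl⟩)
    rw [h6] at h5
    have h7 : δ (K.org (rv d)) ≤ k := Nat.find_min' _ h5
    omega
  let B : ℕ := univ.sup δ
  have hB : ∀ v, δ v ≤ B := fun v => Finset.le_sup (Finset.mem_univ v)
  refine ⟨ρ, fun v => D v * (B + 1) + δ v, hρ0 r hDr, hρc, hρv, fun v hv => ?_⟩
  by_cases hvρ : v = ρ v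
  · have h0 : D v ≠ 0 := fun h0 => hv (hvρ.trans (hρ0 v h0))
    have h0' : D (rep v) ≠ 0 := by rw [← hD _ _ (hrep v)]; exact h0
    obtain ⟨d, hd1, h1⟩ := hent2 _ h0'
    refine ⟨d, hd1.trans hvρ.symm, ?_, Or.inl hvρ.symm⟩
    rw [← hD _ _ (hrep v)] at h1
    have h2 := hB (K.org (rv d))
    have h3 : (D (K.org (rv d)) + 1) * (B + 1) ≤ D v * (B + 1) := Nat.mul_le_mul_right _ h1
    rw [Nat.add_mul, one_mul] at h3
    show D (K.org (rv d)) * (B + 1) + δ (K.org (rv d)) < D v * (B + 1) + δ v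
    omega
  · obtain ⟨d, h1, h2, h3⟩ := hδs v hvρ
    refine ⟨d, h1, ?_, Or.inr h2⟩
    have h4 : D (K.org (rv d)) = D v :=
      (hD _ _ (Relation.ReflTransGen.single ⟨d, h2, h1, rfl⟩)).symm
    show D (K.org (rv d)) * (B + 1) + δ (K.org (rv d)) < D v * (B + 1) + δ v
    rw [h4]
    omega

/-- a spanning tree whose restriction to every class of the edges of `Q` is spanning -/
theorem exists_ttree (Q : K.E → Prop) (r : K.V) : ∃ (T : K.STree) (ρ : K.V → K.V), T.root = r ∧ ρ r = r ∧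
    (∀ d : K.E × Bool, Q d.1 → ρ (K.org d) = ρ (K.org (rv d))) ∧ (∀ v, K.QCon Q v (ρ v)) ∧
    ∀ v, ρ v = v ∨ ∃ d, T.pd v = some d ∧ Q d.1 := by
  classical
  obtain ⟨ρ, hgt, hr, hρ, hρv, h⟩ := K.exists_rho Q r
  have h' : ∀ v, ∃ o : Option (K.E × Bool), (v = r → o = none) ∧ (v ≠ r → ∃ d, o = some d ∧ K.org d = v ∧
      hgt (K.org (rv d)) < hgt v ∧ (ρ v = v ∨ Q d.1)) := by
    intro v
    by_cases hv : v = r
    · exact ⟨none, fun _ => rfl, fun h => absurd hv h⟩
    · obtain ⟨d, hd⟩ := h v hv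
      exact ⟨some d, fun h => absurd h hv, fun _ => ⟨d, rfl, hd⟩⟩
  choose pd hp0 hp1 using h'
  have hne : ∀ v d, pd v = some d → v ≠ r := by
    intro v d hd hv
    rw [hp0 v hv] at hd
    simp at hd
  refine ⟨⟨pd, hgt, r, fun v => ⟨fun hv => ?_, hp0 v⟩, fun v d hd => ?_, fun v d hd => ?_⟩,
    ρ, rfl, hr, fun d hQ => ?_, hρv, fun v => ?_⟩
  · by_contra hvr
    obtain ⟨d, hd, -⟩ := hp1 v hvr
    rw [hv] at hd
    simp at hd
  · obtain ⟨d', hd', h1, -⟩ := hp1 v (hne v d hd)
    rw [hd, Option.some.injEq] at hd'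
    rw [hd']; exact h1
  · obtain ⟨d', hd', -, h1, -⟩ := hp1 v (hne v d hd)
    rw [hd, Option.some.injEq] at hd'
    rw [hd']; exact h1
  · exact hρ _ _ (Relation.ReflTransGen.single ⟨d, hQ, rfl, rfl⟩)
  · by_cases hv : v = r
    · exact Or.inl (by rw [hv, hr])
    · obtain ⟨d, hd, -, -, h3⟩ := hp1 v hv
      rcases h3 with h | h
      · exact Or.inl h
      · exact Or.inr ⟨d, hd, h⟩

theorem ttree_zpow_inj {a : A} {m k : ℤ} (h : FreeGroup.of a ^ m = FreeGroup.of a ^ k) : m = k := by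
  have h1 := congrArg (FreeGroup.lift (fun _ : A => Multiplicative.ofAdd (1 : ℤ))) h
  rw [map_zpow, map_zpow, FreeGroup.lift_apply_of, ← ofAdd_zsmul, ← ofAdd_zsmul] at h1
  have h2 := Multiplicative.ofAdd.injective h1
  simpa using h2

/-- potentials along the tree: with `Q` the edges with letter `a`, the potential of a cotree of `T` is
constant on classes up to powers of `a` -/
theorem exists_tau {K : PC A} (a : A) {T : K.STree} {ρ : K.V → K.V}
    (hρ : ∀ d : K.E × Bool, K.lab d.1 = a → ρ (K.org d) = ρ (K.org (rv d)))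
    (hpd : ∀ v, ρ v = v ∨ ∃ d, T.pd v = some d ∧ K.lab d.1 = a) (C : K.Cotree)
    (hC : ∀ e, T.Ed e → ∀ f, (C.dd f).1 ≠ e) :
    ∃ τ : K.V → ℤ, (∀ v, ρ v = v → τ v = 0) ∧ ∀ v, C.pot v = C.pot (ρ v) * FreeGroup.of a ^ τ v := by
  classical
  have key : ∀ m : ℕ, ∀ v, T.hgt v = m → ∃ k : ℤ, (ρ v = v → k = 0) ∧
      C.pot v = C.pot (ρ v) * FreeGroup.of a ^ k := by
    intro m
    induction m using Nat.strong_induction_on with
    | _ m ih =>
      intro v hv
      by_cases hvv : ρ v = v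
      · exact ⟨0, fun _ => rfl, by rw [hvv, zpow_zero, mul_one]⟩
      · obtain ⟨d, hd, hda⟩ := (hpd v).resolve_left hvv
        have hlt := T.dec v d hd
        obtain ⟨k, -, hk⟩ := ih _ (hv ▸ hlt) (K.org (rv d)) rfl
        have hor := T.or v d hd
        have htr := C.triv d (fun f => hC d.1 ⟨v, d, hd, rfl⟩ f)
        rw [hor] at htr
        have hρd := hρ d hda
        rw [hor] at hρd
        rw [← hρd] at hk
        have hl : K.lt d = FreeGroup.of a ^ (if d.2 then (1 : ℤ) else -1) := by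
          unfold PC.lt
          rw [hda]
          cases d.2
          · simp only [Bool.false_eq_true, if_false, zpow_neg, zpow_one]
            rfl
          · simp only [if_true, zpow_one]
            rfl
        refine ⟨k - (if d.2 then (1 : ℤ) else -1), fun h => absurd h hvv, ?_⟩
        rw [zpow_sub, ← mul_assoc, ← hk, ← htr, hl, mul_assoc, mul_inv_cancel, mul_one]
  choose τ h0 h1 using fun v => key (T.hgt v) v rfl
  exact ⟨τ, h0, h1⟩

/-- the statement for the position function (part D, Lab): a tree `T` rooted at `r`, a cotree `C` of `T`,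
`pot v = R v * a^(τ v)`, `R` constant along the edges with letter `a`; an edge with letter `a` in the tree
moves `τ` by one. -/
theorem exists_pos (hT1 : StmtT1) (a : A) (r : K.V) :
    ∃ (T : K.STree) (C : K.Cotree) (τ : K.V → ℤ) (R : K.V → FreeGroup A), T.root = r ∧ C.root = r ∧
      (∀ e, T.Ed e ↔ ∀ f, (C.dd f).1 ≠ e) ∧
      (∀ f, ∀ e ∈ K.bdry (C.sub f), e = (C.dd f).1 ∨ T.Anc (K.org (C.dd f)) e ∨
        T.Anc (K.org (rv (C.dd f))) e) ∧
      (∀ d : K.E × Bool, K.lab d.1 = a → R (K.org d) = R (K.org (rv d))) ∧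
      (∀ v, C.pot v = R v * FreeGroup.of a ^ τ v) ∧
      (∀ d : K.E × Bool, K.lab d.1 = a → (∀ f, (C.dd f).1 ≠ d.1) →
        τ (K.org (rv d)) = τ (K.org d) + (if d.2 then (1 : ℤ) else -1)) := by
  obtain ⟨T, ρ, hr, -, hρ, -, hpd⟩ := K.exists_ttree (fun e => K.lab e = a) r
  obtain ⟨C, hCr, hC1, hC2⟩ := hT1 A K T
  obtain ⟨τ, -, hτ⟩ := exists_tau a hρ hpd C (fun e he => (hC1 e).1 he)
  refine ⟨T, C, τ, fun v => C.pot (ρ v), hr, hCr.trans hr, hC1, hC2,
    fun d hd => congrArg C.pot (hρ d hd), hτ, fun d hd hf => ?_⟩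
  have htr := C.triv d hf
  have hl : K.lt d = FreeGroup.of a ^ (if d.2 then (1 : ℤ) else -1) := by
    unfold PC.lt
    rw [hd]
    cases d.2
    · simp only [Bool.false_eq_true, if_false, zpow_neg, zpow_one]
      rfl
    · simp only [if_true, zpow_one]
      rfl
  rw [hτ, hτ (K.org (rv d)), ← hρ d hd, hl, mul_assoc, mul_right_inj, ← zpow_add] at htr
  exact (ttree_zpow_inj htr).symm

end PC

end Vale.Agent.P201.Z
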