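import Vale.Agent.P201.Z.D.BrSPos
import Vale.Agent.P201.Z.D.TTree
import Vale.Agent.P201.Z.D.ExprAPI

/-!
P201, D7: labels on the sphere (`StmtLabS`) (helper768).
-/

namespace Vale.Agent.P201.Z.BrS

open Finset

variable {p : Pat} {n : ℕ} {σ : Equiv.Perm (Cel p n)}

/-- the base dart of the outer face -/
theorem exists_base (K : SqK σ) (q0 : Port p n) (h : K.outw = relw σ q0) :
    ∃ d0, (K.bd none).head? = some d0 := by
  have h1 := (brS K q0 h).bd_eq none
  exact ⟨_, by
    show (K.bd ((brS K q0 h).j none)).head? = _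
    rw [h1]
    rfl⟩

theorem val_tw (m : ℤ) : val (tw p n m) = FreeGroup.of Let.t ^ m := by
  unfold val tw
  have key : ∀ (k : ℕ) (b : Bool), FreeGroup.mk (List.replicate k ((Let.t : Let p n), b)) =
      FreeGroup.mk [((Let.t : Let p n), b)] ^ k := by
    intro k b
    induction k with
    | zero => rfl
    | succ k ih =>
      rw [List.replicate_succ, pow_succ', ← ih, FreeGroup.mul_mk]
      rfl
  rw [key]
  by_cases h0 : 0 ≤ m
  · have : decide (0 ≤ m) = true := by simp [h0]
    rw [this]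
    have h2 : (m.natAbs : ℤ) = m := by simp [abs_of_nonneg h0]
    conv_rhs => rw [← h2]
    rw [zpow_natCast]
    rfl
  · have : decide (0 ≤ m) = false := by simp [h0]
    rw [this]
    have h2 : (m.natAbs : ℤ) = -m := by
      push Not at h0
      simp [abs_of_neg h0]
    have h3 : m = -(m.natAbs : ℤ) := by omega
    conv_rhs => rw [h3]
    rw [zpow_neg, zpow_natCast, ← inv_pow]
    rfl

/-- from an expression of the outer word to an identity -/
theorem expr_close {k : ℕ} {z : Chn σ} (q0 : Port p n) (h : Expr σ k (val (relw σ q0)) z) :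
    Expr σ (k + 1) 1 (z - pch σ 1 q0) := by
  have h1 : Expr σ 1 (val (relw σ (mt σ q0))) (pch σ 1 (mt σ q0)) :=
    EX.cast (EX.sq 1 (mt σ q0)) rfl (by simp) (by rw [map_one])
  refine EX.cast (EX.mul h h1) rfl ?_ ?_
  · rw [EX.val_relw_mt, mul_inv_cancel]
  · rw [EX.pch_mt, sub_eq_add_neg]

theorem one_le_card_sub {K : PC (Let p n)} (C : K.Cotree) (f : K.F) : 1 ≤ (C.sub f).card := by
  classical
  refine Finset.card_pos.2 ⟨f, mem_filter.2 ⟨mem_univ _, Relation.ReflTransGen.refl⟩⟩

/-- labels, sphere -/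
theorem stmtLabS (hT1 : StmtT1) (hRec : StmtRec) (hRepl : StmtRepl) : StmtLabS := by
  classical
  intro p n σ K P q0 h hc hz ht
  obtain ⟨d0, hd0⟩ := exists_base K q0 h
  obtain ⟨T, C, τ, R, hTr, hCr, hE, -, hR, hpot, hτ⟩ := K.toPC.exists_pos hT1 Let.t (K.org d0)
  have hbase : P.π C.root = 1 := by
    rw [hCr]
    exact P.base d0 (by rw [hd0]; rfl)
  have hbase2 : ∀ d ∈ (K.bd none).head?, K.org d = C.root := by
    intro d hd
    rw [hd0] at hd
    have : d0 = d := by simpa using hd
    rw [← this, hCr]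
  obtain ⟨hmk, hrec⟩ := hRec p n σ K P C hbase
  -- every t-edge is a tree edge
  have key : ∀ f, K.lab (C.dd f).1 ≠ Let.t := by
    intro f hf
    have h1 := hrec f
    have hR1 := hR (C.dd f) hf
    have hl : K.toPC.lt (C.dd f) = FreeGroup.of Let.t ^ (if (C.dd f).2 then (1 : ℤ) else -1) := by
      unfold PC.lt
      rw [hf]
      cases (C.dd f).2
      · simp only [Bool.false_eq_true, if_false, zpow_neg, zpow_one]
        rfl
      · simp only [if_true, zpow_one]
        rfl
    obtain ⟨m, hm⟩ : ∃ m : ℤ, C.c (C.dd f) =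
        R (K.org (C.dd f)) * FreeGroup.of Let.t ^ m * (R (K.org (C.dd f)))⁻¹ := by
      refine ⟨τ (K.org (C.dd f)) + (if (C.dd f).2 then (1 : ℤ) else -1) -
        τ (K.org (rv (C.dd f))), ?_⟩
      unfold PC.Cotree.c
      rw [hpot, hpot (K.org (rv (C.dd f))), ← hR1, hl, mul_inv_rev, zpow_sub, zpow_add]
      simp only [mul_assoc]
    have hle : (C.sub f).card ≤ Fintype.card K.F := Finset.card_le_univ _
    have hge := one_le_card_sub C f
    by_cases hm0 : m = 0
    · -- the value is trivial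
      have hc1 : C.c (C.dd f) = 1 := by
        rw [hm, hm0, zpow_zero, mul_one, mul_inv_cancel]
      rw [hc1] at h1
      have h2 : K.chn P (C.sub f) = 0 := hz _ _ hle h1
      have h3 := hRepl p n σ K P C hbase hbase2 f 0 0 (by rw [hc1]; exact Expr.nil)
      rw [h2, sub_zero, add_zero, add_zero, h] at h3
      have h4 := expr_close q0 h3
      exact hc (hz _ _ (by omega) h4)
    · -- a power of t
      rw [hm] at h1
      have h2 := EX.conj (R (K.org (C.dd f)))⁻¹ h1
      refine ht m _ _ hm0 (EX.cast h2 rfl ?_ rfl)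
      rw [val_tw]
      group
  refine lab_of_pos (brS K q0 h) τ (fun d hd => ?_)
  have hf : ∀ f, (C.dd f).1 ≠ d.1 := fun f hf => key f (by rw [hf]; exact hd)
  rw [hτ d hd hf]
  rfl

end Vale.Agent.P201.Z.BrS
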