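import Vale.Agent.P201.Z.D.BrSLab
import Vale.Agent.P201.Z.D.Repl
import Vale.Agent.P201.Z.D.T2

/-!
P201, D6/D7: mirror pairs (helper768).  `mirror_inner`: a mirror pair of inner squares can be removed;
`mirror_outer`: a mirror pair consisting of an inner square and the outer square; `stmtMirS`.
-/

namespace Vale.Agent.P201.Z.BrS

open Finset

section pc

variable {A : Type} {K : PC A} (C : K.Cotree)

/-- product of the values along a list which can be continued by `e` -/
theorem prod_pre (l : List (K.E × Bool)) (e : K.E × Bool)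
    (h : (l ++ [e]).IsChain (fun a b => K.org b = K.org (rv a))) :
    ∀ a ∈ (l ++ [e]).head?, (l.map C.c).prod =
      C.pot (K.org a) * (l.map K.lt).prod * (C.pot (K.org e))⁻¹ := by
  induction l with
  | nil =>
    intro a ha
    have : e = a := by simpa using ha
    subst this
    simp
  | cons d l ih =>
    intro a ha
    have : d = a := by simpa using ha
    subst this
    have h' : (d :: (l ++ [e])).IsChain (fun a b => K.org b = K.org (rv a)) := h
    obtain ⟨b, hb⟩ : ∃ b, (l ++ [e]).head? = some b := by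
      cases l with
      | nil => exact ⟨e, rfl⟩
      | cons b l => exact ⟨b, rfl⟩
    rw [List.map_cons, List.prod_cons, ih (List.IsChain.tail h') b hb, List.map_cons,
      List.prod_cons]
    have hcon : K.org b = K.org (rv d) := by
      cases hl : l ++ [e] with
      | nil => simp at hl
      | cons b' l' =>
        rw [hl] at hb h'
        have : b' = b := by simpa using hb
        subst this
        exact (List.isChain_cons_cons.1 h').1
    rw [hcon]
    unfold PC.Cotree.c
    group

/-- product of the values along a list which continues `d` -/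
theorem prod_post (l : List (K.E × Bool)) : ∀ (d : K.E × Bool),
    (d :: l).IsChain (fun a b => K.org b = K.org (rv a)) →
    ∀ a ∈ (d :: l).getLast?, (l.map C.c).prod =
      C.pot (K.org (rv d)) * (l.map K.lt).prod * (C.pot (K.org (rv a)))⁻¹ := by
  induction l with
  | nil =>
    intro d _ a ha
    have : d = a := by simpa using ha
    subst this
    simp
  | cons b l ih =>
    intro d h a ha
    have h2 := List.isChain_cons_cons.1 h
    have ha' : a ∈ (b :: l).getLast? := by
      rw [List.getLast?_cons_cons] at ha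
      exact ha
    rw [List.map_cons, List.prod_cons, ih b h2.2 a ha', List.map_cons, List.prod_cons, ← h2.1]
    unfold PC.Cotree.c
    group

theorem map_lt_prod (l : List (K.E × Bool)) :
    (l.map K.lt).prod = val (l.map (fun d => (K.lab d.1, d.2))) := by
  induction l with
  | nil => rfl
  | cons a l ih =>
    rw [List.map_cons, List.prod_cons, ih, List.map_cons]
    unfold PC.lt val
    rw [FreeGroup.mul_mk]
    rfl

/-- two faces with mirror words glued along corresponding darts -/
theorem mirror_prod {f1 f2 : Option K.F} {δ : K.E × Bool} {n1 n2 m1 m2 : List (K.E × Bool)}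
    (h1 : K.bd f1 = n1 ++ δ :: n2) (h2 : K.bd f2 = m1 ++ rv δ :: m2)
    (hw : K.wd f2 = winv (K.wd f1)) (hl : n1.length = m2.length) {o1 o2 : K.E × Bool}
    (ho1 : o1 ∈ (K.bd f1).head?) (ho2 : o2 ∈ (K.bd f2).head?) :
    ((n1 ++ m2).map C.c).prod = C.pot (K.org o1) * (C.pot (K.org o2))⁻¹ ∧
    ((n1 ++ m2 ++ (m1 ++ n2)).map C.c).prod = 1 := by
  -- words
  have hW1 : m1.map (fun d => (K.lab d.1, d.2)) = winv (n2.map (fun d => (K.lab d.1, d.2))) ∧
      m2.map (fun d => (K.lab d.1, d.2)) = winv (n1.map (fun d => (K.lab d.1, d.2))) := by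
    have h3 : (m1.map (fun d => (K.lab d.1, d.2))) ++
        ((K.lab (rv δ).1, (rv δ).2) :: m2.map (fun d => (K.lab d.1, d.2))) =
        winv (n2.map (fun d => (K.lab d.1, d.2))) ++
        ((K.lab δ.1, !δ.2) :: winv (n1.map (fun d => (K.lab d.1, d.2)))) := by
      have h4 : (K.bd f2).map (fun d => (K.lab d.1, d.2)) =
          winv ((K.bd f1).map (fun d => (K.lab d.1, d.2))) := hw
      rw [h1, h2, List.map_append, List.map_cons, List.map_append, List.map_cons] at h4
      rw [h4]
      simp [winv]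
    have h5 := List.append_inj' h3 (by simp [winv, hl])
    exact ⟨h5.1, (List.cons.inj h5.2).2⟩
  have hc1 := K.chain f1
  have hc2 := K.chain f2
  have hcl1 := K.closed f1
  have hcl2 := K.closed f2
  rw [h1] at hc1 hcl1 ho1
  rw [h2] at hc2 hcl2 ho2
  have hs1 : n1 ++ δ :: n2 = (n1 ++ [δ]) ++ n2 := by simp
  have hs2 : m1 ++ rv δ :: m2 = (m1 ++ [rv δ]) ++ m2 := by simp
  have hp1 : (n1 ++ [δ]).IsChain (fun a b => K.org b = K.org (rv a)) := by
    rw [hs1, List.isChain_append] at hc1
    exact hc1.1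
  have hp2 : (m1 ++ [rv δ]).IsChain (fun a b => K.org b = K.org (rv a)) := by
    rw [hs2, List.isChain_append] at hc2
    exact hc2.1
  have hq1 : (δ :: n2).IsChain (fun a b => K.org b = K.org (rv a)) :=
    (List.isChain_append.1 hc1).2.1
  have hq2 : (rv δ :: m2).IsChain (fun a b => K.org b = K.org (rv a)) :=
    (List.isChain_append.1 hc2).2.1
  have ho1' : o1 ∈ (n1 ++ [δ]).head? := by
    cases n1 with
    | nil => simpa using ho1
    | cons a l => simpa using ho1
  have ho2' : o2 ∈ (m1 ++ [rv δ]).head? := by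
    cases m1 with
    | nil => simpa using ho2
    | cons a l => simpa using ho2
  obtain ⟨e1, he1⟩ : ∃ e1, e1 ∈ (δ :: n2).getLast? :=
    ⟨_, List.getLast?_eq_some_getLast (List.cons_ne_nil _ _)⟩
  obtain ⟨e2, he2⟩ : ∃ e2, e2 ∈ (rv δ :: m2).getLast? :=
    ⟨_, List.getLast?_eq_some_getLast (List.cons_ne_nil _ _)⟩
  have he1' : e1 ∈ (n1 ++ δ :: n2).getLast? := by
    rw [List.getLast?_append]
    rw [Option.mem_def] at he1
    rw [he1]
    simp
  have he2' : e2 ∈ (m1 ++ rv δ :: m2).getLast? := by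
    rw [List.getLast?_append]
    rw [Option.mem_def] at he2
    rw [he2]
    simp
  have hcc1 : K.org o1 = K.org (rv e1) := hcl1 e1 he1' o1 ho1
  have hcc2 : K.org o2 = K.org (rv e2) := hcl2 e2 he2' o2 ho2
  have P1 := prod_pre C n1 δ hp1 o1 ho1'
  have P2 := prod_pre C m1 (rv δ) hp2 o2 ho2'
  have Q1 := prod_post C n2 δ hq1 e1 he1
  have Q2 := prod_post C m2 (rv δ) hq2 e2 he2
  rw [← hcc1] at Q1
  rw [← hcc2, DR.rv_rv] at Q2
  rw [map_lt_prod] at P1 P2 Q1 Q2
  rw [hW1.1, EX.val_winv] at P2
  rw [hW1.2, EX.val_winv] at Q2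
  have hA : ((n1 ++ m2).map C.c).prod = C.pot (K.org o1) * (C.pot (K.org o2))⁻¹ := by
    rw [List.map_append, List.prod_append, P1, Q2]
    group
  refine ⟨hA, ?_⟩
  rw [List.map_append, List.prod_append, hA, List.map_append, List.prod_append, P2, Q1]
  group

end pc

variable {p : Pat} {n : ℕ} {σ : Equiv.Perm (Cel p n)}

open Classical in
/-- a dual tree containing a given dual edge -/
theorem exists_cotree_par (K : PC (Let p n)) (f : K.F) (δ : K.E × Bool)
    (hδ : δ ∈ K.bd (some f)) (g : Option K.F) (hg : rv δ ∈ K.bd g)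
    (par : K.F → Option K.F) (dd : K.F → K.E × Bool) (rank : K.F → ℕ)
    (T : T2.DT K.bd par dd rank) (hr : ∀ x, g = some x → rank x ≤ rank f ∧ x ≠ f) (r : K.V) :
    ∃ C : K.Cotree, C.par f = g ∧ C.dd f = δ ∧ C.root = r := by
  have e1 : ∀ x, Function.update dd f δ x ∈ K.bd (some x) := by
    intro x
    by_cases hx : x = f
    · subst hx; rw [Function.update_self]; exact hδ
    · rw [Function.update_of_ne hx]; exact T.mem x
  have e2 : ∀ x, rv (Function.update dd f δ x) ∈ K.bd (Function.update par f g x) := by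
    intro x
    by_cases hx : x = f
    · subst hx; rw [Function.update_self, Function.update_self]; exact hg
    · rw [Function.update_of_ne hx, Function.update_of_ne hx]; exact T.memr x
  have e3 : ∀ x y, Function.update par f g x = some y →
      2 * rank y + (if y = f then 1 else 0) < 2 * rank x + (if x = f then 1 else 0) := by
    intro x y hxy
    by_cases hx : x = f
    · subst hx
      rw [Function.update_self] at hxy
      obtain ⟨h1, h2⟩ := hr y hxy
      simp only [h2, if_false, if_true]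
      omega
    · rw [Function.update_of_ne hx] at hxy
      have h1 := T.dec x y hxy
      simp only [hx, if_false]
      split_ifs <;> omega
  obtain ⟨C, h1, h2, h3⟩ := T2.exists_cotree_of_dual K (Function.update par f g)
    (Function.update dd f δ) (fun x => 2 * rank x + if x = f then 1 else 0) e1 e2 e3 r
  exact ⟨C, by rw [h1, Function.update_self], by rw [h2, Function.update_self], h3⟩

theorem nodup_split {K : PC (Let p n)} {f : Option K.F} {δ : K.E × Bool} {n1 n2 : List (K.E × Bool)}
    (h : K.bd f = n1 ++ δ :: n2) : n1.Nodup ∧ n2.Nodup ∧ (∀ d ∈ n1, d ≠ δ) ∧ (∀ d ∈ n2, d ≠ δ) ∧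
      List.Disjoint n1 n2 ∧ (∀ d ∈ n1, d ∈ K.bd f) ∧ (∀ d ∈ n2, d ∈ K.bd f) := by
  have hn := DR.nodup (K := K) f
  rw [h, List.nodup_append] at hn
  obtain ⟨h1, h2, h3⟩ := hn
  rw [List.nodup_cons] at h2
  refine ⟨h1, h2.2, fun d hd => h3 d hd δ List.mem_cons_self, fun d hd he => h2.1 (he ▸ hd), ?_,
    fun d hd => by rw [h]; exact List.mem_append_left _ hd,
    fun d hd => by rw [h]; exact List.mem_append_right _ (List.mem_cons_of_mem _ hd)⟩
  intro d hd1 hd2
  exact h3 d hd1 d (List.mem_cons_of_mem _ hd2) rfl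

theorem mk_prod {K : SqK σ} (C : K.toPC.Cotree) (l : List (K.E × Bool)) :
    PresentedGroup.mk (rels σ) (l.map C.c).prod = 1 := by
  induction l with
  | nil => exact map_one _
  | cons a l ih => rw [List.map_cons, List.prod_cons, map_mul, ih, DR.mk_c, mul_one]

/-- the chain of a face from its base dart -/
theorem sqz_eq {K : SqK σ} (P : K.GPot) {f : K.F} {o : K.E × Bool}
    (ho : o ∈ (K.bd (some f)).head?) : DR.sqz P f = pch σ (P.π (K.org o)) (K.q f) := by
  unfold DR.sqz
  have : (K.bd (some f)).head? = some o := ho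
  rw [this]
  simp


theorem taut1 {a1 a2 b1 b2 e : Prop} (h : e → ¬ b1 ∧ ¬ b2) :
    ((a1 ∨ b2) ∨ (b1 ∨ a2)) ↔ ((¬e ∧ (b1 ∨ e ∨ b2)) ∨ (a1 ∨ a2)) := by
  tauto

theorem taut2 {a b c d : Prop} (h : a ↔ (b ∨ c ∨ d)) (hc : ¬ c) : a ↔ (b ∨ d) := by
  tauto

section mir

variable {K : PC (Let p n)} (C : K.Cotree) {f : K.F} {G : Option K.F} {δ : K.E × Bool}
  {n1 n2 m1 m2 : List (K.E × Bool)}

/-- the children of the two glued faces -/
theorem mir_iff (hdd : C.dd f = δ) (h1 : K.bd (some f) = n1 ++ δ :: n2)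
    (h2 : K.bd G = m1 ++ rv δ :: m2) (g : K.F) :
    rv (C.dd g) ∈ n1 ++ m2 ++ (m1 ++ n2) ↔ ((¬ g = f ∧ C.par g = G) ∨ C.par g = some f) := by
  obtain ⟨b1, b2, b3, b4, b5, b6, b7⟩ := nodup_split (K := K) h2
  have e1 : C.par g = some f ↔ (rv (C.dd g) ∈ n1 ∨ rv (C.dd g) ∈ n2) := by
    refine taut2 ?_ (c := rv (C.dd g) = δ) ?_
    · rw [DR.par_iff, h1, List.mem_append, List.mem_cons]
    · rw [← hdd]
      exact DR.rv_dd_ne C f g
  have e2 : C.par g = G ↔ (rv (C.dd g) ∈ m1 ∨ rv (C.dd g) = rv δ ∨ rv (C.dd g) ∈ m2) := by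
    rw [DR.par_iff, h2, List.mem_append, List.mem_cons]
  have e3 : rv (C.dd g) = rv δ ↔ g = f := by
    constructor
    · intro e
      refine DR.dd_inj C ?_
      rw [hdd, ← DR.rv_rv (C.dd g), e, DR.rv_rv]
    · rintro rfl
      rw [hdd]
  rw [e1, e2, e3, List.mem_append, List.mem_append, List.mem_append]
  refine taut1 ?_
  rintro rfl
  rw [hdd]
  exact ⟨fun hx => b3 _ hx rfl, fun hx => b4 _ hx rfl⟩

/-- the total list has no repetitions -/
theorem mir_nodup (hG : G ≠ some f) (h1 : K.bd (some f) = n1 ++ δ :: n2)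
    (h2 : K.bd G = m1 ++ rv δ :: m2) : (n1 ++ m2 ++ (m1 ++ n2)).Nodup := by
  obtain ⟨a1, a2, a3, a4, a5, a6, a7⟩ := nodup_split (K := K) h1
  obtain ⟨b1, b2, b3, b4, b5, b6, b7⟩ := nodup_split (K := K) h2
  have hdis : ∀ d, d ∈ K.bd (some f) → d ∈ K.bd G → False := fun d x y =>
    hG (DR.once' (K := K) y x)
  rw [List.nodup_append, List.nodup_append, List.nodup_append]
  refine ⟨⟨a1, b2, ?_⟩, ⟨b1, a2, ?_⟩, ?_⟩
  · rintro x hx y hy rfl
    exact hdis x (a6 x hx) (b7 x hy)
  · rintro x hx y hy rfl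
    exact hdis x (a7 x hy) (b6 x hx)
  · rintro x hx y hy rfl
    rw [List.mem_append] at hx hy
    rcases hx with hx | hx <;> rcases hy with hy | hy
    · exact hdis x (a6 x hx) (b6 x hy)
    · exact a5 hx hy
    · exact b5 hy hx
    · exact hdis x (a7 x hy) (b7 x hx)

/-- the darts of the total list -/
theorem mir_mem (h1 : K.bd (some f) = n1 ++ δ :: n2)
    (h2 : K.bd G = m1 ++ rv δ :: m2) {d : K.E × Bool} (hd : d ∈ n1 ++ m2 ++ (m1 ++ n2)) :
    (d ∈ K.bd (some f) ∧ d ≠ δ) ∨ d ∈ K.bd G := by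
  obtain ⟨a1, a2, a3, a4, a5, a6, a7⟩ := nodup_split (K := K) h1
  obtain ⟨b1, b2, b3, b4, b5, b6, b7⟩ := nodup_split (K := K) h2
  rw [List.mem_append, List.mem_append, List.mem_append] at hd
  rcases hd with (hd | hd) | (hd | hd)
  · exact Or.inl ⟨a6 d hd, a3 d hd⟩
  · exact Or.inr (b7 d hd)
  · exact Or.inr (b6 d hd)
  · exact Or.inl ⟨a7 d hd, a4 d hd⟩

end mir

open Classical in
/-- **outer mirror pair** -/
theorem mirror_outer (K : SqK σ) (P : K.GPot) (q0 : Port p n)
    (h : K.outw = relw σ q0) (f : K.F) (hq : K.q f = q0) (δ : K.E × Bool)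
    (n1 n2 m1 m2 : List (K.E × Bool)) (h1 : K.bd (some f) = n1 ++ δ :: n2)
    (h2 : K.bd none = m1 ++ rv δ :: m2) (hl : n1.length = m2.length) :
    Expr σ (Fintype.card K.F - 1) 1 (-(K.chn P univ - pch σ 1 q0)) := by
  obtain ⟨d0, hd0⟩ := exists_base K q0 h
  obtain ⟨par, dd, rank, T⟩ := T2.exists_DT (T2.rot K.toPC)
  have hδ : δ ∈ K.bd (some f) := by rw [h1]; simp
  have hδ' : rv δ ∈ K.bd none := by rw [h2]; simp
  obtain ⟨C, hpar, hdd, hroot⟩ := exists_cotree_par K.toPC f δ hδ none hδ' par dd rank T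
    (fun x hx => by simp at hx) (K.org d0)
  have hr : P.π C.root = 1 := by
    rw [hroot]
    exact P.base d0 (by rw [hd0]; rfl)
  obtain ⟨-, hrec⟩ := DR.stmtRec' p n σ K P C hr
  obtain ⟨o, ho⟩ := DR.exists_head (K := K) f
  have hw : K.toPC.wd none = winv (K.toPC.wd (some f)) := by
    have e1 : K.toPC.wd (some f) = relw σ q0 := by rw [← hq]; exact K.sq f
    rw [e1, ← h]
    exact (winv_winv _).symm
  obtain ⟨hA, hB⟩ := mirror_prod C (K := K.toPC) h1 h2 hw hl ho (o2 := d0) hd0
  have hpot0 : C.pot (K.org d0) = 1 := by rw [← hroot]; exact C.pot_root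
  rw [hpot0, inv_one, mul_one] at hA
  have hπ : P.π (K.org o) = 1 := by
    rw [← DR.mk_pot C P hr, ← hA, mk_prod]
  have hnd := mir_nodup (K := K.toPC) (f := f) (G := none) (by simp) h1 h2
  have hno : ∀ d ∈ n1 ++ m2 ++ (m1 ++ n2), ∀ g, C.dd g ≠ d := by
    intro d hd g hg
    rcases mir_mem (K := K.toPC) (f := f) (G := none) h1 h2 hd with ⟨x, y⟩ | x
    · rw [← hg] at x
      have : g = f := Option.some.inj (DR.once' (K := K.toPC) (C.mem g) x)
      subst this
      exact y (hg ▸ hdd)
    · exact DR.outer_dd C x g hg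
  have hfil : (univ.filter fun g => rv (C.dd g) ∈ n1 ++ m2 ++ (m1 ++ n2)) =
      ((univ.filter fun g => C.par g = none).erase f) ∪ (univ.filter fun g => C.par g = some f) := by
    ext g
    rw [Finset.mem_union, Finset.mem_erase, Finset.mem_filter, Finset.mem_filter,
      Finset.mem_filter, mir_iff C hdd h1 h2]
    simp only [Finset.mem_univ, true_and, ne_eq]
  have hdisj : Disjoint ((univ.filter fun g => C.par g = none).erase f)
      (univ.filter fun g => C.par g = some f) := by
    rw [Finset.disjoint_left]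
    intro g hg1 hg2
    rw [Finset.mem_erase, Finset.mem_filter] at hg1
    rw [Finset.mem_filter] at hg2
    rw [hg1.2.2] at hg2
    exact absurd hg2.2 (by simp)
  have hfm : f ∈ univ.filter fun g => C.par g = none := by simp [hpar]
  have hsum : ∀ {M : Type} [AddCommGroup M] (φ : K.F → M),
      ∑ g ∈ univ.filter (fun g => rv (C.dd g) ∈ n1 ++ m2 ++ (m1 ++ n2)), ∑ x ∈ C.sub g, φ x =
        (∑ x, φ x) - φ f := by
    intro M _ φ
    rw [hfil, Finset.sum_union hdisj]
    have e1 := DR.sum_root C φ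
    have e2 := DR.sum_sub C φ f
    rw [← Finset.add_sum_erase _ _ hfm, e2] at e1
    rw [← e1]
    abel
  have E := DR.prod_list C (fun g => (C.sub g).card) (fun g => K.chn P (C.sub g)) _ hnd hno
    (fun g _ => hrec g)
  rw [hB] at E
  refine EX.cast E ?_ rfl ?_
  · have e1 := hsum (fun _ => (1 : ℤ))
    simp only [Finset.sum_const, mul_one, nsmul_eq_mul, Finset.card_univ] at e1
    have e2 : 1 ≤ Fintype.card K.F := Fintype.card_pos_iff.2 ⟨f⟩
    have e3 : ((∑ g ∈ univ.filter (fun g => rv (C.dd g) ∈ n1 ++ m2 ++ (m1 ++ n2)),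
        (C.sub g).card : ℕ) : ℤ) = (Fintype.card K.F : ℤ) - 1 := by
      push_cast
      exact e1
    omega
  · have e1 := hsum (DR.sqz P)
    have e2 : ∀ g, K.chn P (C.sub g) = ∑ x ∈ C.sub g, DR.sqz P x := fun g => DR.chn_eq P _
    simp only [e2]
    rw [e1, DR.chn_eq, sqz_eq P ho, hπ, hq]

open Classical in
/-- inner mirror pair, with a cotree -/
theorem mirror_inner_aux (K : SqK σ) (P : K.GPot) (C : K.toPC.Cotree) (hr : P.π C.root = 1)
    (hroot : ∀ d ∈ (K.bd none).head?, K.org d = C.root) (f g0 : K.F)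
    (hq : K.q g0 = mt σ (K.q f)) (δ : K.E × Bool)
    (n1 n2 m1 m2 : List (K.E × Bool)) (h1 : K.bd (some f) = n1 ++ δ :: n2)
    (h2 : K.bd (some g0) = m1 ++ rv δ :: m2) (hl : n1.length = m2.length)
    (hpar : C.par f = some g0) (hdd : C.dd f = δ) :
    Expr σ (Fintype.card K.F - 2) (val K.outw) (K.chn P univ) := by
  have hne : g0 ≠ f := by
    intro e
    have := C.dec f g0 hpar
    rw [e] at this
    omega
  have hne' : (some g0 : Option K.F) ≠ some f := fun e => hne (Option.some.inj e)
  obtain ⟨-, hrec⟩ := DR.stmtRec' p n σ K P C hr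
  obtain ⟨o1, ho1⟩ := DR.exists_head (K := K) f
  obtain ⟨o2, ho2⟩ := DR.exists_head (K := K) g0
  have hw : K.toPC.wd (some g0) = winv (K.toPC.wd (some f)) := by
    have e1 : K.toPC.wd (some f) = relw σ (K.q f) := K.sq f
    have e2 : K.toPC.wd (some g0) = relw σ (K.q g0) := K.sq g0
    rw [e1, e2, hq, winv_relw]
  obtain ⟨hA, hB⟩ := mirror_prod C (K := K.toPC) h1 h2 hw hl ho1 ho2
  have hπ : P.π (K.org o1) = P.π (K.org o2) := by
    have e1 := congrArg (PresentedGroup.mk (rels σ)) hA
    rw [mk_prod, map_mul, map_inv, DR.mk_pot C P hr, DR.mk_pot C P hr] at e1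
    exact (mul_inv_eq_one.1 e1.symm)
  have hnd := mir_nodup (K := K.toPC) (f := f) (G := some g0) hne' h1 h2
  set l : List (K.E × Bool) := n1 ++ m2 ++ (m1 ++ n2) with hldef
  -- the parent dart of the parent
  have hmem : C.dd g0 ∈ l := by
    have e1 := C.mem g0
    rw [h2, List.mem_append, List.mem_cons] at e1
    rw [hldef, List.mem_append, List.mem_append, List.mem_append]
    rcases e1 with e1 | e1 | e1
    · exact Or.inr (Or.inl e1)
    · exact absurd e1.symm (hdd ▸ DR.rv_dd_ne C g0 f)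
    · exact Or.inl (Or.inr e1)
  obtain ⟨L1, L2, hL⟩ := List.append_of_mem hmem
  rw [hL, List.nodup_append] at hnd
  obtain ⟨hn1, hn2, hn3⟩ := hnd
  rw [List.nodup_cons] at hn2
  have hno : ∀ d, (d ∈ L1 ∨ d ∈ L2) → ∀ g, C.dd g ≠ d := by
    intro d hd g hg
    have hdl : d ∈ l := by
      rw [hL, List.mem_append, List.mem_cons]
      tauto
    rcases mir_mem (K := K.toPC) (f := f) (G := some g0) h1 h2 hdl with ⟨x, y⟩ | x
    · rw [← hg] at x
      have : g = f := Option.some.inj (DR.once' (K := K.toPC) (C.mem g) x)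
      subst this
      exact y (hg ▸ hdd)
    · rw [← hg] at x
      have : g = g0 := Option.some.inj (DR.once' (K := K.toPC) (C.mem g) x)
      subst this
      rcases hd with hd | hd
      · exact hn3 _ hd _ List.mem_cons_self hg.symm
      · exact hn2.1 (hg ▸ hd)
  have hfil : (univ.filter fun g => rv (C.dd g) ∈ L1) ∪ (univ.filter fun g => rv (C.dd g) ∈ L2) =
      ((univ.filter fun g => C.par g = some g0).erase f) ∪
        (univ.filter fun g => C.par g = some f) := by
    ext g
    have e1 : rv (C.dd g) ∈ l ↔ (rv (C.dd g) ∈ L1 ∨ rv (C.dd g) ∈ L2) := by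
      refine taut2 ?_ (c := rv (C.dd g) = C.dd g0) (DR.rv_dd_ne C g0 g)
      rw [hL, List.mem_append, List.mem_cons]
    rw [Finset.mem_union, Finset.mem_union, Finset.mem_erase, Finset.mem_filter,
      Finset.mem_filter, Finset.mem_filter, Finset.mem_filter]
    simp only [Finset.mem_univ, true_and, ne_eq]
    rw [← e1, hldef, mir_iff C hdd h1 h2]
  have hdisj : Disjoint ((univ.filter fun g => C.par g = some g0).erase f)
      (univ.filter fun g => C.par g = some f) := by
    rw [Finset.disjoint_left]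
    intro g hg1 hg2
    rw [Finset.mem_erase, Finset.mem_filter] at hg1
    rw [Finset.mem_filter] at hg2
    rw [hg1.2.2] at hg2
    exact hne' hg2.2
  have hdisj2 : Disjoint (univ.filter fun g => rv (C.dd g) ∈ L1)
      (univ.filter fun g => rv (C.dd g) ∈ L2) := by
    rw [Finset.disjoint_left]
    intro g hg1 hg2
    exact hn3 _ (Finset.mem_filter.1 hg1).2 _
      (List.mem_cons_of_mem _ (Finset.mem_filter.1 hg2).2) rfl
  have hfm : f ∈ univ.filter fun g => C.par g = some g0 := by simp [hpar]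
  have hsum : ∀ {M : Type} [AddCommGroup M] (φ : K.F → M),
      ∑ g ∈ univ.filter (fun g => rv (C.dd g) ∈ L1), ∑ x ∈ C.sub g, φ x +
      ∑ g ∈ univ.filter (fun g => rv (C.dd g) ∈ L2), ∑ x ∈ C.sub g, φ x =
        (∑ x ∈ C.sub g0, φ x) - φ g0 - φ f := by
    intro M _ φ
    rw [← Finset.sum_union hdisj2, hfil, Finset.sum_union hdisj]
    have e1 := DR.sum_sub C φ g0
    have e2 := DR.sum_sub C φ f
    rw [← Finset.add_sum_erase _ _ hfm, e2] at e1
    rw [e1]
    abel
  have E1 := DR.prod_list C (fun g => (C.sub g).card) (fun g => K.chn P (C.sub g)) L1 hn1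
    (fun d hd => hno d (Or.inl hd)) (fun g _ => hrec g)
  have E2 := DR.prod_list C (fun g => (C.sub g).card) (fun g => K.chn P (C.sub g)) L2 hn2.2
    (fun d hd => hno d (Or.inr hd)) (fun g _ => hrec g)
  have hc : C.c (C.dd g0) = ((L1.map C.c).prod)⁻¹ * ((L2.map C.c).prod)⁻¹ := by
    rw [hL, List.map_append, List.prod_append, List.map_cons, List.prod_cons] at hB
    rw [eq_mul_inv_iff_mul_eq, eq_inv_iff_mul_eq_one]
    exact mul_eq_one_comm.1 (by rw [← hB]) |> fun e => by
      exact e
  have hsub : (∑ x ∈ C.sub g0, (1 : ℤ)) = ((C.sub g0).card : ℤ) := by simp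
  have E3 : Expr σ ((C.sub g0).card - 2) (C.c (C.dd g0)) (K.chn P (C.sub g0)) := by
    refine EX.cast (EX.mul (EX.inv E1) (EX.inv E2)) ?_ hc.symm ?_
    · have e1 := hsum (fun _ => (1 : ℤ))
      simp only [Finset.sum_const, mul_one, nsmul_eq_mul] at e1
      have e3 : (((∑ g ∈ univ.filter (fun g => rv (C.dd g) ∈ L1), (C.sub g).card) +
        (∑ g ∈ univ.filter (fun g => rv (C.dd g) ∈ L2), (C.sub g).card) : ℕ) : ℤ) =
          ((C.sub g0).card : ℤ) - 1 - 1 := by
        push_cast
        exact e1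
      omega
    · rw [neg_neg, neg_neg]
      have e1 := hsum (DR.sqz P)
      have e2 : ∀ g, K.chn P (C.sub g) = ∑ x ∈ C.sub g, DR.sqz P x := fun g => DR.chn_eq P _
      simp only [e2]
      rw [e1, sqz_eq P ho1, sqz_eq P ho2, hq, hπ, EX.pch_mt]
      abel
  have E4 := stmtRepl p n σ K P C hr hroot g0 _ _ E3
  have hcard : 2 ≤ (C.sub g0).card := by
    have e1 : ({f, g0} : Finset K.F) ⊆ C.sub g0 := by
      intro x hx
      rw [Finset.mem_insert, Finset.mem_singleton] at hx
      rcases hx with rfl | rfl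
      · exact (DR.mem_sub C).2 (Relation.ReflTransGen.single hpar)
      · exact DR.self_mem C _
    have e2 := Finset.card_le_card e1
    rwa [Finset.card_pair hne.symm] at e2
  have hcard2 : (C.sub g0).card ≤ Fintype.card K.F := Finset.card_le_univ _
  refine EX.cast E4 (by omega) rfl (by abel)

/-- **inner mirror pair** -/
theorem mirror_inner (K : SqK σ) (P : K.GPot) {d0 : K.E × Bool} (hd0 : (K.bd none).head? = some d0)
    (f g0 : K.F) (hq : K.q g0 = mt σ (K.q f)) (hne : f ≠ g0) (δ : K.E × Bool)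
    (n1 n2 m1 m2 : List (K.E × Bool)) (h1 : K.bd (some f) = n1 ++ δ :: n2)
    (h2 : K.bd (some g0) = m1 ++ rv δ :: m2) (hl : n1.length = m2.length) :
    Expr σ (Fintype.card K.F - 2) (val K.outw) (K.chn P univ) := by
  obtain ⟨par, dd, rank, T⟩ := T2.exists_DT (T2.rot K.toPC)
  have hδ : δ ∈ K.bd (some f) := by rw [h1]; simp
  have hδ' : rv δ ∈ K.bd (some g0) := by rw [h2]; simp
  have hbase : ∀ d ∈ (K.bd none).head?, K.org d = K.org d0 := by
    intro d hd
    rw [hd0] at hd
    have : d0 = d := by simpa using hd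
    rw [this]
  rcases le_total (rank g0) (rank f) with hrk | hrk
  · obtain ⟨C, hpar, hdd, hroot⟩ := exists_cotree_par K.toPC f δ hδ (some g0) hδ' par dd rank T
      (fun x hx => by
        rw [← Option.some.inj hx]
        exact ⟨hrk, hne.symm⟩) (K.org d0)
    exact mirror_inner_aux K P C (by rw [hroot]; exact P.base d0 (by rw [hd0]; rfl))
      (by rw [hroot]; exact hbase) f g0 hq δ n1 n2 m1 m2 h1 h2 hl hpar hdd
  · have h1' : K.bd (some f) = n1 ++ rv (rv δ) :: n2 := by rw [DR.rv_rv]; exact h1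
    obtain ⟨C, hpar, hdd, hroot⟩ := exists_cotree_par K.toPC g0 (rv δ) hδ' (some f)
      (by rw [DR.rv_rv]; exact hδ) par dd rank T
      (fun x hx => by
        rw [← Option.some.inj hx]
        exact ⟨hrk, hne⟩) (K.org d0)
    have hq' : K.q f = mt σ (K.q g0) := by rw [hq, mt_mt]
    have hl' : m1.length = n2.length := by
      have e1 : (K.toPC.wd (some g0)).length = (K.toPC.wd (some f)).length := by
        have e1 : K.toPC.wd (some f) = relw σ (K.q f) := K.sq f
        have e2 : K.toPC.wd (some g0) = relw σ (K.q g0) := K.sq g0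
        rw [e1, e2, hq, ← winv_relw]
        simp [winv]
      unfold PC.wd at e1
      rw [List.length_map, List.length_map, h1, h2] at e1
      simp only [List.length_append, List.length_cons] at e1
      omega
    exact mirror_inner_aux K P C (by rw [hroot]; exact P.base d0 (by rw [hd0]; rfl))
      (by rw [hroot]; exact hbase) g0 f hq' (rv δ) m1 m2 n1 n2 h2 h1' hl' hpar hdd


theorem wd_length (K : SqK σ) (q0 : Port p n) (h : K.outw = relw σ q0) (s s' : Option K.F)
    (hε : (brS K q0 h).ε s' = mt σ ((brS K q0 h).ε s)) :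
    (K.bd s').length = (K.bd s).length := by
  have e1 : K.toPC.wd s = relw σ ((brS K q0 h).ε s) := (brS K q0 h).sq s
  have e2 : K.toPC.wd s' = relw σ ((brS K q0 h).ε s') := (brS K q0 h).sq s'
  have e3 : (K.toPC.wd s').length = (K.toPC.wd s).length := by
    rw [e1, e2, hε, ← winv_relw]
    simp [winv]
  unfold PC.wd at e3
  rwa [List.length_map, List.length_map] at e3

/-- two faces of the sphere with inverse labels glued along corresponding darts -/
theorem mir_core (K : SqK σ) (P : K.GPot) (q0 : Port p n) (h : K.outw = relw σ q0)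
    (hc : K.chn P univ - pch σ 1 q0 ≠ 0)
    (hz : ∀ k z, k ≤ Fintype.card K.F → Expr σ k 1 z → z = 0)
    (s s' : Option K.F) (hε : (brS K q0 h).ε s' = mt σ ((brS K q0 h).ε s)) (δ : K.E × Bool)
    (n1 n2 m1 m2 : List (K.E × Bool)) (h1 : K.bd s = n1 ++ δ :: n2)
    (h2 : K.bd s' = m1 ++ rv δ :: m2) (hl : n1.length = m2.length) : False := by
  have hl' : m1.length = n2.length := by
    have e1 := wd_length K q0 h s s' hε
    rw [h1, h2] at e1
    simp only [List.length_append, List.length_cons] at e1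
    omega
  cases s with
  | none =>
    cases s' with
    | none =>
      exact (mt_ne σ ((brS K q0 h).ε none)) hε.symm
    | some g =>
      have hq : K.q g = q0 := by
        have e1 : K.q g = mt σ (mt σ q0) := hε
        rw [e1, mt_mt]
      have E := mirror_outer K P q0 h g hq (rv δ) m1 m2 n1 n2 h2 (by rw [DR.rv_rv]; exact h1) hl'
      exact hc (neg_eq_zero.1 (hz _ _ (Nat.sub_le _ _) E))
  | some f =>
    cases s' with
    | none =>
      have hq : K.q f = q0 := by
        have e1 : mt σ q0 = mt σ (K.q f) := hε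
        rw [← mt_mt σ (K.q f), ← e1, mt_mt]
      have E := mirror_outer K P q0 h f hq δ n1 n2 m1 m2 h1 h2 hl
      exact hc (neg_eq_zero.1 (hz _ _ (Nat.sub_le _ _) E))
    | some g =>
      have hq : K.q g = mt σ (K.q f) := hε
      have hne : f ≠ g := by
        rintro rfl
        exact (mt_ne σ (K.q f)) hq.symm
      obtain ⟨d0, hd0⟩ := exists_base K q0 h
      have E := mirror_inner K P hd0 f g hq hne δ n1 n2 m1 m2 h1 h2 hl
      rw [h] at E
      have hpos : 1 ≤ Fintype.card K.F := Fintype.card_pos_iff.2 ⟨f⟩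
      exact hc (hz _ _ (by omega) (expr_close q0 E))

/-- mirror pairs, sphere -/
theorem stmtMirS : StmtMirS := by
  intro p n σ K P q0 h hc hz s s' hε
  have b1 : K.bd s = _ := (brS K q0 h).bd_eq s
  have b2 : K.bd s' = _ := (brS K q0 h).bd_eq s'
  constructor
  · intro e
    refine mir_core K P q0 h hc hz s s' hε ((brS K q0 h).xs s) []
      (((brS K q0 h).sd s).T1 ++ (brS K q0 h).ys s :: (brS K q0 h).ye s ::
        (((brS K q0 h).sd s).T2 ++ [(brS K q0 h).xe s]))
      ((brS K q0 h).xs s' :: (((brS K q0 h).sd s').T1 ++ (brS K q0 h).ys s' ::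
        (brS K q0 h).ye s' :: ((brS K q0 h).sd s').T2)) [] ?_ ?_ rfl
    · rw [b1]
      rfl
    · rw [b2, e]
      simp
  · intro e
    refine mir_core K P q0 h hc hz s s' hε ((brS K q0 h).ye s)
      ((brS K q0 h).xs s :: (((brS K q0 h).sd s).T1 ++ [(brS K q0 h).ys s]))
      (((brS K q0 h).sd s).T2 ++ [(brS K q0 h).xe s])
      ((brS K q0 h).xs s' :: ((brS K q0 h).sd s').T1)
      ((brS K q0 h).ye s' :: (((brS K q0 h).sd s').T2 ++ [(brS K q0 h).xe s'])) ?_ ?_ ?_
    · rw [b1]
      simp
    · rw [b2, e]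
      simp
    · have l1 := congrArg List.length ((brS K q0 h).sd s).lT1
      have l2 := congrArg List.length ((brS K q0 h).sd s').lT2
      have l3 : mt σ ((brS K q0 h).ε s') = (brS K q0 h).ε s := by rw [hε, mt_mt]
      have l4 : (tw p n (ht (mt σ ((brS K q0 h).ε s')).1)).length =
          (tw p n (ht ((brS K q0 h).ε s).1)).length := by rw [l3]
      simp only [List.length_map, winv, List.length_reverse] at l1 l2
      simp only [List.length_cons, List.length_append, List.length_nil]
      omega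

end Vale.Agent.P201.Z.BrS
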