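import Vale.Agent.P201.Z.D.BrDefs

/-!
P201, D7: a position function gives `Lab` (helper768).
-/

namespace Vale.Agent.P201.Z.BrS

open Finset

/-! ### orbits of partial injections -/

theorem pit_add {S : Type} (f : S ≃. S) (a b : ℕ) (s : S) :
    pit f (a + b) s = (pit f a s).bind (pit f b) := by
  induction a generalizing s with
  | zero => simp [pit]
  | succ a ih =>
    rw [show a + 1 + b = (a + b) + 1 by omega]
    show (f s).bind (pit f (a + b)) = ((f s).bind (pit f a)).bind (pit f b)
    cases f s with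
    | none => rfl
    | some t => exact ih t

theorem pit_succ' {S : Type} (f : S ≃. S) (k : ℕ) (s : S) :
    pit f (k + 1) s = (pit f k s).bind f := by
  rw [pit_add]
  congr 1
  funext t
  show (f t).bind (pit f 0) = f t
  cases f t <;> rfl

theorem orb_step {S : Type} [Fintype S] (f : S ≃. S) {s t : S} (hs : Per f s)
    (ht : t ∈ orb f s) : ∃ u, f t = some u ∧ u ∈ orb f s := by
  classical
  obtain ⟨k, hk⟩ := (mem_filter.1 ht).2
  obtain ⟨m, hm, hs⟩ := hs
  -- some multiple of m is larger than k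
  have hmul : ∀ j, pit f (j * m) s = some s := by
    intro j
    induction j with
    | zero => simp [pit]
    | succ j ih =>
      rw [show (j + 1) * m = j * m + m by ring, pit_add, ih]
      exact hs
  have h1 : pit f (k + ((k + 1) * m - k)) s = some s := by
    have : k + ((k + 1) * m - k) = (k + 1) * m := by
      have : k ≤ (k + 1) * m := by nlinarith
      omega
    rw [this]
    exact hmul _
  have h2 : 0 < (k + 1) * m - k := by
    have : k < (k + 1) * m := by nlinarith
    omega
  obtain ⟨r, hr⟩ : ∃ r, (k + 1) * m - k = r + 1 := ⟨_, (Nat.succ_pred_eq_of_pos h2).symm⟩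
  rw [hr, pit_add, hk] at h1
  have h3 : (f t).bind (pit f r) = some s := h1
  cases hf : f t with
  | none => rw [hf] at h3; cases h3
  | some u =>
    refine ⟨u, rfl, mem_filter.2 ⟨mem_univ _, k + 1, ?_⟩⟩
    rw [pit_succ', hk]
    exact hf

theorem orb_pred {S : Type} [Fintype S] (f : S ≃. S) {s t : S} (hs : Per f s)
    (ht : t ∈ orb f s) : ∃ u ∈ orb f s, f u = some t := by
  classical
  obtain ⟨k, hk⟩ := (mem_filter.1 ht).2
  obtain ⟨m, hm, hs⟩ := hs
  have key : ∀ r, pit f (r + 1) s = some t → ∃ u ∈ orb f s, f u = some t := by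
    intro r hr
    rw [pit_succ'] at hr
    cases hu : pit f r s with
    | none => rw [hu] at hr; cases hr
    | some u =>
      rw [hu] at hr
      exact ⟨u, mem_filter.2 ⟨mem_univ _, r, hu⟩, hr⟩
  cases k with
  | zero =>
    have h0 : t = s := by
      have : some s = some t := hk
      exact (Option.some.inj this).symm
    subst h0
    obtain ⟨r, rfl⟩ : ∃ r, m = r + 1 := ⟨_, (Nat.succ_pred_eq_of_pos hm).symm⟩
    exact key r hs
  | succ k => exact key k hk

theorem sum_orb {S : Type} [Fintype S] (f : S ≃. S) {s : S} (hs : Per f s) (θ g : S → ℤ)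
    (hg : ∀ t u, f t = some u → g t = θ u - θ t) : ∑ t ∈ orb f s, g t = 0 := by
  classical
  have h1 : ∑ t ∈ orb f s, g t = ∑ t ∈ orb f s, ((g t + θ t) - θ t) :=
    Finset.sum_congr rfl fun t _ => by ring
  rw [h1, Finset.sum_sub_distrib, sub_eq_zero]
  refine Finset.sum_bij (fun t ht => (orb_step f hs ht).choose) ?_ ?_ ?_ ?_
  · intro t ht
    exact (orb_step f hs ht).choose_spec.2
  · intro a ha b hb h
    have h2 := (orb_step f hs ha).choose_spec.1
    have h3 := (orb_step f hs hb).choose_spec.1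
    rw [h] at h2
    exact f.inj h2 h3
  · intro b hb
    obtain ⟨u, hu, hu2⟩ := orb_pred f hs hb
    refine ⟨u, hu, ?_⟩
    have h2 := (orb_step f hs hu).choose_spec.1
    exact Option.some.inj (h2.symm.trans hu2)
  · intro t ht
    have h2 := (orb_step f hs ht).choose_spec.1
    rw [hg t _ h2]
    ring

/-! ### positions -/

variable {p : Pat} {n : ℕ}

/-- sign of a dart -/
def sgn (b : Bool) : ℤ := if b then 1 else -1

theorem sgn_not (b : Bool) : sgn (!b) = - sgn b := by cases b <;> simp [sgn]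

theorem sum_tw (h : ℤ) : ((tw p n h).map (fun a => sgn a.2)).sum = h := by
  unfold tw
  rw [List.map_replicate, List.sum_replicate]
  unfold sgn
  by_cases h0 : 0 ≤ h
  · simp [h0, abs_of_nonneg h0]
  · push Not at h0
    simp [not_le.2 h0, abs_of_neg h0]

theorem sum_winv {A : Type} (l : List (A × Bool)) :
    ((winv l).map (fun a => sgn a.2)).sum = - (l.map (fun a => sgn a.2)).sum := by
  unfold winv
  rw [List.map_reverse, List.sum_reverse, List.map_map]
  induction l with
  | nil => simp
  | cons a l ih =>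
    simp only [List.map_cons, List.sum_cons, Function.comp] at ih ⊢
    rw [ih, sgn_not]
    ring

variable {σ : Equiv.Perm (Cel p n)} {K : PC (Let p n)}

theorem chain_pos (τ : K.V → ℤ)
    (hτ : ∀ d, K.lab d.1 = Let.t → τ (K.org (rv d)) = τ (K.org d) + sgn d.2) :
    ∀ (T : List (K.E × Bool)) (a b : K.E × Bool), (∀ d ∈ T, K.lab d.1 = Let.t) →
    List.IsChain (fun a b => K.org b = K.org (rv a)) (a :: (T ++ [b])) →
    τ (K.org b) = τ (K.org (rv a)) + (T.map (fun d => sgn d.2)).sum
  | [], a, b, _, h => by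
    simp only [List.nil_append, List.isChain_cons_cons] at h
    rw [h.1]
    simp
  | c :: T, a, b, hT, h => by
    simp only [List.cons_append, List.isChain_cons_cons] at h
    have h1 := chain_pos τ hτ T c b (fun d hd => hT d (List.mem_cons_of_mem _ hd))
      (by simpa using h.2)
    rw [h1, hτ c (hT c (by simp)), h.1]
    simp
    ring

variable (B : Br σ K)

theorem pos_T1 (τ : K.V → ℤ)
    (hτ : ∀ d, K.lab d.1 = Let.t → τ (K.org (rv d)) = τ (K.org d) + sgn d.2) (s : B.S) :
    τ (K.org (B.ys s)) = τ (K.org (rv (B.xs s))) + ht (B.ε s).1 := by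
  have h := B.chain_s s
  have h2 : (B.xs s :: ((B.sd s).T1 ++ B.ys s :: B.ye s :: ((B.sd s).T2 ++ [B.xe s]))) =
      (B.xs s :: ((B.sd s).T1 ++ [B.ys s])) ++ (B.ye s :: ((B.sd s).T2 ++ [B.xe s])) := by simp
  rw [h2, List.isChain_append] at h
  rw [chain_pos τ hτ _ _ _ (fun d hd => B.lab_T1 s hd) h.1]
  congr 1
  have h3 := congrArg (fun l => (List.map (fun a : Let p n × Bool => sgn a.2) l).sum) (B.sd s).lT1
  simp only [List.map_map] at h3
  rw [sum_tw] at h3
  exact h3

theorem pos_T2 (τ : K.V → ℤ)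
    (hτ : ∀ d, K.lab d.1 = Let.t → τ (K.org (rv d)) = τ (K.org d) + sgn d.2) (s : B.S) :
    τ (K.org (B.xe s)) = τ (K.org (rv (B.ye s))) - ht (mt σ (B.ε s)).1 := by
  have h := B.chain_s s
  have h2 : (B.xs s :: ((B.sd s).T1 ++ B.ys s :: B.ye s :: ((B.sd s).T2 ++ [B.xe s]))) =
      (B.xs s :: ((B.sd s).T1 ++ [B.ys s])) ++ (B.ye s :: ((B.sd s).T2 ++ [B.xe s])) := by simp
  rw [h2, List.isChain_append] at h
  rw [chain_pos τ hτ _ _ _ (fun d hd => B.lab_T2 s hd) h.2.1, sub_eq_add_neg]
  congr 1
  have h3 := congrArg (fun l => (List.map (fun a : Let p n × Bool => sgn a.2) l).sum) (B.sd s).lT2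
  simp only [List.map_map] at h3
  rw [sum_winv, sum_tw] at h3
  exact h3

/-- a position function on the vertices gives `Lab` -/
theorem lab_of_pos (τ : K.V → ℤ)
    (hτ : ∀ d, K.lab d.1 = Let.t → τ (K.org (rv d)) = τ (K.org d) + sgn d.2) : B.glue.Lab := by
  refine ⟨∅, fun s s' h => by simp at h, fun s hs _ => ?_⟩
  refine sum_orb B.glue.XY hs (fun s => τ (K.org (rv (B.xs s)))) B.glue.inc ?_
  intro s v hv
  have hv' : (B.glue.X s).bind B.glue.Y = some v := hv
  cases hX : B.glue.X s with
  | none => rw [hX] at hv'; cases hv'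
  | some u =>
    rw [hX] at hv'
    have hY : B.glue.Y u = some v := hv'
    have h1 : B.glue.inc s = ht (mt σ (B.glue.ε u)).1 - ht (B.glue.ε v).1 := by
      unfold Glue.inc
      simp only [hX, hY]
    rw [h1]
    have h2 := pos_T1 B τ hτ v
    have h3 := pos_T2 B τ hτ u
    have h4 := B.X_eq_some.1 hX
    have h5 := B.Y_eq_some.1 hY
    have h6 : B.glue.ε u = B.ε u := rfl
    have h7 : B.glue.ε v = B.ε v := rfl
    rw [h6, h7]
    rw [← h4] at h3
    rw [← h5] at h2
    show _ = τ (K.org (rv (B.xs v))) - τ (K.org (rv (B.xs s)))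
    linarith

end Vale.Agent.P201.Z.BrS
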