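import Vale.Agent.P201.Z.D.BrEulS
import Vale.Agent.P201.Z.D.BrMir
import Vale.Agent.P201.Z.D.BrLab
import Vale.Agent.P201.Z.D.BndB
import Vale.Agent.P201.Z.D.Rec
import Vale.Agent.P201.Z.D.Repl

/-!
P201, part D6/D7: the bridge (assembly by helper273; Mir: helper466, Lab: helper43, 768;
weights: helper611).
-/

namespace Vale.Agent.P201.Z

/-- D6: the disc bridge -/
theorem stmtBridge : StmtBridge :=
  stmtBridge_of BrEul.stmtBrEulD BrMir.stmtMirD (BrLab.stmtLabD_of stmtBond stmtRec stmtRepl)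

/-- D7: the sphere bridge -/
theorem stmtBridgeS : StmtBridgeS :=
  stmtBridgeS_of BrEul.stmtBrEulS BrMir.stmtMirS (BrLab.stmtLabS_of stmtBond stmtRec stmtRepl)

end Vale.Agent.P201.Z
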