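import Vale.Agent.P201.Z.D.Sq

/-!
P201, part D6/D7: Euler inequality and weight inequality for the gluing data (helper300).
-/

namespace Vale.Agent.P201.Z

open Finset

/-! ### partial injections -/

theorem per_of_closed {S : Type} [Fintype S] (f : S ≃. S) (P : S → Prop)
    (hP : ∀ s, P s → ∃ s', f s = some s' ∧ P s') (s : S) (hs : P s) : Per f s := by
  classical
  let F : {s // P s} → {s // P s} := fun x => ⟨(hP x.1 x.2).choose, (hP x.1 x.2).choose_spec.2⟩
  have hF : ∀ x, f x.1 = some (F x).1 := fun x => (hP x.1 x.2).choose_spec.1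
  have hinj : Function.Injective F := by
    intro x y h
    have h1 := hF x
    have h2 := hF y
    rw [h] at h1
    exact Subtype.ext (f.inj h1 h2)
  obtain ⟨k, hk, hk2⟩ := hinj.mem_periodicPts ⟨s, hs⟩
  have hpit : ∀ k x, pit f k x.1 = some (F^[k] x).1 := by
    intro k
    induction k with
    | zero => intro x; rfl
    | succ k ih =>
      intro x
      rw [Function.iterate_succ_apply]
      show (f x.1).bind (pit f k) = _
      rw [hF x, Option.bind_some, ih]
  refine ⟨k, hk, ?_⟩
  rw [hpit k ⟨s, hs⟩]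
  have : F^[k] ⟨s, hs⟩ = ⟨s, hs⟩ := hk2
  rw [this]

theorem pit_inv {S α : Type} (f : S ≃. S) (g : S → α) (hg : ∀ s s', f s = some s' → g s' = g s) :
    ∀ k s t, pit f k s = some t → g t = g s := by
  intro k
  induction k with
  | zero => intro s t h; simp only [pit, Option.some.injEq] at h; rw [h]
  | succ k ih =>
    intro s t h
    rw [pit] at h
    rw [Option.bind_eq_some_iff] at h
    obtain ⟨u, hu, h⟩ := h
    rw [ih u t h, hg s u hu]

theorem card_image_le_card_image {S α β : Type} [DecidableEq α] [DecidableEq β] (A : Finset S)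
    (g : S → α) (u : S → β) (h : ∀ s ∈ A, ∀ t ∈ A, u s = u t → g s = g t) :
    (A.image g).card ≤ (A.image u).card := by
  classical
  rcases A.eq_empty_or_nonempty with rfl | hA
  · simp
  obtain ⟨a0, ha0⟩ := hA
  have hch : ∀ y, ∃ s, y ∈ A.image g → s ∈ A ∧ g s = y := by
    intro y
    by_cases hy : y ∈ A.image g
    · obtain ⟨s, hs, hs2⟩ := Finset.mem_image.1 hy
      exact ⟨s, fun _ => ⟨hs, hs2⟩⟩
    · exact ⟨a0, fun h => absurd h hy⟩
  choose c hc using hch
  apply Finset.card_le_card_of_injOn (fun y => u (c y))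
  · intro y hy
    exact Finset.mem_coe.2 (Finset.mem_image_of_mem _ (hc y hy).1)
  · intro y hy z hz hyz
    have h1 := hc y hy
    have h2 := hc z hz
    rw [← h1.2, ← h2.2]
    exact h _ h1.1 _ h2.1 hyz

theorem card_image_per_le {S α : Type} [Fintype S] [DecidableEq α] (f : S ≃. S)
    [DecidablePred (Per f)] (g : S → α)
    (hg : ∀ s s', f s = some s' → g s' = g s) :
    ((univ.filter (Per f)).image g).card ≤ cyc f := by
  classical
  have hc : cyc f = ((univ.filter (Per f)).image (orb f)).card := by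
    unfold cyc; congr
  rw [hc]
  apply card_image_le_card_image
  intro s _ t _ h
  have h1 : s ∈ orb f t := by
    rw [← h]
    simp only [orb, mem_filter, mem_univ, true_and]
    exact ⟨0, rfl⟩
  simp only [orb, mem_filter, mem_univ, true_and] at h1
  obtain ⟨k, hk⟩ := h1
  exact pit_inv f g hg k t s hk

theorem domc_le_symm {S : Type} [Fintype S] (f : S ≃. S) : domc f ≤ domc f.symm := by
  classical
  unfold domc
  have hch : ∀ s, ∃ t, (f s).isSome → f s = some t := by
    intro s
    by_cases h : (f s).isSome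
    · obtain ⟨t, ht⟩ := Option.isSome_iff_exists.1 h
      exact ⟨t, fun _ => ht⟩
    · exact ⟨s, fun h' => absurd h' h⟩
  choose c hc using hch
  apply Finset.card_le_card_of_injOn c
  · intro s hs
    have hs' : (f s).isSome := by simpa using hs
    have h1 := hc s hs'
    have h2 : f.symm (c s) = some s := (f.eq_some_iff).2 h1
    simp [h2]
  · intro s hs t ht hst
    have hs' : (f s).isSome := by simpa using hs
    have ht' : (f t).isSome := by simpa using ht
    have h1 := hc s hs'
    have h2 := hc t ht'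
    rw [hst] at h1
    exact f.inj h1 h2

theorem domc_symm {S : Type} [Fintype S] (f : S ≃. S) : domc f.symm = domc f :=
  le_antisymm (by simpa using domc_le_symm f.symm) (domc_le_symm f)

theorem card_none {S : Type} [Fintype S] (f : S ≃. S) [DecidablePred fun s => f s = none] :
    (univ.filter (fun s => f s = none)).card = Fintype.card S - domc f := by
  classical
  unfold domc
  have h := Finset.card_filter_add_card_filter_not (s := (univ : Finset S)) (fun s => (f s).isSome)
  have h2 : (univ.filter (fun s => ¬ (f s).isSome)) = univ.filter (fun s => f s = none) := by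
    ext s; simp
  rw [h2, Finset.card_univ] at h
  have h3 : (univ.filter (fun s => f s = none)).card =
    (@Finset.filter _ (fun s => f s = none) (fun _ => Classical.dec _) univ).card := by congr
  omega

variable {p : Pat} {n : ℕ}

namespace SqF

variable {σ : Equiv.Perm (Cel p n)} {K : PC (Let p n)} (W : SqF σ K)

noncomputable instance instFinQ (K : PC (Let p n)) : Fintype (Quotient (tset K)) := by
  classical
  exact @Quotient.fintype _ _ (tset K) (fun _ _ => Classical.dec _)

noncomputable instance instDecQ (K : PC (Let p n)) : DecidableEq (Quotient (tset K)) :=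
  Classical.decEq _

/-- t-edges -/
noncomputable def tE (K : PC (Let p n)) : Finset K.E := univ.filter (fun e => K.lab e = Let.t)

/-- number of classes -/
theorem card_V_le (K : PC (Let p n)) :
    Fintype.card K.V ≤ (tE K).card + Fintype.card (Quotient (tset K)) := by
  classical
  let L : (K.V → ℚ) →ₗ[ℚ] ({e // e ∈ tE K} → ℚ) :=
    { toFun := fun f e => f (K.org (e.1, true)) - f (K.org (rv (e.1, true)))
      map_add' := by intro f g; ext e; simp; ring
      map_smul' := by intro c f; ext e; simp; ring }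
  let P : (Quotient (tset K) → ℚ) →ₗ[ℚ] (K.V → ℚ) :=
    { toFun := fun f v => f (cls K v)
      map_add' := by intro f g; ext e; simp
      map_smul' := by intro c f; ext e; simp }
  have hker : LinearMap.ker L ≤ LinearMap.range P := by
    intro f hf
    have hf2 : ∀ u v, TRel K u v → f u = f v := by
      rintro u v ⟨d, hd, hu, hv⟩
      have h1 := congrFun (LinearMap.mem_ker.1 hf) ⟨d.1, by simp [tE, hd]⟩
      have h2 : f (K.org (d.1, true)) - f (K.org (rv (d.1, true))) = 0 := h1
      obtain ⟨e, b⟩ := d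
      cases b with
      | true =>
        simp only at h2 hu hv ⊢
        rw [hu, hv] at h2
        linarith
      | false =>
        have h3 : rv ((e, true) : K.E × Bool) = (e, false) := rfl
        have h4 : rv ((e, false) : K.E × Bool) = (e, true) := rfl
        rw [h4] at hv
        simp only [h3] at h2
        rw [hu, hv] at h2
        linarith
    have hf3 : ∀ u v, (tset K) u v → f u = f v := by
      intro u v h
      have h' : Relation.EqvGen (TRel K) u v := h
      clear h
      induction h' with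
      | rel x y h => exact hf2 x y h
      | refl x => rfl
      | symm x y _ ih => exact ih.symm
      | trans x y z _ _ ih1 ih2 => exact ih1.trans ih2
    refine LinearMap.mem_range.2 ⟨Quotient.lift f hf3, ?_⟩
    ext v
    rfl
  have h1 := LinearMap.finrank_range_add_finrank_ker L
  rw [Module.finrank_fintype_fun_eq_card] at h1
  have h2 : Module.finrank ℚ (LinearMap.range L) ≤ (tE K).card := by
    calc _ ≤ Module.finrank ℚ ({e // e ∈ tE K} → ℚ) := Submodule.finrank_le _
      _ = _ := by rw [Module.finrank_fintype_fun_eq_card]; simp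
  have h3 : Module.finrank ℚ (LinearMap.ker L) ≤ Fintype.card (Quotient (tset K)) := by
    calc _ ≤ Module.finrank ℚ (LinearMap.range P) := Submodule.finrank_mono hker
      _ ≤ Module.finrank ℚ (Quotient (tset K) → ℚ) := LinearMap.finrank_range_le P
      _ = _ := by rw [Module.finrank_fintype_fun_eq_card]
  omega

/-- boundary classes -/
noncomputable def bC : Finset (Quotient (tset K)) := by
  classical
  exact univ.filter (fun c => ∃ f, f ∉ Set.range W.φ ∧ ∃ d ∈ K.bd f, cls K (K.org d) = c)

theorem mem_bC {c : Quotient (tset K)} :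
    c ∈ W.bC ↔ ∃ f, f ∉ Set.range W.φ ∧ ∃ d ∈ K.bd f, cls K (K.org d) = c := by
  simp [bC]

/-- a dart with origin in a non boundary class lies on a square -/
theorem inner {c : Quotient (tset K)} (hc : c ∉ W.bC) {d : K.E × Bool}
    (h : cls K (K.org d) = c) : ∃ s, d ∈ K.bd (W.φ s) := by
  obtain ⟨f, hf⟩ := K.exists_face d
  by_cases h1 : f ∈ Set.range W.φ
  · obtain ⟨s, rfl⟩ := h1
    exact ⟨s, hf⟩
  · exact absurd (W.mem_bC.2 ⟨f, h1, d, hf, h⟩) hc

/-- same for the head -/
theorem inner' {c : Quotient (tset K)} (hc : c ∉ W.bC) {d : K.E × Bool}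
    (h : cls K (K.org (rv d)) = c) : ∃ s, d ∈ K.bd (W.φ s) := by
  obtain ⟨f, hf⟩ := K.exists_face d
  by_cases h1 : f ∈ Set.range W.φ
  · obtain ⟨s, rfl⟩ := h1
    exact ⟨s, hf⟩
  · obtain ⟨b, hb, hb2⟩ := K.exists_next hf
    exact absurd (W.mem_bC.2 ⟨f, h1, b, hb, by rw [hb2]; exact h⟩) hc

theorem cls_mem_T {K : PC (Let p n)} : ∀ (T : List (K.E × Bool)) (a b : K.E × Bool),
    (∀ d ∈ T, K.lab d.1 = Let.t) →
    List.IsChain (fun a b => K.org b = K.org (rv a)) (a :: (T ++ [b])) →
    ∀ d ∈ T, cls K (K.org d) = cls K (K.org b)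
  | [], a, b, _, _ => by simp
  | c :: T, a, b, hT, h => by
    simp only [List.cons_append, List.isChain_cons_cons] at h
    have h0 : List.IsChain (fun a b => K.org b = K.org (rv a)) (c :: (T ++ [b])) := by
      simpa using h.2
    intro d hd
    rcases List.mem_cons.1 hd with rfl | hd
    · rw [cls_eq_of_t (hT d (by simp))]
      exact cls_chain T d b (fun x hx => hT x (List.mem_cons_of_mem _ hx)) h0
    · exact cls_mem_T T c b (fun x hx => hT x (List.mem_cons_of_mem _ hx)) h0 d hd

theorem cls_T1 (s : W.S) {d : K.E × Bool} (hd : d ∈ W.T1 s) :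
    cls K (K.org d) = cls K (K.org (W.sy s)) := by
  have h := W.chain_bd s
  refine cls_mem_T (W.T1 s) (W.sx s) _ (fun d hd => W.lab_T1 s hd) ?_ d hd
  have h2 : (W.sx s :: (W.T1 s ++ W.sy s :: W.ey s :: (W.T2 s ++ [W.ex s]))) =
      (W.sx s :: (W.T1 s ++ [W.sy s])) ++ (W.ey s :: (W.T2 s ++ [W.ex s])) := by simp
  rw [h2, List.isChain_append] at h
  exact h.1

theorem cls_T2 (s : W.S) {d : K.E × Bool} (hd : d ∈ W.T2 s) :
    cls K (K.org d) = cls K (K.org (W.ex s)) := by
  have h := W.chain_bd s
  refine cls_mem_T (W.T2 s) (W.ey s) _ (fun d hd => W.lab_T2 s hd) ?_ d hd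
  have h2 : (W.sx s :: (W.T1 s ++ W.sy s :: W.ey s :: (W.T2 s ++ [W.ex s]))) =
      (W.sx s :: (W.T1 s ++ [W.sy s])) ++ (W.ey s :: (W.T2 s ++ [W.ex s])) := by simp
  rw [h2, List.isChain_append] at h
  exact h.2.1

theorem perX {c : Quotient (tset K)} (hc : c ∉ W.bC) {s : W.S}
    (h : cls K (K.org (W.sx s)) = c) : Per W.glue.X s := by
  apply per_of_closed W.glue.X (fun s => cls K (K.org (W.sx s)) = c) _ s h
  intro s hs
  obtain ⟨s', hs'⟩ := W.inner' hc (d := rv (W.sx s)) (by rw [rv_rv]; exact hs)
  have h1 := W.X_of_mem hs'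
  exact ⟨s', h1, by rw [W.org_X h1]; exact hs⟩

theorem perY {c : Quotient (tset K)} (hc : c ∉ W.bC) {s : W.S}
    (h : cls K (K.org (W.ey s)) = c) : Per W.glue.Y s := by
  apply per_of_closed W.glue.Y (fun s => cls K (K.org (W.ey s)) = c) _ s h
  intro s hs
  obtain ⟨s', hs'⟩ := W.inner' hc (d := rv (W.ey s)) (by rw [rv_rv]; exact hs)
  have h1 := W.Y_of_mem hs'
  exact ⟨s', h1, by rw [W.org_Y h1]; exact hs⟩

theorem perXY {c : Quotient (tset K)} (hc : c ∉ W.bC) {s : W.S}
    (h : cls K (K.org (W.sy s)) = c) : Per W.glue.XY s := by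
  apply per_of_closed W.glue.XY (fun s : W.S => cls K (K.org (W.sy s)) = c) _ s h
  rintro (s : W.S) (hs : cls K (K.org (W.sy s)) = c)
  have h0 : cls K (K.org (rv (W.sx s))) = c := by rw [W.M_start]; exact hs
  obtain ⟨u, hu⟩ := W.inner hc h0
  have h1 := W.X_of_mem hu
  have h2 : cls K (K.org (rv (W.ey u))) = c := by
    rw [W.M_end, ← (W.X_iff s u).1 h1]; exact h0
  obtain ⟨v, hv⟩ := W.inner hc h2
  have h3 := W.Y_of_mem hv
  refine ⟨v, ?_, ?_⟩
  · exact (PEquiv.trans_eq_some (f := W.glue.X) (g := W.glue.Y) (a := s) (c := v)).2 ⟨u, h1, h3⟩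
  · rw [W.org_XY h1 h3]; exact hs

/-- every vertex is the origin of a dart, if there is an edge -/
theorem exists_dart (K : PC (Let p n)) (e : K.E) (v : K.V) : ∃ d, K.org d = v := by
  have h := K.conn v (K.org (e, true))
  rcases Relation.ReflTransGen.cases_head h with h | ⟨w, ⟨d, hd, _⟩, _⟩
  · exact ⟨(e, true), h.symm⟩
  · exact ⟨d, hd⟩

theorem card_Q_le [Nonempty W.S] : Fintype.card (Quotient (tset K)) ≤
    cyc W.glue.X + cyc W.glue.Y + cyc W.glue.XY + W.bC.card := by
  classical
  let AX := (univ.filter (Per W.glue.X)).image (fun s : W.S => cls K (K.org (W.sx s)))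
  let AY := (univ.filter (Per W.glue.Y)).image (fun s : W.S => cls K (K.org (W.ey s)))
  let AM := (univ.filter (Per W.glue.XY)).image (fun s : W.S => cls K (K.org (W.sy s)))
  have hX : AX.card ≤ cyc W.glue.X := by
    have := card_image_per_le W.glue.X (fun s : W.S => cls K (K.org (W.sx s)))
      (fun s s' h => by rw [W.org_X h])
    exact this
  have hY : AY.card ≤ cyc W.glue.Y := by
    have := card_image_per_le W.glue.Y (fun s : W.S => cls K (K.org (W.ey s)))
      (fun s s' h => by rw [W.org_Y h])
    exact this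
  have hM : AM.card ≤ cyc W.glue.XY := by
    have := card_image_per_le W.glue.XY (fun s : W.S => cls K (K.org (W.sy s)))
      (fun s s' h => by
        obtain ⟨u, h1, h2⟩ :=
          (PEquiv.trans_eq_some (f := W.glue.X) (g := W.glue.Y) (a := s) (c := s')).1 h
        exact W.org_XY h1 h2)
    exact this
  have hsub : (univ : Finset (Quotient (tset K))) ⊆ ((AX ∪ AY) ∪ AM) ∪ W.bC := by
    intro c _
    by_cases hc : c ∈ W.bC
    · exact Finset.mem_union_right _ hc
    apply Finset.mem_union_left
    have hMcase : ∀ s : W.S, cls K (K.org (W.sy s)) = c → c ∈ (AX ∪ AY) ∪ AM := by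
      intro s hs
      apply Finset.mem_union_right
      exact Finset.mem_image.2 ⟨s, (Finset.mem_filter (s := (univ : Finset W.glue.S)) (p := Per W.glue.XY)).2
        ⟨Finset.mem_univ _, W.perXY hc hs⟩, hs⟩
    have hEcase : ∀ s : W.S, cls K (K.org (W.ex s)) = c → c ∈ (AX ∪ AY) ∪ AM := by
      intro s hs
      rw [← W.M_end] at hs
      obtain ⟨v, hv⟩ := W.inner hc hs
      have h3 := (W.Y_iff s v).1 (W.Y_of_mem hv)
      exact hMcase v (by rw [← h3]; exact hs)
    obtain ⟨v, hv⟩ := Quotient.exists_rep c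
    obtain ⟨s0⟩ := (inferInstance : Nonempty W.S)
    obtain ⟨d, hd⟩ := exists_dart K (W.sx s0).1 v
    have hd2 : cls K (K.org d) = c := by rw [hd]; exact hv
    obtain ⟨s, hs⟩ := W.inner hc hd2
    rcases W.mem_bd s hs with rfl | h | rfl | rfl | h | rfl
    · apply Finset.mem_union_left
      apply Finset.mem_union_left
      exact Finset.mem_image.2 ⟨s, (Finset.mem_filter (s := (univ : Finset W.glue.S)) (p := Per W.glue.X)).2
        ⟨Finset.mem_univ _, W.perX hc hd2⟩, hd2⟩
    · exact hMcase s (by rw [← W.cls_T1 s h]; exact hd2)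
    · exact hMcase s hd2
    · apply Finset.mem_union_left
      apply Finset.mem_union_right
      exact Finset.mem_image.2 ⟨s, (Finset.mem_filter (s := (univ : Finset W.glue.S)) (p := Per W.glue.Y)).2
        ⟨Finset.mem_univ _, W.perY hc hd2⟩, hd2⟩
    · exact hEcase s (by rw [← W.cls_T2 s h]; exact hd2)
    · exact hEcase s hd2
  calc Fintype.card (Quotient (tset K)) = (univ : Finset (Quotient (tset K))).card := rfl
    _ ≤ (((AX ∪ AY) ∪ AM) ∪ W.bC).card := Finset.card_le_card hsub
    _ ≤ ((AX ∪ AY) ∪ AM).card + W.bC.card := Finset.card_union_le _ _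
    _ ≤ ((AX ∪ AY).card + AM.card) + W.bC.card := by gcongr; exact Finset.card_union_le _ _
    _ ≤ ((AX.card + AY.card) + AM.card) + W.bC.card := by gcongr; exact Finset.card_union_le _ _
    _ ≤ _ := by gcongr

/-- non-t edges with a side outside the squares -/
noncomputable def bE : Finset K.E := by
  classical
  exact univ.filter (fun e => K.lab e ≠ Let.t ∧ ∃ b, ∃ f, f ∉ Set.range W.φ ∧ (e, b) ∈ K.bd f)

theorem mem_bE {e : K.E} : e ∈ W.bE ↔
    K.lab e ≠ Let.t ∧ ∃ b, ∃ f, f ∉ Set.range W.φ ∧ (e, b) ∈ K.bd f := by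
  simp [bE]

theorem card_E_ge : domc W.glue.X + domc W.glue.Y + (tE K).card + W.bE.card ≤ Fintype.card K.E := by
  classical
  let AX := (univ.filter (fun s : W.S => (W.glue.X s).isSome)).image (fun s => (W.sx s).1)
  let AY := (univ.filter (fun s : W.S => (W.glue.Y s).isSome)).image (fun s => (W.ey s).1)
  have hX : AX.card = domc W.glue.X := by
    rw [Finset.card_image_of_injOn]
    · unfold domc; congr
    · intro s _ t _ h
      exact W.sx_inj (Prod.ext h (by rw [W.sx_snd, W.sx_snd]))
  have hY : AY.card = domc W.glue.Y := by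
    rw [Finset.card_image_of_injOn]
    · unfold domc; congr
    · intro s _ t _ h
      exact W.ey_inj (Prod.ext h (by rw [W.ey_snd, W.ey_snd]))
  have key : ∀ {e : K.E} {s s' : W.S} {b : Bool}, (e, b) ∈ K.bd (W.φ s) →
      (e, !b) ∈ K.bd (W.φ s') → e ∉ W.bE := by
    intro e s s' b h1 h2 h3
    obtain ⟨_, b', f, hf, hb'⟩ := W.mem_bE.1 h3
    by_cases hbb : b' = b
    · subst hbb
      exact hf ⟨s, K.face_unique h1 hb'⟩
    · have : b' = !b := by cases b <;> cases b' <;> simp_all
      subst this
      exact hf ⟨s', K.face_unique h2 hb'⟩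
  have d1 : Disjoint AX AY := by
    rw [Finset.disjoint_left]
    intro e he he'
    obtain ⟨s, _, rfl⟩ := Finset.mem_image.1 he
    obtain ⟨t, _, ht⟩ := Finset.mem_image.1 he'
    have h1 := W.lab_sx s
    have h2 := W.lab_ey t
    rw [ht, h1] at h2
    cases h2
  have d2 : Disjoint (AX ∪ AY) (tE K) := by
    rw [Finset.disjoint_left]
    intro e he he'
    have h0 : K.lab e = Let.t := by simpa [tE] using he'
    rcases Finset.mem_union.1 he with he | he
    · obtain ⟨s, _, rfl⟩ := Finset.mem_image.1 he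
      rw [W.lab_sx] at h0; cases h0
    · obtain ⟨s, _, rfl⟩ := Finset.mem_image.1 he
      rw [W.lab_ey] at h0; cases h0
  have d3 : Disjoint ((AX ∪ AY) ∪ tE K) W.bE := by
    rw [Finset.disjoint_left]
    intro e he he'
    rcases Finset.mem_union.1 he with he | he
    · rcases Finset.mem_union.1 he with he | he
      · obtain ⟨s, hs, rfl⟩ := Finset.mem_image.1 he
        have hs' : (W.glue.X s).isSome := by simpa using hs
        obtain ⟨s', hs'⟩ := Option.isSome_iff_exists.1 hs'
        have h1 := (W.X_iff s s').1 hs'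
        have h2 : ((W.sx s).1, true) = W.sx s := Prod.ext rfl (W.sx_snd s).symm
        refine key (b := true) (s := s) (s' := s') ?_ ?_ he'
        · rw [h2]; exact W.sx_mem s
        · have h3 : ((W.sx s).1, !true) = rv (W.sx s) := by
            rw [← h2]; rfl
          rw [h3, h1]; exact W.ex_mem s'
      · obtain ⟨s, hs, rfl⟩ := Finset.mem_image.1 he
        have hs' : (W.glue.Y s).isSome := by simpa using hs
        obtain ⟨s', hs'⟩ := Option.isSome_iff_exists.1 hs'
        have h1 := (W.Y_iff s s').1 hs'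
        have h2 : ((W.ey s).1, false) = W.ey s := Prod.ext rfl (W.ey_snd s).symm
        refine key (b := false) (s := s) (s' := s') ?_ ?_ he'
        · rw [h2]; exact W.ey_mem s
        · have h3 : ((W.ey s).1, !false) = rv (W.ey s) := by
            rw [← h2]; rfl
          rw [h3, h1]; exact W.sy_mem s'
    · have h0 : K.lab e = Let.t := by simpa [tE] using he
      exact (W.mem_bE.1 he').1 h0
  have := Finset.card_le_univ (((AX ∪ AY) ∪ tE K) ∪ W.bE)
  rw [Finset.card_union_of_disjoint d3, Finset.card_union_of_disjoint d2,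
    Finset.card_union_of_disjoint d1, hX, hY] at this
  exact this

/-- Euler inequality from a bound for the boundary classes -/
theorem eul_of (hb : W.bC.card + 1 ≤ W.bE.card + 2) (hF : Fintype.card K.F ≤ Fintype.card W.S) :
    W.glue.Eul := by
  rcases isEmpty_or_nonempty W.S with h | h
  · unfold Glue.Eul
    have h1 : domc W.glue.X = 0 := by
      unfold domc
      rw [Finset.card_eq_zero]
      ext s
      exact h.elim s
    have h2 : domc W.glue.Y = 0 := by
      unfold domc
      rw [Finset.card_eq_zero]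
      ext s
      exact h.elim s
    rw [h1, h2]
    exact Nat.zero_le _
  · have h1 := W.card_E_ge
    have h2 := card_V_le K
    have h3 := W.card_Q_le
    have h4 := K.euler
    show domc W.glue.X + domc W.glue.Y ≤ Fintype.card W.S + cyc W.glue.X + cyc W.glue.Y +
      cyc W.glue.XY
    omega

end SqF

/-! ### the disc -/

open SqF

section list
variable {K : PC (Let p n)}

/-- classes met by a walk -/
noncomputable def wC (K : PC (Let p n)) (L : List (K.E × Bool)) : Finset (Quotient (tset K)) :=
  L.toFinset.image (fun d => cls K (K.org d)) ∪ L.toFinset.image (fun d => cls K (K.org (rv d)))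

open Classical in
/-- non-t edges of a walk -/
noncomputable def wE (K : PC (Let p n)) (L : List (K.E × Bool)) : Finset K.E :=
  (L.toFinset.filter (fun d => K.lab d.1 ≠ Let.t)).image Prod.fst

theorem mem_wC {K : PC (Let p n)} {L : List (K.E × Bool)} {c : Quotient (tset K)} :
    c ∈ wC K L ↔ ∃ d ∈ L, cls K (K.org d) = c ∨ cls K (K.org (rv d)) = c := by
  simp only [wC, mem_union, mem_image, List.mem_toFinset]
  constructor
  · rintro (⟨d, h1, h2⟩ | ⟨d, h1, h2⟩)
    · exact ⟨d, h1, Or.inl h2⟩
    · exact ⟨d, h1, Or.inr h2⟩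
  · rintro ⟨d, h1, h2 | h2⟩
    · exact Or.inl ⟨d, h1, h2⟩
    · exact Or.inr ⟨d, h1, h2⟩

theorem mem_wE {K : PC (Let p n)} {L : List (K.E × Bool)} {e : K.E} :
    e ∈ wE K L ↔ K.lab e ≠ Let.t ∧ ∃ b, (e, b) ∈ L := by
  simp only [wE, mem_image, mem_filter, List.mem_toFinset]
  constructor
  · rintro ⟨d, ⟨h1, h2⟩, rfl⟩
    exact ⟨h2, d.2, h1⟩
  · rintro ⟨h1, b, h2⟩
    exact ⟨(e, b), ⟨h2, h1⟩, rfl⟩

theorem card_wC (K : PC (Let p n)) : ∀ L : List (K.E × Bool),
    L.IsChain (fun a b => K.org b = K.org (rv a)) → (wC K L).card ≤ (wE K L).card + 1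
  | [], _ => by simp [wC, wE]
  | [a], _ => by
    classical
    by_cases ha : K.lab a.1 = Let.t
    · have h1 : wC K [a] ⊆ {cls K (K.org a)} := by
        intro c hc
        obtain ⟨d, hd, h⟩ := mem_wC.1 hc
        rw [List.mem_singleton] at hd
        subst hd
        rcases h with h | h
        · simp [h]
        · rw [← cls_eq_of_t ha] at h; simp [h]
      have := Finset.card_le_card h1
      simp at this
      omega
    · have h1 : wC K [a] ⊆ {cls K (K.org a), cls K (K.org (rv a))} := by
        intro c hc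
        obtain ⟨d, hd, h⟩ := mem_wC.1 hc
        rw [List.mem_singleton] at hd
        subst hd
        rcases h with h | h <;> simp [h]
      have h2 := Finset.card_le_card h1
      have h3 := Finset.card_le_two (a := cls K (K.org a)) (b := cls K (K.org (rv a)))
      have h4 : 0 < (wE K [a]).card := by
        apply Finset.card_pos.2
        exact ⟨a.1, mem_wE.2 ⟨ha, a.2, by simp⟩⟩
      omega
  | a :: b :: L, h => by
    classical
    rw [List.isChain_cons_cons] at h
    have ih := card_wC K (b :: L) h.2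
    have hra : cls K (K.org (rv a)) ∈ wC K (b :: L) :=
      mem_wC.2 ⟨b, by simp, Or.inl (by rw [h.1])⟩
    have hsub : wC K (a :: b :: L) ⊆ insert (cls K (K.org a)) (wC K (b :: L)) := by
      intro c hc
      obtain ⟨d, hd, h2⟩ := mem_wC.1 hc
      rcases List.mem_cons.1 hd with rfl | hd
      · rcases h2 with h2 | h2
        · simp [h2]
        · rw [← h2]; exact Finset.mem_insert_of_mem hra
      · exact Finset.mem_insert_of_mem (mem_wC.2 ⟨d, hd, h2⟩)
    have hEsub : wE K (b :: L) ⊆ wE K (a :: b :: L) := by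
      intro e he
      obtain ⟨h1, c, hc⟩ := mem_wE.1 he
      exact mem_wE.2 ⟨h1, c, List.mem_cons_of_mem _ hc⟩
    by_cases hin : cls K (K.org a) ∈ wC K (b :: L)
    · rw [Finset.insert_eq_of_mem hin] at hsub
      have h1 := Finset.card_le_card hsub
      have h2 := Finset.card_le_card hEsub
      omega
    · have hat : K.lab a.1 ≠ Let.t := by
        intro h1
        exact hin (by rw [cls_eq_of_t h1]; exact hra)
      have hna : a.1 ∉ wE K (b :: L) := by
        intro h1
        obtain ⟨_, c, hc⟩ := mem_wE.1 h1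
        apply hin
        by_cases hcc : c = a.2
        · refine mem_wC.2 ⟨(a.1, c), hc, Or.inl (by rw [hcc])⟩
        · have h5 : (a.1, c) = rv a := by
            obtain ⟨e, b'⟩ := a
            cases c <;> cases b' <;> simp_all [rv]
          refine mem_wC.2 ⟨(a.1, c), hc, Or.inr ?_⟩
          rw [h5, rv_rv]
      have h1 := Finset.card_le_card hsub
      rw [Finset.card_insert_of_notMem hin] at h1
      have h2 : (insert a.1 (wE K (b :: L))).card ≤ (wE K (a :: b :: L)).card := by
        apply Finset.card_le_card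
        intro e he
        rcases Finset.mem_insert.1 he with rfl | he
        · exact mem_wE.2 ⟨hat, a.2, by simp⟩
        · exact hEsub he
      rw [Finset.card_insert_of_notMem hna] at h2
      omega

end list

theorem SqK.disc_outer {σ : Equiv.Perm (Cel p n)} (K : SqK σ) {f : Option K.F} :
    f ∉ Set.range (K.disc).φ ↔ f = none := by
  constructor
  · intro h
    cases f with
    | none => rfl
    | some f => exact absurd ⟨f, rfl⟩ h
  · rintro rfl ⟨s, hs⟩
    cases hs

/-- EULER INEQUALITY, disc -/
theorem SqK.disc_eul {σ : Equiv.Perm (Cel p n)} (K : SqK σ) : (K.disc).glue.Eul := by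
  apply SqF.eul_of
  · have h1 := card_wC K.toPC (K.bd none) (K.chain none)
    have h2 : (K.disc).bC ⊆ wC K.toPC (K.bd none) := by
      intro c hc
      obtain ⟨f, hf, d, hd, hdc⟩ := (K.disc).mem_bC.1 hc
      rw [K.disc_outer] at hf
      subst hf
      exact mem_wC.2 ⟨d, hd, Or.inl hdc⟩
    have h3 : wE K.toPC (K.bd none) ⊆ (K.disc).bE := by
      intro e he
      obtain ⟨h4, b, hb⟩ := mem_wE.1 he
      exact (K.disc).mem_bE.2 ⟨h4, b, none, K.disc_outer.2 rfl, hb⟩
    have h4 := Finset.card_le_card h2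
    have h5 := Finset.card_le_card h3
    omega
  · exact le_rfl

/-- EULER INEQUALITY, sphere -/
theorem SqK.sph_eul {σ : Equiv.Perm (Cel p n)} (K : SqK σ) (q0 : Port p n)
    (h : K.outw = relw σ q0) : (K.sph q0 h).glue.Eul := by
  apply SqF.eul_of
  · have : (K.sph q0 h).bC = ∅ := by
      rw [Finset.eq_empty_iff_forall_notMem]
      intro c hc
      obtain ⟨f, hf, _⟩ := (K.sph q0 h).mem_bC.1 hc
      exact hf ⟨f, rfl⟩
    rw [this, Finset.card_empty]
    omega
  · show Fintype.card K.F ≤ Fintype.card (Option K.F)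
    rw [Fintype.card_option]
    omega

/-- all sides are glued on the sphere -/
theorem SqK.sph_domX {σ : Equiv.Perm (Cel p n)} (K : SqK σ) (q0 : Port p n)
    (h : K.outw = relw σ q0) : domc (K.sph q0 h).glue.X = Fintype.card (K.sph q0 h).glue.S := by
  classical
  unfold domc
  rw [← Finset.card_univ]
  congr 1
  rw [Finset.filter_eq_self]
  intro s _
  obtain ⟨f, hf⟩ := K.toPC.exists_face (rv ((K.sph q0 h).sx s))
  rw [(K.sph q0 h).X_of_mem (s' := f) hf]
  rfl

theorem SqK.sph_domY {σ : Equiv.Perm (Cel p n)} (K : SqK σ) (q0 : Port p n)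
    (h : K.outw = relw σ q0) : domc (K.sph q0 h).glue.Y = Fintype.card (K.sph q0 h).glue.S := by
  classical
  unfold domc
  rw [← Finset.card_univ]
  congr 1
  rw [Finset.filter_eq_self]
  intro s _
  obtain ⟨f, hf⟩ := K.toPC.exists_face (rv ((K.sph q0 h).ey s))
  rw [(K.sph q0 h).Y_of_mem (s' := f) hf]
  rfl

theorem SqK.sph_card {σ : Equiv.Perm (Cel p n)} (K : SqK σ) (q0 : Port p n)
    (h : K.outw = relw σ q0) : Fintype.card (K.sph q0 h).glue.S = Fintype.card K.F + 1 :=
  Fintype.card_option

/-! ### weight -/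

theorem wtw_winv (Y : ℕ) (l : List (Let p n × Bool)) : wtw Y (winv l) = wtw Y l := by
  unfold wtw winv
  rw [List.map_reverse, List.sum_reverse, List.map_map]
  rfl

/-- WEIGHT INEQUALITY, disc -/
theorem SqK.disc_wt {σ : Equiv.Perm (Cel p n)} (K : SqK σ) (Y : ℕ) :
    2 * (Fintype.card (K.disc).glue.S - domc (K.disc).glue.X) +
      Y * (2 * (Fintype.card (K.disc).glue.S - domc (K.disc).glue.Y)) ≤ wtw Y K.outw := by
  classical
  have h0 : wtw Y K.outw = ∑ d ∈ (K.bd none).toFinset, wtl Y (K.lab d.1) := by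
    rw [List.sum_toFinset _ (K.toPC.nodup none)]
    show wtw Y (winv (K.toPC.wd none)) = _
    rw [wtw_winv]
    unfold wtw PC.wd
    rw [List.map_map]
    rfl
  let W := K.disc
  let A : Finset (K.E × Bool) := ((univ : Finset W.glue.S).filter
    (fun s : W.glue.S => W.glue.X s = none)).image (fun s : W.glue.S => rv (W.sx s))
  let B : Finset (K.E × Bool) := ((univ : Finset W.glue.S).filter
    (fun s : W.glue.S => W.glue.X.symm s = none)).image (fun s : W.glue.S => rv (W.ex s))
  let C : Finset (K.E × Bool) := ((univ : Finset W.glue.S).filter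
    (fun s : W.glue.S => W.glue.Y s = none)).image (fun s : W.glue.S => rv (W.ey s))
  let D : Finset (K.E × Bool) := ((univ : Finset W.glue.S).filter
    (fun s : W.glue.S => W.glue.Y.symm s = none)).image (fun s : W.glue.S => rv (W.sy s))
  have hA : A.card = Fintype.card W.glue.S - domc W.glue.X := by
    rw [← card_none W.glue.X]
    exact Finset.card_image_of_injective _ (fun s t h => W.sx_inj (rv_inj h))
  have hB : B.card = Fintype.card W.glue.S - domc W.glue.X := by
    rw [← domc_symm W.glue.X, ← card_none W.glue.X.symm]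
    exact Finset.card_image_of_injective _ (fun s t h => W.ex_inj (rv_inj h))
  have hC : C.card = Fintype.card W.glue.S - domc W.glue.Y := by
    rw [← card_none W.glue.Y]
    exact Finset.card_image_of_injective _ (fun s t h => W.ey_inj (rv_inj h))
  have hD : D.card = Fintype.card W.glue.S - domc W.glue.Y := by
    rw [← domc_symm W.glue.Y, ← card_none W.glue.Y.symm]
    exact Finset.card_image_of_injective _ (fun s t h => W.sy_inj (rv_inj h))
  have lA : ∀ d ∈ A, d.2 = false ∧ wtl Y (K.lab d.1) = 1 := by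
    intro d hd
    obtain ⟨(s : W.S), _, rfl⟩ := Finset.mem_image.1 hd
    refine ⟨by simp [rv, W.sx_snd], ?_⟩
    show wtl Y (K.lab (W.sx s).1) = 1
    rw [W.lab_sx]; rfl
  have lB : ∀ d ∈ B, d.2 = true ∧ wtl Y (K.lab d.1) = 1 := by
    intro d hd
    obtain ⟨(s : W.S), _, rfl⟩ := Finset.mem_image.1 hd
    refine ⟨by simp [rv, W.ex_snd], ?_⟩
    show wtl Y (K.lab (W.ex s).1) = 1
    rw [W.lab_ex]; rfl
  have lC : ∀ d ∈ C, d.2 = true ∧ wtl Y (K.lab d.1) = Y := by
    intro d hd
    obtain ⟨(s : W.S), _, rfl⟩ := Finset.mem_image.1 hd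
    refine ⟨by simp [rv, W.ey_snd], ?_⟩
    show wtl Y (K.lab (W.ey s).1) = Y
    rw [W.lab_ey]; rfl
  have lD : ∀ d ∈ D, d.2 = false ∧ wtl Y (K.lab d.1) = Y := by
    intro d hd
    obtain ⟨(s : W.S), _, rfl⟩ := Finset.mem_image.1 hd
    refine ⟨by simp [rv, W.sy_snd], ?_⟩
    show wtl Y (K.lab (W.sy s).1) = Y
    rw [W.lab_sy]; rfl
  -- kinds of labels
  have xAB : ∀ d ∈ A ∪ B, ∃ i c, K.lab d.1 = Let.x i c := by
    intro d hd
    rcases Finset.mem_union.1 hd with hd | hd
    · obtain ⟨(s : W.S), _, rfl⟩ := Finset.mem_image.1 hd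
      exact ⟨_, _, W.lab_sx s⟩
    · obtain ⟨(s : W.S), _, rfl⟩ := Finset.mem_image.1 hd
      exact ⟨_, _, W.lab_ex s⟩
  have yCD : ∀ d ∈ C ∪ D, ∃ j, K.lab d.1 = Let.y j := by
    intro d hd
    rcases Finset.mem_union.1 hd with hd | hd
    · obtain ⟨(s : W.S), _, rfl⟩ := Finset.mem_image.1 hd
      exact ⟨_, W.lab_ey s⟩
    · obtain ⟨(s : W.S), _, rfl⟩ := Finset.mem_image.1 hd
      exact ⟨_, W.lab_sy s⟩
  have dAB : Disjoint A B := by
    rw [Finset.disjoint_left]
    intro d h1 h2
    have h3 := (lA d h1).1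
    have h4 := (lB d h2).1
    rw [h3] at h4; cases h4
  have dCD : Disjoint C D := by
    rw [Finset.disjoint_left]
    intro d h1 h2
    have h3 := (lC d h1).1
    have h4 := (lD d h2).1
    rw [h3] at h4; cases h4
  have dd : Disjoint (A ∪ B) (C ∪ D) := by
    rw [Finset.disjoint_left]
    intro d h1 h2
    obtain ⟨i, c, h3⟩ := xAB d h1
    obtain ⟨j, h4⟩ := yCD d h2
    rw [h3] at h4; cases h4
  have hsub : (A ∪ B) ∪ (C ∪ D) ⊆ (K.bd none).toFinset := by
    have hout : ∀ d : K.E × Bool, (∀ s : W.S, d ∉ K.bd (W.φ s)) → d ∈ K.bd none := by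
      intro d hd
      obtain ⟨f, hf⟩ := K.toPC.exists_face d
      cases f with
      | none => exact hf
      | some f => exact absurd hf (hd f)
    intro d hd
    rw [List.mem_toFinset]
    apply hout
    intro s' hs'
    rcases Finset.mem_union.1 hd with hd | hd
    · rcases Finset.mem_union.1 hd with hd | hd
      · obtain ⟨(s : W.S), hs, rfl⟩ := Finset.mem_image.1 hd
        have h1 := W.X_of_mem hs'
        have h2 := (Finset.mem_filter.1 hs).2
        rw [h1] at h2; cases h2
      · obtain ⟨(s : W.S), hs, rfl⟩ := Finset.mem_image.1 hd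
        have h1 : rv (W.ex s) = W.sx s' :=
          W.eq_sx s' hs' (by simp [rv, W.ex_snd]) (W.lab_ex s)
        have h2 : W.glue.X s' = some s := by
          rw [W.X_iff, ← h1, rv_rv]
        have h3 : W.glue.X.symm s = some s' := (W.glue.X.eq_some_iff).2 h2
        have h4 := (Finset.mem_filter.1 hs).2
        rw [h3] at h4; cases h4
    · rcases Finset.mem_union.1 hd with hd | hd
      · obtain ⟨(s : W.S), hs, rfl⟩ := Finset.mem_image.1 hd
        have h1 := W.Y_of_mem hs'
        have h2 := (Finset.mem_filter.1 hs).2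
        rw [h1] at h2; cases h2
      · obtain ⟨(s : W.S), hs, rfl⟩ := Finset.mem_image.1 hd
        have h1 : rv (W.sy s) = W.ey s' :=
          W.eq_ey s' hs' (by simp [rv, W.sy_snd]) (W.lab_sy s)
        have h2 : W.glue.Y s' = some s := by
          rw [W.Y_iff, ← h1, rv_rv]
        have h3 : W.glue.Y.symm s = some s' := (W.glue.Y.eq_some_iff).2 h2
        have h4 := (Finset.mem_filter.1 hs).2
        rw [h3] at h4; cases h4
  have hsum : ∑ d ∈ (A ∪ B) ∪ (C ∪ D), wtl Y (K.lab d.1) ≤
      ∑ d ∈ (K.bd none).toFinset, wtl Y (K.lab d.1) :=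
    Finset.sum_le_sum_of_subset hsub
  rw [Finset.sum_union dd, Finset.sum_union dAB, Finset.sum_union dCD,
    Finset.sum_congr rfl (fun d hd => (lA d hd).2), Finset.sum_congr rfl (fun d hd => (lB d hd).2),
    Finset.sum_congr rfl (fun d hd => (lC d hd).2), Finset.sum_congr rfl (fun d hd => (lD d hd).2)]
    at hsum
  simp only [Finset.sum_const, smul_eq_mul, mul_one, hA, hB, hC, hD] at hsum
  rw [h0]
  calc _ = Fintype.card W.glue.S - domc W.glue.X + (Fintype.card W.glue.S - domc W.glue.X) +
        ((Fintype.card W.glue.S - domc W.glue.Y) * Y +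
          (Fintype.card W.glue.S - domc W.glue.Y) * Y) := by
        show 2 * (Fintype.card W.glue.S - domc W.glue.X) +
          Y * (2 * (Fintype.card W.glue.S - domc W.glue.Y)) = _
        ring
    _ ≤ _ := hsum

end Vale.Agent.P201.Z
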