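import Vale.Agent.P201.Z.LA.Cyc
import Vale.Agent.P201.Z.PC

/-!
P201, part D6/D7: the Euler count of the bridge, in abstract form (helper112).
Independent of the pattern / matching.
-/

namespace Vale.Agent.P201.Z

open Finset

namespace EulCore

variable {V E S : Type}

/-- a set of edges can be contracted with the loss of at most one class per edge -/
theorem contract [Fintype V] [DecidableEq V] [DecidableEq E] (o t : E → V) (s : Finset E) :
    ∃ r : V → V, (∀ e ∈ s, r (o e) = r (t e)) ∧ Fintype.card V ≤ (univ.image r).card + s.card := by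
  induction s using Finset.induction_on with
  | empty =>
    refine ⟨id, by simp, ?_⟩
    simp
  | insert e s he ih =>
    obtain ⟨r, hr, hc⟩ := ih
    refine ⟨fun v => if r v = r (o e) then r (t e) else r v, ?_, ?_⟩
    · intro e' he'
      rw [mem_insert] at he'
      rcases he' with rfl | he'
      · simp
      · simp only [hr e' he']
    · rw [card_insert_of_notMem he]
      have h1 : univ.image r ⊆
          insert (r (o e)) (univ.image (fun v => if r v = r (o e) then r (t e) else r v)) := by
        intro c hc
        obtain ⟨v, -, rfl⟩ := mem_image.1 hc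
        by_cases h : r v = r (o e)
        · rw [h]
          exact mem_insert_self _ _
        · refine mem_insert_of_mem (mem_image.2 ⟨v, mem_univ _, ?_⟩)
          simp [h]
      have h2 := card_le_card h1
      have h3 := card_insert_le (r (o e))
        (univ.image (fun v => if r v = r (o e) then r (t e) else r v))
      omega

/-- a nonempty set on which `f` is defined and which is mapped to itself contains a periodic point -/
theorem exists_per [Fintype S] (f : S ≃. S) (A : S → Prop) (a : S) (ha : A a)
    (hf : ∀ s, A s → ∃ s', f s = some s' ∧ A s') : ∃ s, A s ∧ Per f s := by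
  classical
  have h1 : ∀ k, ∃ s, pit f k a = some s ∧ A s := by
    intro k
    induction k with
    | zero => exact ⟨a, rfl, ha⟩
    | succ k ih =>
      obtain ⟨s, hs, hA⟩ := ih
      obtain ⟨s', hs', hA'⟩ := hf s hA
      refine ⟨s', ?_, hA'⟩
      rw [pit_succ', hs, Option.bind_some, hs']
  choose g hg hgA using h1
  obtain ⟨i, j, hij, hgij⟩ := Finite.exists_ne_map_eq_of_infinite g
  wlog hlt : i < j generalizing i j
  · exact this j i hij.symm hgij.symm (by omega)
  refine ⟨a, ha, j - i, by omega, ?_⟩
  have h2 : pit f ((j - i) + i) a = some (g i) := by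
    rw [show (j - i) + i = j by omega, hg j, hgij]
  rw [pit_add, Option.bind_eq_some_iff] at h2
  obtain ⟨b, hb, hb'⟩ := h2
  rw [hb, pit_inj hb' (hg i)]

/-- classes visited by a walk: at most one more than the number of its essential edges -/
theorem walk_classes [DecidableEq V] [DecidableEq E] (org : E × Bool → V) (isT : E → Prop)
    [DecidablePred isT] (r : V → V)
    (hr : ∀ d : E × Bool, isT d.1 → r (org d) = r (org (rv d))) (l : List (E × Bool))
    (hl : l.IsChain (fun a b => org b = org (rv a))) :
    ((l.map (fun d => r (org d))).toFinset ∪ (l.map (fun d => r (org (rv d)))).toFinset).card ≤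
      ((l.map Prod.fst).toFinset.filter (fun e => ¬ isT e)).card + 1 := by
  induction l with
  | nil => simp
  | cons d l ih =>
    have ih' := ih hl.tail
    simp only [List.map_cons, List.toFinset_cons]
    cases l with
    | nil =>
      by_cases h : isT d.1
      · simp [hr d h]
      · have h1 : (filter (fun e => ¬ isT e) {d.1}) = {d.1} := by
          ext e
          simp only [mem_filter, mem_singleton]
          constructor
          · rintro ⟨h1, -⟩
            exact h1
          · rintro rfl
            exact ⟨rfl, h⟩
        simp only [List.map_nil, List.toFinset_nil, insert_empty_eq]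
        rw [h1]
        refine (card_union_le _ _).trans ?_
        simp
    | cons d' l =>
      have h0 : org d' = org (rv d) := (List.isChain_cons_cons.1 hl).1
      set L := d' :: l with hL
      have hm : r (org (rv d)) ∈ (L.map (fun d => r (org d))).toFinset := by
        rw [← h0, hL]
        simp
      set A := (L.map (fun d => r (org d))).toFinset with hA
      set B := (L.map (fun d => r (org (rv d)))).toFinset with hB
      have h1 : insert (r (org d)) A ∪ insert (r (org (rv d))) B = insert (r (org d)) (A ∪ B) := by
        ext c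
        simp only [mem_union, mem_insert]
        constructor
        · rintro ((h | h) | (h | h))
          · exact Or.inl h
          · exact Or.inr (Or.inl h)
          · rw [h]
            exact Or.inr (Or.inl hm)
          · exact Or.inr (Or.inr h)
        · rintro (h | h | h)
          · exact Or.inl (Or.inl h)
          · exact Or.inl (Or.inr h)
          · exact Or.inr (Or.inr h)
      rw [h1]
      by_cases h2 : isT d.1
      · rw [insert_eq_of_mem]
        · refine ih'.trans ?_
          gcongr
          exact subset_insert _ _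
        · rw [hr d h2]
          exact mem_union_left _ hm
      · by_cases h3 : d.1 ∈ (L.map Prod.fst).toFinset
        · rw [insert_eq_of_mem, insert_eq_of_mem h3]
          · exact ih'
          · rw [List.mem_toFinset, List.mem_map] at h3
            obtain ⟨c, hc, hcd⟩ := h3
            have h4 : d = c ∨ d = rv c := by
              obtain ⟨c1, c2⟩ := c
              obtain ⟨d1, d2⟩ := d
              simp only at hcd
              subst hcd
              cases c2 <;> cases d2 <;> simp [rv]
            rcases h4 with rfl | rfl
            · refine mem_union_left _ ?_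
              rw [hA, List.mem_toFinset, List.mem_map]
              exact ⟨_, hc, rfl⟩
            · refine mem_union_right _ ?_
              rw [hB, List.mem_toFinset, List.mem_map]
              exact ⟨_, hc, rfl⟩
        · have h4 : d.1 ∉ filter (fun e => ¬ isT e) (L.map Prod.fst).toFinset := by
            rw [mem_filter]
            tauto
          rw [filter_insert, if_pos h2, card_insert_of_notMem h4]
          have := card_insert_le (r (org d)) (A ∪ B)
          omega

/-- THE EULER COUNT. -/
theorem eul_core [Fintype V] [Fintype E] [Fintype S] (org : E × Bool → V) (isT : E → Prop)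
    (fl : S → List (E × Bool)) (l : List (E × Bool)) (xs ys ye xe : S → E × Bool)
    (X Y : S ≃. S) (F : ℕ) (hF : F ≤ Fintype.card S)
    (euler : Fintype.card V + F = Fintype.card E + 1)
    (hX : ∀ s s', X s = some s' ↔ rv (xs s) = xe s')
    (hY : ∀ s s', Y s = some s' ↔ rv (ye s) = ys s')
    (hcov : ∀ d, d ∈ l ∨ ∃ s, d ∈ fl s)
    (hdis : ∀ s s' d, d ∈ fl s → d ∈ fl s' → s = s')
    (hdl : ∀ s d, d ∈ fl s → d ∉ l)
    (hch : l.IsChain (fun a b => org b = org (rv a)))
    (hcl : ∀ a ∈ l.getLast?, ∀ b ∈ l.head?, org b = org (rv a))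
    (hv : Nonempty S → ∀ v, ∃ d, org d = v)
    (h1 : ∀ s s', rv (xs s) ∈ fl s' → rv (xs s) = xe s')
    (h2 : ∀ s s', rv (ye s) ∈ fl s' → rv (ye s) = ys s')
    (mxs : ∀ s, xs s ∈ fl s) (mye : ∀ s, ye s ∈ fl s)
    (mys : ∀ s, ys s ∈ fl s) (mxe : ∀ s, xe s ∈ fl s)
    (pxs : ∀ s, (xs s).2 = true) (pye : ∀ s, (ye s).2 = false)
    (hxy : ∀ s s', (xs s).1 ≠ (ye s').1)
    (txs : ∀ s, ¬ isT (xs s).1) (tye : ∀ s, ¬ isT (ye s).1)
    (cO : ∀ s, org (xs s) = org (rv (xe s))) (cE : ∀ s, org (ye s) = org (rv (ys s)))
    (cM : ∀ r : V → V, (∀ d : E × Bool, isT d.1 → r (org d) = r (org (rv d))) →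
      ∀ s, r (org (rv (xs s))) = r (org (ys s)))
    (cM' : ∀ r : V → V, (∀ d : E × Bool, isT d.1 → r (org d) = r (org (rv d))) →
      ∀ s, r (org (rv (ye s))) = r (org (xe s)))
    (cor : ∀ r : V → V, (∀ d : E × Bool, isT d.1 → r (org d) = r (org (rv d))) →
      ∀ s, ∀ d ∈ fl s, d = xs s ∨ d = ye s ∨ r (org d) = r (org (ys s)) ∨
        r (org d) = r (org (xe s))) :
    domc X + domc Y ≤ Fintype.card S + cyc X + cyc Y + cyc (X.trans Y) := by
  classical
  rcases isEmpty_or_nonempty S with hS | hS
  · have e1 : domc X = 0 := by
      unfold domc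
      rw [card_eq_zero, filter_eq_empty_iff]
      intro s
      exact hS.elim s
    have e2 : domc Y = 0 := by
      unfold domc
      rw [card_eq_zero, filter_eq_empty_iff]
      intro s
      exact hS.elim s
    omega
  have hv' := hv hS
  have rvrv : ∀ d : E × Bool, rv (rv d) = d := fun d => by
    obtain ⟨a, b⟩ := d
    simp [rv]
  -- the contraction
  obtain ⟨r, hr0, hrc⟩ := contract (fun e : E => org (e, true)) (fun e : E => org (e, false))
    (univ.filter isT)
  have hr : ∀ d : E × Bool, isT d.1 → r (org d) = r (org (rv d)) := by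
    rintro ⟨e, b⟩ h
    have h' := hr0 e (by simpa using h)
    cases b
    · exact h'.symm
    · exact h'
  -- boundary classes
  set Bc : Finset V := (l.map (fun d => r (org d))).toFinset with hBc
  set Eb : Finset E := (l.map Prod.fst).toFinset.filter (fun e => ¬ isT e) with hEb
  have hb : Bc.card ≤ Eb.card + 1 :=
    (card_le_card subset_union_left).trans (walk_classes org isT r hr l hch)
  -- successor on the outer walk
  have hsucc : ∀ d ∈ l, ∃ d' ∈ l, org d' = org (rv d) := by
    intro d hd
    obtain ⟨l1, l2, rfl⟩ := List.append_of_mem hd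
    cases l2 with
    | nil =>
      cases hl1 : (l1 ++ [d]).head? with
      | none => simp at hl1
      | some b =>
        exact ⟨b, List.mem_of_mem_head? hl1, hcl d (by simp) b hl1⟩
    | cons d' l2 =>
      refine ⟨d', by simp, ?_⟩
      have := (List.isChain_append.1 hch).2.1
      exact (List.isChain_cons_cons.1 this).1
  -- interior classes
  set Ic : Finset V := (univ.image r) \ Bc with hIc
  have hint : ∀ c ∈ Ic, ∀ d : E × Bool, r (org d) = c → d ∉ l := by
    intro c hc d hd hdl
    rw [hIc, mem_sdiff] at hc
    apply hc.2
    rw [hBc, List.mem_toFinset, List.mem_map]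
    exact ⟨d, hdl, hd⟩
  set CX : Finset (Finset S) := (univ.filter (Per X)).image (orb X) with hCX
  set CY : Finset (Finset S) := (univ.filter (Per Y)).image (orb Y) with hCY
  set CM : Finset (Finset S) := (univ.filter (Per (X.trans Y))).image (orb (X.trans Y)) with hCM
  have hXYeq : ∀ s v, (X.trans Y) s = some v ↔ ∃ u, X s = some u ∧ Y u = some v := by
    intro s v
    change (X s).bind Y = some v ↔ _
    rw [Option.bind_eq_some_iff]
  -- invariance of the corners along the three maps
  have invX : ∀ s s', X s = some s' → org (xs s') = org (xs s) := by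
    intro s s' h
    rw [hX] at h
    rw [cO s', ← h, rvrv]
  have invY : ∀ s s', Y s = some s' → org (ye s') = org (ye s) := by
    intro s s' h
    rw [hY] at h
    rw [cE s', ← h, rvrv]
  have invM : ∀ s s', (X.trans Y) s = some s' → r (org (ys s')) = r (org (ys s)) := by
    intro s s' h
    obtain ⟨u, hu, hu'⟩ := (hXYeq s s').1 h
    rw [hX] at hu
    rw [hY] at hu'
    rw [← hu', cM' r hr, ← hu, cM r hr]
  have key : ∀ c ∈ Ic, (∃ s, r (org (xs s)) = c ∧ Per X s) ∨ (∃ s, r (org (ye s)) = c ∧ Per Y s) ∨
      (∃ s, r (org (ys s)) = c ∧ Per (X.trans Y) s) := by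
    intro c hc
    have hc' := hint c hc
    -- total maps on the class
    have tX : ∀ s, r (org (xs s)) = c → ∃ s', X s = some s' ∧ r (org (xs s')) = c := by
      intro s hs
      have h3 : rv (xs s) ∉ l := by
        intro h
        obtain ⟨d', hd', h4⟩ := hsucc _ h
        rw [rvrv] at h4
        exact hc' d' (by rw [h4, hs]) hd'
      obtain ⟨s', hs'⟩ := (hcov (rv (xs s))).resolve_left h3
      have h4 := (hX s s').2 (h1 s s' hs')
      exact ⟨s', h4, by rw [invX s s' h4, hs]⟩
    have tY : ∀ s, r (org (ye s)) = c → ∃ s', Y s = some s' ∧ r (org (ye s')) = c := by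
      intro s hs
      have h3 : rv (ye s) ∉ l := by
        intro h
        obtain ⟨d', hd', h4⟩ := hsucc _ h
        rw [rvrv] at h4
        exact hc' d' (by rw [h4, hs]) hd'
      obtain ⟨s', hs'⟩ := (hcov (rv (ye s))).resolve_left h3
      have h4 := (hY s s').2 (h2 s s' hs')
      exact ⟨s', h4, by rw [invY s s' h4, hs]⟩
    have tY' : ∀ u, r (org (xe u)) = c → ∃ v, Y u = some v ∧ r (org (ys v)) = c := by
      intro u hu
      have h3 : rv (ye u) ∉ l := by
        intro h
        exact hc' _ (by rw [cM' r hr, hu]) h
      obtain ⟨v, hv⟩ := (hcov (rv (ye u))).resolve_left h3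
      have h4 := h2 u v hv
      exact ⟨v, (hY u v).2 h4, by rw [← h4, cM' r hr, hu]⟩
    have tM : ∀ s, r (org (ys s)) = c → ∃ v, (X.trans Y) s = some v ∧ r (org (ys v)) = c := by
      intro s hs
      have h3 : rv (xs s) ∉ l := by
        intro h
        exact hc' _ (by rw [cM r hr, hs]) h
      obtain ⟨u, hu⟩ := (hcov (rv (xs s))).resolve_left h3
      have h4 := h1 s u hu
      obtain ⟨v, hv, hv'⟩ := tY' u (by rw [← h4, cM r hr, hs])
      exact ⟨v, (hXYeq s v).2 ⟨u, (hX s u).2 h4, hv⟩, hv'⟩
    obtain ⟨v, -, hvc⟩ := mem_image.1 (mem_sdiff.1 hc).1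
    obtain ⟨d, hd⟩ := hv' v
    obtain ⟨s, hs⟩ := (hcov d).resolve_left (hc' d (by rw [hd, hvc]))
    rcases cor r hr s d hs with h | h | h | h
    · obtain ⟨s', h5, h6⟩ := exists_per X (fun s => r (org (xs s)) = c) s
        (by rw [← h, hd, hvc]) tX
      exact Or.inl ⟨s', h5, h6⟩
    · obtain ⟨s', h5, h6⟩ := exists_per Y (fun s => r (org (ye s)) = c) s
        (by rw [← h, hd, hvc]) tY
      exact Or.inr (Or.inl ⟨s', h5, h6⟩)
    · obtain ⟨s', h5, h6⟩ := exists_per (X.trans Y) (fun s => r (org (ys s)) = c) s
        (by rw [← h, hd, hvc]) tM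
      exact Or.inr (Or.inr ⟨s', h5, h6⟩)
    · obtain ⟨v', -, h7⟩ := tY' s (by rw [← h, hd, hvc])
      obtain ⟨s', h5, h6⟩ := exists_per (X.trans Y) (fun s => r (org (ys s)) = c) v' h7 tM
      exact Or.inr (Or.inr ⟨s', h5, h6⟩)
  -- propagate along orbits
  have oX : ∀ s s', s' ∈ orb X s → r (org (xs s')) = r (org (xs s)) := by
    intro s s' h
    obtain ⟨k, hk⟩ := mem_orb.1 h
    clear h
    induction k generalizing s' with
    | zero =>
      rw [pit_zero, Option.some.injEq] at hk
      rw [hk]
    | succ k ih =>
      rw [pit_succ', Option.bind_eq_some_iff] at hk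
      obtain ⟨u, hu, hu'⟩ := hk
      rw [invX u s' hu', ih u hu]
  have oY : ∀ s s', s' ∈ orb Y s → r (org (ye s')) = r (org (ye s)) := by
    intro s s' h
    obtain ⟨k, hk⟩ := mem_orb.1 h
    clear h
    induction k generalizing s' with
    | zero =>
      rw [pit_zero, Option.some.injEq] at hk
      rw [hk]
    | succ k ih =>
      rw [pit_succ', Option.bind_eq_some_iff] at hk
      obtain ⟨u, hu, hu'⟩ := hk
      rw [invY u s' hu', ih u hu]
  have oM : ∀ s s', s' ∈ orb (X.trans Y) s → r (org (ys s')) = r (org (ys s)) := by
    intro s s' h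
    obtain ⟨k, hk⟩ := mem_orb.1 h
    clear h
    induction k generalizing s' with
    | zero =>
      rw [pit_zero, Option.some.injEq] at hk
      rw [hk]
    | succ k ih =>
      rw [pit_succ', Option.bind_eq_some_iff] at hk
      obtain ⟨u, hu, hu'⟩ := hk
      rw [invM u s' hu', ih u hu]
  -- the count of interior classes
  have hIcard : Ic.card ≤ cyc X + cyc Y + cyc (X.trans Y) := by
    let IX := Ic.filter (fun c => ∃ s, r (org (xs s)) = c ∧ Per X s)
    let IY := Ic.filter (fun c => ∃ s, r (org (ye s)) = c ∧ Per Y s)
    let IM := Ic.filter (fun c => ∃ s, r (org (ys s)) = c ∧ Per (X.trans Y) s)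
    have hcover : Ic ⊆ IX ∪ IY ∪ IM := by
      intro c hc
      rcases key c hc with h | h | h
      · exact mem_union_left _ (mem_union_left _ (mem_filter.2 ⟨hc, h⟩))
      · exact mem_union_left _ (mem_union_right _ (mem_filter.2 ⟨hc, h⟩))
      · exact mem_union_right _ (mem_filter.2 ⟨hc, h⟩)
    have general : ∀ (f : S ≃. S) (g : S → V) (I : Finset V),
        (∀ s s', s' ∈ orb f s → g s' = g s) → (∀ c ∈ I, ∃ s, g s = c ∧ Per f s) →
        I.card ≤ cyc f := by
      intro f g I hg hI
      unfold cyc
      choose! k hk using hI
      refine card_le_card_of_injOn (fun c => orb f (k c)) ?_ ?_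
      · intro c hc
        exact mem_coe.2 (mem_image.2 ⟨k c, mem_filter.2 ⟨mem_univ _, (hk c hc).2⟩, rfl⟩)
      · intro c hc c' hc' hcc
        have h3 : k c ∈ orb f (k c') := by
          have := self_mem_orb f (k c)
          simp only at hcc
          rwa [hcc] at this
        have h4 := hg _ _ h3
        rw [(hk c hc).1, (hk c' hc').1] at h4
        exact h4
    have a1 := general X (fun s => r (org (xs s))) IX oX (fun c hc => (mem_filter.1 hc).2)
    have a2 := general Y (fun s => r (org (ye s))) IY oY (fun c hc => (mem_filter.1 hc).2)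
    have a3 := general (X.trans Y) (fun s => r (org (ys s))) IM oM
      (fun c hc => (mem_filter.1 hc).2)
    have a4 := card_le_card hcover
    have a5 := card_union_le (IX ∪ IY) IM
    have a6 := card_union_le IX IY
    omega
  -- the count of edges
  have hEdge : domc X + domc Y + (univ.filter isT).card + Eb.card ≤ Fintype.card E := by
    let DX := (univ.filter (fun s => (X s).isSome)).image (fun s => (xs s).1)
    let DY := (univ.filter (fun s => (Y s).isSome)).image (fun s => (ye s).1)
    have b1 : DX.card = domc X := by
      unfold domc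
      refine card_image_of_injOn ?_
      intro s _ s' _ h
      have h3 : xs s = xs s' := Prod.ext h (by rw [pxs, pxs])
      exact hdis s s' (xs s) (mxs s) (h3 ▸ mxs s')
    have b2 : DY.card = domc Y := by
      unfold domc
      refine card_image_of_injOn ?_
      intro s _ s' _ h
      have h3 : ye s = ye s' := Prod.ext h (by rw [pye, pye])
      exact hdis s s' (ye s) (mye s) (h3 ▸ mye s')
    have dec : ∀ (d d' : E × Bool), d.1 = d'.1 → d = d' ∨ d = rv d' := by
      rintro ⟨a, b⟩ ⟨a', b'⟩ h
      simp only at h
      subst h
      cases b <;> cases b' <;> simp [rv]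
    have b3 : Disjoint DX DY := by
      rw [disjoint_left]
      intro e he he'
      obtain ⟨s, -, rfl⟩ := mem_image.1 he
      obtain ⟨s', -, h⟩ := mem_image.1 he'
      exact hxy s s' h.symm
    have b4 : Disjoint (DX ∪ DY) (univ.filter isT) := by
      rw [disjoint_left]
      intro e he he'
      rw [mem_filter] at he'
      rcases mem_union.1 he with he | he
      · obtain ⟨s, -, rfl⟩ := mem_image.1 he
        exact txs s he'.2
      · obtain ⟨s, -, rfl⟩ := mem_image.1 he
        exact tye s he'.2
    have b5 : Disjoint (DX ∪ DY ∪ univ.filter isT) Eb := by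
      rw [disjoint_left]
      intro e he he'
      rw [hEb, mem_filter] at he'
      obtain ⟨he1, he2⟩ := he'
      rw [List.mem_toFinset, List.mem_map] at he1
      obtain ⟨d, hd, hde⟩ := he1
      rcases mem_union.1 he with he | he
      · rcases mem_union.1 he with he | he
        · obtain ⟨s, hs, rfl⟩ := mem_image.1 he
          rw [mem_filter, Option.isSome_iff_exists] at hs
          obtain ⟨-, s', hs'⟩ := hs
          rw [hX] at hs'
          rcases dec d (xs s) hde with h | h
          · exact hdl s (xs s) (mxs s) (h ▸ hd)
          · rw [hs'] at h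
            exact hdl s' (xe s') (mxe s') (h ▸ hd)
        · obtain ⟨s, hs, rfl⟩ := mem_image.1 he
          rw [mem_filter, Option.isSome_iff_exists] at hs
          obtain ⟨-, s', hs'⟩ := hs
          rw [hY] at hs'
          rcases dec d (ye s) hde with h | h
          · exact hdl s (ye s) (mye s) (h ▸ hd)
          · rw [hs'] at h
            exact hdl s' (ys s') (mys s') (h ▸ hd)
      · rw [mem_filter] at he
        exact he2 he.2
    rw [← b1, ← b2, ← card_union_of_disjoint b3, ← card_union_of_disjoint b4,
      ← card_union_of_disjoint b5]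
    exact card_le_univ _
  have hIB : (univ.image r).card ≤ Ic.card + Bc.card := by
    rw [hIc]
    have := card_le_card_sdiff_add_card (s := univ.image r) (t := Bc)
    exact this
  omega

end EulCore

end Vale.Agent.P201.Z
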