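import Vale.Agent.P201.Z.D.Stm

/-! P201, D0 (a), (b): `StmtEven` and `StmtForest`. -/

namespace Vale.Agent.P201.Z

open Finset

private theorem evf_chain {D V : Type} [DecidableEq V] (o e : D → V) (v : V) :
    ∀ (t : List D) (a : D), (a :: t).IsChain (fun a b => o b = e a) →
      t.countP (fun d => o d = v) + (if e ((a :: t).getLast (by simp)) = v then 1 else 0) =
        (a :: t).countP (fun d => e d = v) := by
  intro t
  induction t with
  | nil => intro a _; by_cases h : e a = v <;> simp [h]
  | cons b t ih =>
    intro a h
    rw [List.isChain_cons_cons] at h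
    have h2 := ih b h.2
    rw [List.getLast_cons (by simp), List.countP_cons, List.countP_cons (l := b :: t), ← h2, h.1]
    ring

/-- A closed walk leaves a vertex as often as it enters it. -/
private theorem evf_walk {D V : Type} [DecidableEq V] (o e : D → V) (v : V) (l : List D)
    (hc : l.IsChain (fun a b => o b = e a))
    (hcl : ∀ a ∈ l.getLast?, ∀ b ∈ l.head?, o b = e a) :
    l.countP (fun d => o d = v) = l.countP (fun d => e d = v) := by
  cases l with
  | nil => rfl
  | cons a t =>
    rw [← evf_chain o e v t a hc, List.countP_cons]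
    have := hcl ((a :: t).getLast (by simp)) (by simp [List.getLast?_eq_some_getLast]) a (by simp)
    simp [this]

private theorem evf_countP {D : Type} [Fintype D] [BEq D] [LawfulBEq D] (P : D → Prop)
    [DecidablePred P] (l : List D) :
    l.countP (fun d => P d) = ∑ d ∈ univ.filter P, l.count d := by
  induction l with
  | nil => simp
  | cons a t ih =>
    simp only [List.countP_cons, List.count_cons, Finset.sum_add_distrib, ← ih]
    congr 1
    by_cases h : P a
    · have : ∑ d ∈ univ.filter P, (if (a == d) = true then 1 else 0) = 1 := by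
        rw [Finset.sum_eq_single a]
        · simp
        · intro b _ hb; simp [Ne.symm hb]
        · intro h2; exact absurd (by simp [h]) h2
      rw [this]; simp [h]
    · have : ∑ d ∈ univ.filter P, (if (a == d) = true then 1 else 0) = 0 := by
        apply Finset.sum_eq_zero
        intro b hb
        have hb' : P b := (Finset.mem_filter.1 hb).2
        have : a ≠ b := by rintro rfl; exact h hb'
        simp [this]
      rw [this]; simp [h]

section raw

variable (R : RawC)

private def evfOcc (D : Finset (Option R.F)) (d : R.E × Bool) : ℕ := ∑ f ∈ D, (R.bd f).count d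

private theorem evf_le (D : Finset (Option R.F)) (d : R.E × Bool) : evfOcc R D d ≤ 1 := by
  rw [← R.once d]
  exact Finset.sum_le_sum_of_subset (Finset.subset_univ D)

private theorem evf_eq (D : Finset (Option R.F)) (d : R.E × Bool) :
    evfOcc R D d = 1 ↔ ∃ f ∈ D, d ∈ R.bd f := by
  have h := evf_le R D d
  constructor
  · intro h1
    by_contra hcon
    push Not at hcon
    have : evfOcc R D d = 0 := Finset.sum_eq_zero fun f hf => List.count_eq_zero.2 (hcon f hf)
    omega
  · rintro ⟨f, hf, hd⟩
    have h1 : 1 ≤ (R.bd f).count d := List.one_le_count_iff.2 hd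
    have h2 : (R.bd f).count d ≤ evfOcc R D d :=
      Finset.single_le_sum (f := fun f => (R.bd f).count d) (fun _ _ => Nat.zero_le _) hf
    omega

private theorem evf_face (D : Finset (Option R.F)) (v : R.V) :
    ∑ d ∈ univ.filter (fun d => R.org d = v), evfOcc R D d =
      ∑ d ∈ univ.filter (fun d => R.org d = v), evfOcc R D (rv d) := by
  have e1 : ∀ f, ∑ d ∈ univ.filter (fun d => R.org d = v), (R.bd f).count d =
      ∑ d ∈ univ.filter (fun d => R.org d = v), (R.bd f).count (rv d) := by
    intro f
    have h := evf_walk R.org (fun d => R.org (rv d)) v _ (R.chain f) (R.closed f)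
    rw [evf_countP, evf_countP] at h
    rw [h]
    refine Finset.sum_bij' (fun d _ => rv d) (fun d _ => rv d) ?_ ?_ ?_ ?_ ?_
    · intro d hd
      simp only [Finset.mem_filter, Finset.mem_univ, true_and] at hd ⊢
      exact hd
    · intro d hd
      simp only [Finset.mem_filter, Finset.mem_univ, true_and] at hd ⊢
      simpa [rv] using hd
    · intro d _; simp [rv]
    · intro d _; simp [rv]
    · intro d _; simp [rv]
  unfold evfOcc
  rw [Finset.sum_comm, Finset.sum_comm (s := univ.filter (fun d => R.org d = v))]
  exact Finset.sum_congr rfl fun f _ => e1 f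

private theorem evf_sep (D : Finset (Option R.F)) (v : R.V) :
    Even (univ.filter (fun d : R.E × Bool => R.org d = v ∧
      evfOcc R D d ≠ evfOcc R D (rv d))).card := by
  have h := evf_face R D v
  have h2 : ∑ d ∈ univ.filter (fun d => R.org d = v), (evfOcc R D d + evfOcc R D (rv d)) =
      2 * ∑ d ∈ univ.filter (fun d => R.org d = v), evfOcc R D d := by
    rw [Finset.sum_add_distrib, ← h]; ring
  rw [← Finset.filter_filter, Finset.card_filter]
  have h3 : ∀ d, (if evfOcc R D d ≠ evfOcc R D (rv d) then 1 else 0) +
      2 * (evfOcc R D d * evfOcc R D (rv d)) = evfOcc R D d + evfOcc R D (rv d) := by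
    intro d
    have a := evf_le R D d
    have b := evf_le R D (rv d)
    interval_cases (evfOcc R D d) <;> interval_cases (evfOcc R D (rv d)) <;> simp
  have h4 : ∑ d ∈ univ.filter (fun d => R.org d = v),
      (if evfOcc R D d ≠ evfOcc R D (rv d) then 1 else 0) +
        2 * ∑ d ∈ univ.filter (fun d => R.org d = v), (evfOcc R D d * evfOcc R D (rv d)) =
      2 * ∑ d ∈ univ.filter (fun d => R.org d = v), evfOcc R D d := by
    rw [← h2, Finset.mul_sum, ← Finset.sum_add_distrib]
    exact Finset.sum_congr rfl fun d _ => h3 d
  rw [Nat.even_iff]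
  omega

open Classical in
private theorem evf_cross (C : Option R.F → Prop) (d : R.E × Bool) :
    R.Cross C d.1 ↔ evfOcc R (univ.filter C) d ≠ evfOcc R (univ.filter C) (rv d) := by
  have key : ∀ d, (∃ f, C f ∧ d ∈ R.bd f) ↔ evfOcc R (univ.filter C) d = 1 := by
    intro d
    rw [evf_eq]
    simp
  obtain ⟨e, b⟩ := d
  simp only [RawC.Cross, rv, key]
  have h1 := evf_le R (univ.filter C) (e, true)
  have h2 := evf_le R (univ.filter C) (e, false)
  cases b <;> simp only [Bool.not_true, Bool.not_false] <;> omega

end raw

/-- (S1) -/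
theorem stmtEven : StmtEven := by
  classical
  intro R C v
  have h := evf_sep R (univ.filter C) v
  rw [Nat.card_eq_fintype_card, Fintype.card_subtype]
  simpa only [evf_cross] using h

/-- (S1') -/
theorem stmtForest : StmtForest := by
  classical
  intro A K T D hev hD e he
  obtain ⟨v0, d0, hv0, hd0⟩ := hD e he
  let W : Finset K.V := univ.filter (fun v => ∃ d, T.pd v = some d ∧ D d.1)
  obtain ⟨v, hvW, hmax⟩ := Finset.exists_max_image W T.hgt
    ⟨v0, by simp only [W, Finset.mem_filter, Finset.mem_univ, true_and]; exact ⟨d0, hv0, hd0 ▸ he⟩⟩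
  simp only [W, Finset.mem_filter, Finset.mem_univ, true_and] at hvW hmax
  obtain ⟨d, hd, hDd⟩ := hvW
  have hod := T.or v d hd
  have h1 := hev v
  have h2 : Nat.card {d : K.E × Bool // K.org d = v ∧ D d.1} = 1 := by
    rw [Nat.card_eq_one_iff_unique]
    refine ⟨⟨?_⟩, ⟨⟨d, hod, hDd⟩⟩⟩
    have key : ∀ b : K.E × Bool, K.org b = v → D b.1 → b = d := by
      intro b hb hb0
      obtain ⟨w, dw, hw, hdw⟩ := hD b.1 hb0
      have hcase : dw = b ∨ dw = rv b := by
        obtain ⟨x, y⟩ := dw
        obtain ⟨x', y'⟩ := b
        simp only at hdw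
        subst hdw
        cases y <;> cases y' <;> simp [rv]
      rcases hcase with h | h
      · subst h
        have hwo := T.or w dw hw
        rw [hb] at hwo
        subst hwo
        rw [hd] at hw
        exact (Option.some.inj hw).symm
      · have h3 := T.dec w dw hw
        have h5 : rv dw = b := by rw [h]; simp [rv]
        rw [h5, hb] at h3
        have h4 := hmax w ⟨dw, hw, by rw [hdw]; exact hb0⟩
        omega
    rintro ⟨a, ha⟩ ⟨b, hb⟩
    exact Subtype.ext ((key a ha.1 ha.2).trans (key b hb.1 hb.2).symm)
  rw [h2] at h1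
  exact absurd h1 (by decide)

end Vale.Agent.P201.Z
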