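import Vale.Agent.P201.Z.Defs

/-! P201: closure properties of `Expr` (products, inverses, conjugation). -/

namespace Vale.Agent.P201.Z

open Finset

variable {p : Pat} {n : ℕ} {σ : Equiv.Perm (Cel p n)}

lemma expr_mt_mt (q : Port p n) : mt σ (mt σ q) = q := by
  rcases q with ⟨c, b⟩
  cases b <;> simp [mt]

lemma winv_append {A : Type} (l m : List (A × Bool)) : winv (l ++ m) = winv m ++ winv l := by
  simp [winv]

lemma winv_winv {A : Type} (l : List (A × Bool)) : winv (winv l) = l := by
  simp [winv, Function.comp_def]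

lemma val_append {A : Type} (l m : List (A × Bool)) : val (l ++ m) = val l * val m := by
  simp [val, FreeGroup.mul_mk]

lemma val_nil {A : Type} : val ([] : List (A × Bool)) = 1 := rfl

lemma val_winv {A : Type} (l : List (A × Bool)) : val (winv l) = (val l)⁻¹ := by
  simp [val, winv, FreeGroup.inv_mk, FreeGroup.invRev]

lemma val_relw (q : Port p n) : val (relw σ q) = val (half q) * (val (half (mt σ q)))⁻¹ := by
  rw [relw, val_append, val_winv]

lemma val_relw_mt (q : Port p n) : val (relw σ (mt σ q)) = (val (relw σ q))⁻¹ := by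
  rw [val_relw, val_relw, expr_mt_mt, mul_inv_rev, inv_inv]

lemma relw_mt (q : Port p n) : relw σ (mt σ q) = winv (relw σ q) := by
  rw [relw, relw, winv_append, winv_winv, expr_mt_mt]

lemma pch_mt (g : Gp σ) (q : Port p n) : pch σ g (mt σ q) = - pch σ g q := by
  rcases q with ⟨c, b⟩
  cases b <;> simp [mt, pch]

lemma mk_relw (q : Port p n) : PresentedGroup.mk (rels σ) (val (relw σ q)) = 1 :=
  PresentedGroup.one_of_mem (rels := rels σ) ⟨q, rfl⟩

namespace Expr

lemma mk_eq {k : ℕ} {u : FreeGroup (Let p n)} {z : Chn σ} (h : Expr σ k u z) :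
    PresentedGroup.mk (rels σ) u = 1 := by
  induction h with
  | nil => exact map_one _
  | cons k u z v q _ ih =>
    rw [map_mul, map_mul, map_mul, mk_relw, mul_one, map_inv, mul_inv_cancel, one_mul, ih]

lemma congr {k k' : ℕ} {u u' : FreeGroup (Let p n)} {z z' : Chn σ} (h : Expr σ k u z) (hk : k = k') (hu : u = u')
    (hz : z = z') : Expr σ k' u' z' := by
  subst hk hu hz
  exact h

lemma single (v : FreeGroup (Let p n)) (q : Port p n) :
    Expr σ 1 (v * val (relw σ q) * v⁻¹) (pch σ (PresentedGroup.mk (rels σ) v) q) := by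
  refine (Expr.cons 0 1 0 v q Expr.nil).congr rfl ?_ ?_
  · rw [mul_one]
  · rw [add_zero]

lemma mul {k l : ℕ} {u w : FreeGroup (Let p n)} {y z : Chn σ} (h : Expr σ k u y) (h' : Expr σ l w z) :
    Expr σ (k + l) (u * w) (y + z) := by
  induction h with
  | nil => exact h'.congr (by omega) (by rw [one_mul]) (by rw [zero_add])
  | cons k u y v q _ ih =>
    refine (Expr.cons (k + l) (u * w) (y + z) v q ih).congr (by omega) ?_ ?_
    · group
    · rw [add_assoc]

lemma inv {k : ℕ} {u : FreeGroup (Let p n)} {z : Chn σ} (h : Expr σ k u z) : Expr σ k u⁻¹ (-z) := by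
  induction h with
  | nil => exact Expr.nil.congr rfl (by rw [inv_one]) (by rw [neg_zero])
  | cons k u y v q _ ih =>
    refine (ih.mul (single v (mt σ q))).congr rfl ?_ ?_
    · rw [val_relw_mt]
      group
    · rw [pch_mt, neg_add]
      abel

/-- left translation of chains -/
noncomputable def act (g : Gp σ) : Chn σ →+ Chn σ := Finsupp.mapDomain.addMonoidHom (fun a => (g * a.1, a.2))

lemma act_pch (g a : Gp σ) (q : Port p n) : act g (pch σ a q) = pch σ (g * a) q := by
  rcases q with ⟨c, b⟩
  cases b
  · exact Finsupp.mapDomain_single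
  · exact Finsupp.mapDomain_single

lemma act_one (z : Chn σ) : act (1 : Gp σ) z = z := by
  have h : (fun a : Gp σ × Cel p n => ((1 : Gp σ) * a.1, a.2)) = id := by
    funext a
    simp
  change Finsupp.mapDomain (fun a : Gp σ × Cel p n => ((1 : Gp σ) * a.1, a.2)) z = z
  rw [h, Finsupp.mapDomain_id]

lemma conj {k : ℕ} {u : FreeGroup (Let p n)} {z : Chn σ} (h : Expr σ k u z) (w : FreeGroup (Let p n)) :
    Expr σ k (w * u * w⁻¹) (act (PresentedGroup.mk (rels σ) w) z) := by
  induction h with
  | nil => exact Expr.nil.congr rfl (by group) (by rw [map_zero])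
  | cons k u y v q _ ih =>
    refine ((single (w * v) q).mul ih).congr (by omega) ?_ ?_
    · group
    · rw [map_add, act_pch, map_mul]

/-- conjugation by an element that is trivial in the group does not change the chain -/
lemma conj_of_mk_one {k : ℕ} {u : FreeGroup (Let p n)} {z : Chn σ} (h : Expr σ k u z) (w : FreeGroup (Let p n))
    (hw : PresentedGroup.mk (rels σ) w = 1) : Expr σ k (w * u * w⁻¹) z :=
  (h.conj w).congr rfl rfl (by rw [hw, act_one])

/-- cyclic permutation of a product -/
lemma rot {k : ℕ} {u w : FreeGroup (Let p n)} {z : Chn σ} (h : Expr σ k (u * w) z)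
    (hu : PresentedGroup.mk (rels σ) u = 1) : Expr σ k (w * u) z := by
  refine (h.conj_of_mk_one u⁻¹ (by rw [map_inv, hu, inv_one])).congr rfl ?_ rfl
  group

/-- product over a list -/
lemma prod {D : Type} (c : D → FreeGroup (Let p n)) (k : D → ℕ) (y : D → Chn σ) (l : List D)
    (h : ∀ d ∈ l, Expr σ (k d) (c d) (y d)) : Expr σ (l.map k).sum (l.map c).prod (l.map y).sum := by
  induction l with
  | nil => simpa using Expr.nil (σ := σ)
  | cons d l ih =>
    simp only [List.map_cons, List.sum_cons, List.prod_cons]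
    exact (h d (by simp)).mul (ih fun e he => h e (by simp [he]))

/-- product of inverses in reversed order -/
lemma prod_inv {D : Type} (c : D → FreeGroup (Let p n)) (k : D → ℕ) (y : D → Chn σ) (l : List D)
    (h : ∀ d ∈ l, Expr σ (k d) (c d)⁻¹ (y d)) : Expr σ (l.map k).sum ((l.map c).prod)⁻¹ (l.map y).sum := by
  induction l with
  | nil => simpa using Expr.nil (σ := σ)
  | cons d l ih =>
    simp only [List.map_cons, List.sum_cons, List.prod_cons, mul_inv_rev]
    exact ((ih fun e he => h e (by simp [he])).mul (h d (by simp))).congr (by omega) rfl (add_comm _ _)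

end Expr

end Vale.Agent.P201.Z
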