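import Vale.Agent.P201.Z.PC

/-!
P201, D1 (O4)(ii): folding two consecutive outer darts with different end vertices (helper109).
-/

namespace Vale.Agent.P201.Z

open Finset

namespace PC

variable {A : Type} (K : PC A)

@[simp] lemma fb_rv_rv {E : Type} (d : E × Bool) : rv (rv d) = d := by
  simp [rv]

/-- closed walks: the origins are a permutation of the ends -/
lemma fb_perm_of_chain {V : Type} {E : Type} (o : E × Bool → V) :
    ∀ (a : E × Bool) (L : List (E × Bool)),
      (a :: L).IsChain (fun a b => o b = o (rv a)) →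
      (a :: L).map (fun x => o (rv x)) = L.map o ++ [o (rv ((a :: L).getLast (by simp)))]
  | a, [] => by simp
  | a, b :: L => by
      intro h
      rw [List.isChain_cons_cons] at h
      have ih := fb_perm_of_chain o b L h.2
      rw [List.map_cons, ih]
      simp [h.1]

lemma fb_perm_bd (f : Option K.F) :
    ((K.bd f).map (fun x => K.org (rv x))).Perm ((K.bd f).map K.org) := by
  have hc := K.chain f
  have hcl := K.closed f
  generalize K.bd f = L at hc hcl
  cases L with
  | nil => simp
  | cons a L =>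
    rw [fb_perm_of_chain K.org a L hc]
    have h1 : K.org a = K.org (rv ((a :: L).getLast (by simp))) :=
      hcl _ (by rw [List.getLast?_eq_some_getLast (by simp)]; simp) a (by simp)
    rw [← h1, List.map_cons]
    exact (List.perm_append_comm (l₁ := L.map K.org) (l₂ := [K.org a]))

lemma fb_count_bd (f : Option K.F) (v : K.V) :
    ((K.bd f).countP (fun x => decide (K.org (rv x) = v))) =
      ((K.bd f).countP (fun x => decide (K.org x = v))) := by
  have h := (K.fb_perm_bd f).count_eq v
  simp only [List.count, List.countP_map] at h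
  convert h using 2 <;> · ext x; simp only [Function.comp]; exact (beq_eq_decide _ _).symm

/-- number of occurrences of a dart in the faces of `C` -/
def fb_occ (C : Finset (Option K.F)) (x : K.E × Bool) : ℤ := ∑ f ∈ C, ((K.bd f).count x : ℤ)

lemma fb_countP_eq_sum {X : Type} [Fintype X] [BEq X] [LawfulBEq X] (L : List X) (q : X → Bool) :
    (L.countP q : ℤ) = ∑ x, if q x then (L.count x : ℤ) else 0 := by
  classical
  induction L with
  | nil => simp
  | cons a L ih =>
    rw [List.countP_cons]
    push_cast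
    rw [ih]
    have : ∀ x, (if q x then (((a :: L).count x : ℕ) : ℤ) else 0) =
        (if q x then (L.count x : ℤ) else 0) + (if a = x then (if q x then 1 else 0) else 0) := by
      intro x
      rw [List.count_cons]
      by_cases h1 : q x <;> by_cases h2 : a = x <;> simp [h1, h2]
    rw [Finset.sum_congr rfl (fun x _ => this x), Finset.sum_add_distrib]
    simp

/-- the parity fact -/
lemma fb_flux (C : Finset (Option K.F)) (v : K.V) :
    ∑ x : K.E × Bool, (if K.org x = v then (K.fb_occ C x - K.fb_occ C (rv x)) else 0) = 0 := by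
  have h1 : ∀ f, ∑ x : K.E × Bool, (if K.org (rv x) = v then ((K.bd f).count x : ℤ) else 0) =
      ∑ x : K.E × Bool, (if K.org x = v then ((K.bd f).count x : ℤ) else 0) := by
    intro f
    have h := K.fb_count_bd f v
    have h2 := fb_countP_eq_sum (K.bd f) (fun x => decide (K.org (rv x) = v))
    have h3 := fb_countP_eq_sum (K.bd f) (fun x => decide (K.org x = v))
    simp only [decide_eq_true_eq] at h2 h3
    rw [← h2, ← h3, h]
  have h2 : ∀ f, ∑ x : K.E × Bool, (if K.org (rv x) = v then ((K.bd f).count x : ℤ) else 0) =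
      ∑ x : K.E × Bool, (if K.org x = v then ((K.bd f).count (rv x) : ℤ) else 0) := by
    intro f
    let e : (K.E × Bool) ≃ (K.E × Bool) := ⟨rv, rv, fb_rv_rv, fb_rv_rv⟩
    rw [← Equiv.sum_comp e]
    apply Finset.sum_congr rfl
    intro x _
    simp [e]
  have h3 : ∀ x : K.E × Bool, (if K.org x = v then (K.fb_occ C x - K.fb_occ C (rv x)) else 0) =
      ∑ f ∈ C, ((if K.org x = v then ((K.bd f).count x : ℤ) else 0) -
        (if K.org x = v then ((K.bd f).count (rv x) : ℤ) else 0)) := by
    intro x
    unfold fb_occ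
    split_ifs
    · rw [Finset.sum_sub_distrib]
    · simp
  rw [Finset.sum_congr rfl (fun x _ => h3 x), Finset.sum_comm]
  apply Finset.sum_eq_zero
  intro f _
  rw [Finset.sum_sub_distrib, ← h1, h2, sub_self]

lemma fb_count_of_mem {x : K.E × Bool} {f : Option K.F} (h : x ∈ K.bd f) (g : Option K.F) :
    (K.bd g).count x = if g = f then 1 else 0 := by
  have h1 := K.once x
  have h2 : 1 ≤ (K.bd f).count x := List.one_le_count_iff.mpr h
  rw [← Finset.add_sum_erase _ _ (Finset.mem_univ f)] at h1
  have h3 : ∑ g ∈ univ.erase f, (K.bd g).count x = 0 := by omega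
  split_ifs with h4
  · subst h4; omega
  · exact (Finset.sum_eq_zero_iff.mp h3) g (by simp [h4])

lemma fb_occ_of_mem {x : K.E × Bool} {f : Option K.F} (h : x ∈ K.bd f) (C : Finset (Option K.F)) :
    K.fb_occ C x = if f ∈ C then 1 else 0 := by
  unfold fb_occ
  rw [Finset.sum_congr rfl (fun g _ => by rw [K.fb_count_of_mem h g])]
  push_cast
  simp [Finset.sum_ite_eq']

lemma fb_exists_face (x : K.E × Bool) : ∃ f, x ∈ K.bd f := by
  by_contra h
  push Not at h
  have h1 := K.once x
  rw [Finset.sum_eq_zero (fun f _ => List.count_eq_zero.mpr (h f))] at h1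
  omega

attribute [-instance] Subtype.instBEq

/-- data for a fold -/
structure FbD (K : PC A) where
  d : K.E × Bool
  d' : K.E × Bool
  l1 : List (K.E × Bool)
  l2 : List (K.E × Bool)
  hbd : K.bd none = l1 ++ d :: d' :: l2
  hne : d.1 ≠ d'.1
  hl : K.lab d.1 = K.lab d'.1
  hs : d'.2 = !d.2
  hp : K.org d ≠ K.org (rv d')

namespace FbD

variable {K} (D : K.FbD)

/-- new vertices -/
abbrev V' : Type := {v : K.V // v ≠ K.org (rv D.d')}

/-- new edges -/
abbrev E' : Type := {e : K.E // e ≠ D.d'.1}

/-- vertex map -/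
def φ (v : K.V) : D.V' := if h : v = K.org (rv D.d') then ⟨K.org D.d, D.hp⟩ else ⟨v, h⟩

/-- edge map -/
def η (e : K.E) : D.E' := if h : e = D.d'.1 then ⟨D.d.1, D.hne⟩ else ⟨e, h⟩

/-- dart map -/
def ψ (x : K.E × Bool) : D.E' × Bool := (D.η x.1, x.2)

/-- origin -/
def org' (x : D.E' × Bool) : D.V' := D.φ (K.org (x.1.1, x.2))

lemma mid : K.org D.d' = K.org (rv D.d) := by
  have h := K.chain none
  rw [D.hbd, List.isChain_append] at h
  have h2 := h.2.1
  rw [List.isChain_cons_cons] at h2
  exact h2.1

lemma φ_p' : D.φ (K.org (rv D.d')) = D.φ (K.org D.d) := by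
  unfold φ
  rw [dif_pos rfl, dif_neg D.hp]

lemma φ_val (v : D.V') : D.φ v.1 = v := by
  unfold φ
  rw [dif_neg v.2]

lemma ψ_rv (x : K.E × Bool) : D.ψ (rv x) = rv (D.ψ x) := rfl

lemma org'_ψ (x : K.E × Bool) : D.org' (D.ψ x) = D.φ (K.org x) := by
  obtain ⟨e, b⟩ := x
  unfold org' ψ η
  by_cases h : e = D.d'.1
  · subst h
    simp only [dif_pos]
    by_cases hb : b = D.d.2
    · have h1 : (D.d.1, b) = D.d := by rw [hb]
      have h2 : (D.d'.1, b) = rv D.d' := by simp [rv, D.hs, hb]
      rw [h1, h2, D.φ_p']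
    · have hb' : b = !D.d.2 := by
        revert hb; cases b <;> cases D.d.2 <;> simp
      have h1 : (D.d.1, b) = rv D.d := by simp [rv, hb']
      have h2 : (D.d'.1, b) = D.d' := by
        rw [Prod.ext_iff]; simp [D.hs, hb']
      rw [h1, h2, D.mid]
  · simp only [dif_neg h]

lemma lab_η (e : K.E) : K.lab (D.η e).1 = K.lab e := by
  unfold η
  split_ifs with h
  · rw [h, D.hl]
  · rfl

/-- new boundaries -/
def bd' : Option K.F → List (D.E' × Bool)
  | none => (D.l1 ++ D.l2).map D.ψ
  | some f => (K.bd (some f)).map D.ψ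

lemma chain' (f : Option K.F) : (D.bd' f).IsChain (fun a b => D.org' b = D.org' (rv a)) := by
  cases f with
  | none =>
    have h := K.chain none
    rw [D.hbd] at h
    unfold bd'
    rw [List.isChain_map]
    have h0 : ∀ L : List (K.E × Bool), L.IsChain (fun a b => K.org b = K.org (rv a)) →
        L.IsChain (fun a b => D.org' (D.ψ b) = D.org' (rv (D.ψ a))) := by
      intro L hL
      refine hL.imp ?_
      intro a b hab
      rw [← D.ψ_rv, D.org'_ψ, D.org'_ψ, hab]
    rw [List.isChain_append] at h ⊢
    obtain ⟨h1, h2, h3⟩ := h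
    rw [List.isChain_cons_cons] at h2
    refine ⟨h0 _ h1, h0 _ ?_, ?_⟩
    · have := h2.2
      cases hl2 : D.l2 with
      | nil => simp
      | cons b l =>
        rw [hl2, List.isChain_cons_cons] at this
        exact this.2
    · intro a ha b hb
      rw [← D.ψ_rv, D.org'_ψ, D.org'_ψ]
      have e1 := h3 a ha D.d (by simp)
      have e2 : K.org b = K.org (rv D.d') := by
        have := h2.2
        cases hl2 : D.l2 with
        | nil => rw [hl2] at hb; simp at hb
        | cons b' l =>
          rw [hl2] at hb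
          simp only [List.head?_cons, Option.mem_def, Option.some.injEq] at hb
          rw [hl2, List.isChain_cons_cons] at this
          rw [← hb]
          exact this.1
      rw [e2, ← e1, D.φ_p']
  | some f =>
    unfold bd'
    rw [List.isChain_map]
    refine (K.chain (some f)).imp ?_
    intro a b hab
    rw [← D.ψ_rv, D.org'_ψ, D.org'_ψ, hab]

lemma closed' (f : Option K.F) : ∀ a ∈ (D.bd' f).getLast?, ∀ b ∈ (D.bd' f).head?,
    D.org' b = D.org' (rv a) := by
  cases f with
  | none =>
    have hcl := K.closed none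
    have hch := K.chain none
    rw [D.hbd] at hcl hch
    rw [List.isChain_append] at hch
    obtain ⟨_, h2, h3⟩ := hch
    unfold bd'
    intro a ha b hb
    simp only [List.getLast?_map, List.head?_map, Option.mem_def, Option.map_eq_some_iff] at ha hb
    obtain ⟨a0, ha0, rfl⟩ := ha
    obtain ⟨b0, hb0, rfl⟩ := hb
    rw [← D.ψ_rv, D.org'_ψ, D.org'_ψ]
    cases hl1 : D.l1 with
    | nil =>
      rw [hl1] at ha0 hb0 hcl
      simp only [List.nil_append] at ha0 hb0 hcl
      cases hl2 : D.l2 with
      | nil => rw [hl2] at hb0; simp at hb0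
      | cons c l =>
        rw [hl2] at ha0 hb0 hcl h2
        simp only [List.head?_cons, Option.some.injEq] at hb0
        subst hb0
        have e1 : K.org D.d = K.org (rv a0) := by
          apply hcl a0 _ D.d (by simp)
          rw [List.getLast?_cons_cons, List.getLast?_cons_cons]
          exact ha0
        rw [List.isChain_cons_cons, List.isChain_cons_cons] at h2
        rw [h2.2.1, ← e1, D.φ_p']
    | cons c l =>
      rw [hl1] at ha0 hb0 hcl h3
      simp only [List.cons_append, List.head?_cons, Option.some.injEq] at hb0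
      subst hb0
      cases hl2 : D.l2 with
      | nil =>
        rw [hl2] at ha0 hcl
        simp only [List.append_nil] at ha0
        have e1 : K.org c = K.org (rv D.d') := by
          apply hcl D.d' _ c (by simp)
          rw [List.getLast?_append]
          simp
        have e2 := h3 a0 ha0 D.d (by simp)
        rw [e1, ← e2, D.φ_p']
      | cons c' l' =>
        rw [hl2] at ha0 hcl
        have e1 : K.org c = K.org (rv a0) := by
          apply hcl a0 _ c (by simp)
          rw [List.getLast?_append] at ha0 ⊢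
          rw [List.getLast?_cons_cons, List.getLast?_cons_cons]
          exact ha0
        rw [e1]
  | some f =>
    unfold bd'
    intro a ha b hb
    simp only [List.getLast?_map, List.head?_map, Option.mem_def, Option.map_eq_some_iff] at ha hb
    obtain ⟨a0, ha0, rfl⟩ := ha
    obtain ⟨b0, hb0, rfl⟩ := hb
    rw [← D.ψ_rv, D.org'_ψ, D.org'_ψ, K.closed (some f) a0 ha0 b0 hb0]

lemma count_map_ψ (L : List (K.E × Bool)) (x : D.E' × Bool) :
    (L.map D.ψ).count x = L.count (x.1.1, x.2) + (if x.1.1 = D.d.1 then L.count (D.d'.1, x.2) else 0) := by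
  obtain ⟨⟨e, he⟩, b⟩ := x
  induction L with
  | nil => simp
  | cons a L ih =>
    rw [List.map_cons, List.count_cons, ih, List.count_cons, List.count_cons]
    obtain ⟨e1, b1⟩ := a
    simp only [ψ, η]
    by_cases h1 : e1 = D.d'.1
    · subst h1
      have he' : D.d'.1 ≠ e := fun h => he h.symm
      simp only [dif_pos]
      by_cases h2 : e = D.d.1
      · subst h2
        by_cases h3 : b1 = b
        · subst h3; simp [he']; ring
        · simp [he', h3]
      · have h2' : D.d.1 ≠ e := fun h => h2 h.symm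
        simp [he', h2, h2']
    · simp only [dif_neg h1]
      by_cases h2 : e = D.d.1
      · subst h2
        by_cases h3 : e1 = D.d.1
        · subst h3
          by_cases h4 : b1 = b
          · subst h4; simp [he]; ring
          · simp [h4, he]
        · simp [h3, h1]
      · simp only [if_neg h2]
        by_cases h3 : e1 = e
        · subst h3
          by_cases h4 : b1 = b
          · subst h4; simp
          · simp [h4]
        · simp [h3]

lemma once' (x : D.E' × Bool) : ∑ f, (D.bd' f).count x = 1 := by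
  have hN : ∀ y : K.E × Bool, (D.l1 ++ D.l2).count y + ∑ f : K.F, (K.bd (some f)).count y +
      (if D.d = y then 1 else 0) + (if D.d' = y then 1 else 0) = 1 := by
    intro y
    have h := K.once y
    rw [Fintype.sum_option, D.hbd, List.count_append, List.count_cons, List.count_cons] at h
    rw [List.count_append]
    simp only [beq_iff_eq] at h
    omega
  rw [Fintype.sum_option]
  simp only [bd', D.count_map_ψ]
  rw [Finset.sum_add_distrib]
  have h1 := hN (x.1.1, x.2)
  have h2 := hN (D.d'.1, x.2)
  have hx := x.1.2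
  by_cases hd : x.1.1 = D.d.1
  · simp only [if_pos hd]
    have e1 : ¬ (D.d' = (x.1.1, x.2)) := by
      intro h; exact hx (congrArg Prod.fst h).symm
    have e2 : ¬ (D.d = (D.d'.1, x.2)) := by
      intro h; exact D.hne (by rw [h])
    by_cases hb : D.d.2 = x.2
    · have e3 : D.d = (x.1.1, x.2) := by rw [Prod.ext_iff]; exact ⟨hd.symm, hb⟩
      have e4 : ¬ (D.d' = (D.d'.1, x.2)) := by
        intro h
        have : D.d'.2 = x.2 := congrArg Prod.snd h
        rw [D.hs, ← hb] at this
        simp at this
      rw [if_pos e3, if_neg e1] at h1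
      rw [if_neg e2, if_neg e4] at h2
      omega
    · have e3 : ¬ (D.d = (x.1.1, x.2)) := by
        intro h; exact hb (congrArg Prod.snd h)
      have e4 : D.d' = (D.d'.1, x.2) := by
        rw [Prod.ext_iff]
        refine ⟨rfl, ?_⟩
        rw [D.hs]
        revert hb; cases D.d.2 <;> cases x.2 <;> simp
      rw [if_neg e3, if_neg e1] at h1
      rw [if_neg e2, if_pos e4] at h2
      omega
  · simp only [if_neg hd]
    have e1 : ¬ (D.d' = (x.1.1, x.2)) := by
      intro h; exact hx (congrArg Prod.fst h).symm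
    have e3 : ¬ (D.d = (x.1.1, x.2)) := by
      intro h; exact hd (congrArg Prod.fst h).symm
    rw [if_neg e3, if_neg e1] at h1
    simp only [Finset.sum_const_zero]
    omega

lemma mem_bd' {y : K.E × Bool} {f : Option K.F} (h : y ∈ K.bd f) (h1 : y ≠ D.d) (h2 : y ≠ D.d') :
    D.ψ y ∈ D.bd' f := by
  cases f with
  | none =>
    unfold bd'
    apply List.mem_map_of_mem
    rw [D.hbd] at h
    simp only [List.mem_append, List.mem_cons] at h ⊢
    tauto
  | some f =>
    exact List.mem_map_of_mem h

lemma conn' (u v : D.V') :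
    Relation.ReflTransGen (fun a b => ∃ x, D.org' x = a ∧ D.org' (rv x) = b) u v := by
  have h := K.conn u.1 v.1
  have h2 : Relation.ReflTransGen (fun a b => ∃ x, D.org' x = a ∧ D.org' (rv x) = b)
      (D.φ u.1) (D.φ v.1) := by
    refine Relation.ReflTransGen.lift D.φ ?_ _ _ h
    rintro a b ⟨x, rfl, rfl⟩
    exact ⟨D.ψ x, D.org'_ψ x, by rw [← D.ψ_rv, D.org'_ψ]⟩
  rw [D.φ_val, D.φ_val] at h2
  exact h2

lemma euler' : Fintype.card D.V' + Fintype.card K.F = Fintype.card D.E' + 1 := by
  have h := K.euler
  have h1 : Fintype.card D.V' = Fintype.card K.V - 1 := by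
    simp [Fintype.card_subtype_compl]
  have h2 : Fintype.card D.E' = Fintype.card K.E - 1 := by
    simp [Fintype.card_subtype_compl]
  have h3 : 0 < Fintype.card K.V := Fintype.card_pos_iff.mpr ⟨K.org D.d⟩
  have h4 : 0 < Fintype.card K.E := Fintype.card_pos_iff.mpr ⟨D.d.1⟩
  rw [h1, h2]
  omega

/-- new dual adjacency -/
def Adj' (a b : Option K.F) : Prop := ∃ x, x ∈ D.bd' a ∧ rv x ∈ D.bd' b

lemma adj'_symm {a b : Option K.F} (h : D.Adj' a b) : D.Adj' b a := by
  obtain ⟨x, hx, hx'⟩ := h
  exact ⟨rv x, hx', by rw [fb_rv_rv]; exact hx⟩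

lemma face_unique {x : K.E × Bool} {f g : Option K.F} (hf : x ∈ K.bd f) (hg : x ∈ K.bd g) :
    f = g := by
  have h := K.fb_count_of_mem hf g
  have h2 : 1 ≤ (K.bd g).count x := List.one_le_count_iff.mpr hg
  by_contra hne
  rw [if_neg (fun h => hne h.symm)] at h
  omega

lemma d_mem : D.d ∈ K.bd none := by rw [D.hbd]; simp

lemma d'_mem : D.d' ∈ K.bd none := by rw [D.hbd]; simp

lemma rv_ne {E : Type} (x : E × Bool) : rv x ≠ x := by
  obtain ⟨e, b⟩ := x
  cases b <;> simp [rv]

lemma adj_keep {y : K.E × Bool} {a b : Option K.F} (ha : y ∈ K.bd a) (hb : rv y ∈ K.bd b)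
    (h1 : y.1 ≠ D.d.1) (h2 : y.1 ≠ D.d'.1) : D.Adj' a b := by
  refine ⟨D.ψ y, D.mem_bd' ha ?_ ?_, ?_⟩
  · rintro rfl; exact h1 rfl
  · rintro rfl; exact h2 rfl
  · rw [← D.ψ_rv]
    refine D.mem_bd' hb ?_ ?_
    · intro h
      have h' := congrArg Prod.fst h
      exact h1 h'
    · intro h
      have h' := congrArg Prod.fst h
      exact h2 h'

lemma ψ_d' : D.ψ (rv D.d') = D.ψ D.d := by
  unfold ψ η
  simp [rv, D.hs, D.hne]

lemma dconn0 (g : Option K.F) : Relation.ReflTransGen D.Adj' none g := by
  classical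
  by_contra hg
  obtain ⟨fd, hfd⟩ := K.fb_exists_face (rv D.d)
  obtain ⟨fd', hfd'⟩ := K.fb_exists_face (rv D.d')
  set C : Finset (Option K.F) := univ.filter (fun g => ¬ Relation.ReflTransGen D.Adj' none g) with hC
  have hmem : ∀ a, a ∈ C ↔ ¬ Relation.ReflTransGen D.Adj' none a := by
    intro a; simp [hC]
  have hcl : ∀ a b, D.Adj' a b → (a ∈ C ↔ b ∈ C) := by
    intro a b hab
    rw [hmem, hmem, not_iff_not]
    exact ⟨fun h => h.tail hab, fun h => h.tail (D.adj'_symm hab)⟩
  have hnone : (none : Option K.F) ∉ C := by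
    rw [hmem]; exact fun h => h Relation.ReflTransGen.refl
  have hadj : D.Adj' fd' fd := by
    refine ⟨D.ψ (rv D.d'), D.mem_bd' hfd' ?_ (rv_ne _), ?_⟩
    · intro h; exact D.hne (congrArg Prod.fst h).symm
    · rw [D.ψ_d', ← D.ψ_rv]
      refine D.mem_bd' hfd (rv_ne _) ?_
      intro h
      have h' := congrArg Prod.fst h
      exact D.hne h'
  have hω := hcl _ _ hadj
  -- fb_flux
  have hfl := K.fb_flux C (K.org (rv D.d'))
  have hz : ∀ x : K.E × Bool, x ∉ ({D.d, rv D.d, D.d', rv D.d'} : Finset (K.E × Bool)) →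
      (if K.org x = K.org (rv D.d') then (K.fb_occ C x - K.fb_occ C (rv x)) else 0) = 0 := by
    intro x hx
    simp only [Finset.mem_insert, Finset.mem_singleton, not_or] at hx
    have hx1 : x.1 ≠ D.d.1 := by
      intro h
      by_cases hb : x.2 = D.d.2
      · exact hx.1 (Prod.ext h hb)
      · refine hx.2.1 (Prod.ext h ?_)
        simp only [rv]
        revert hb; cases x.2 <;> cases D.d.2 <;> simp
    have hx2 : x.1 ≠ D.d'.1 := by
      intro h
      by_cases hb : x.2 = D.d'.2
      · exact hx.2.2.1 (Prod.ext h hb)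
      · refine hx.2.2.2 (Prod.ext h ?_)
        simp only [rv]
        revert hb; cases x.2 <;> cases D.d'.2 <;> simp
    obtain ⟨a, ha⟩ := K.fb_exists_face x
    obtain ⟨b, hb⟩ := K.fb_exists_face (rv x)
    rw [K.fb_occ_of_mem ha, K.fb_occ_of_mem hb]
    have := hcl a b (D.adj_keep ha hb hx1 hx2)
    by_cases hbC : b ∈ C <;> simp [this, hbC]
  rw [← Finset.sum_subset (Finset.subset_univ ({D.d, rv D.d, D.d', rv D.d'} : Finset (K.E × Bool)))
    (fun x _ hx => hz x hx)] at hfl
  have n1 : D.d ∉ ({rv D.d, D.d', rv D.d'} : Finset (K.E × Bool)) := by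
    simp only [Finset.mem_insert, Finset.mem_singleton, not_or]
    refine ⟨fun h => rv_ne _ h.symm, fun h => D.hne (by rw [h]), fun h => ?_⟩
    have h' := congrArg Prod.fst h
    exact D.hne h'
  have n2 : rv D.d ∉ ({D.d', rv D.d'} : Finset (K.E × Bool)) := by
    simp only [Finset.mem_insert, Finset.mem_singleton, not_or]
    refine ⟨fun h => ?_, fun h => ?_⟩ <;>
    · have h' := congrArg Prod.fst h
      exact D.hne h'
  have n3 : D.d' ∉ ({rv D.d'} : Finset (K.E × Bool)) := by
    simp only [Finset.mem_singleton]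
    exact fun h => rv_ne _ h.symm
  rw [Finset.sum_insert n1, Finset.sum_insert n2, Finset.sum_insert n3, Finset.sum_singleton,
    fb_rv_rv, fb_rv_rv, K.fb_occ_of_mem D.d_mem, K.fb_occ_of_mem D.d'_mem, K.fb_occ_of_mem hfd,
    K.fb_occ_of_mem hfd', if_neg D.hp, if_neg hnone, if_pos (rfl : K.org (rv D.d') = _), D.mid] at hfl
  have hfdC : fd ∉ C := by
    intro hin
    rw [if_pos hin, if_pos (hω.mpr hin)] at hfl
    split_ifs at hfl <;> norm_num at hfl
  have hfdC' : fd' ∉ C := fun h => hfdC (hω.mp h)
  -- every adjacency of K preserves the complement of C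
  have hK : ∀ a b, (∃ x, x ∈ K.bd a ∧ rv x ∈ K.bd b) → a ∉ C → b ∉ C := by
    rintro a b ⟨x, hxa, hxb⟩ haC
    by_cases hx1 : x.1 = D.d.1
    · by_cases hb : x.2 = D.d.2
      · have : x = D.d := Prod.ext hx1 hb
        rw [this] at hxb
        rw [face_unique hxb hfd]; exact hfdC
      · have : x = rv D.d := by
          refine Prod.ext hx1 ?_
          simp only [rv]
          revert hb; cases x.2 <;> cases D.d.2 <;> simp
        rw [this, fb_rv_rv] at hxb
        rw [face_unique hxb D.d_mem]; exact hnone
    · by_cases hx2 : x.1 = D.d'.1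
      · by_cases hb : x.2 = D.d'.2
        · have : x = D.d' := Prod.ext hx2 hb
          rw [this] at hxb
          rw [face_unique hxb hfd']; exact hfdC'
        · have : x = rv D.d' := by
            refine Prod.ext hx2 ?_
            simp only [rv]
            revert hb; cases x.2 <;> cases D.d'.2 <;> simp
          rw [this, fb_rv_rv] at hxb
          rw [face_unique hxb D.d'_mem]; exact hnone
      · exact fun h => haC ((hcl a b (D.adj_keep hxa hxb hx1 hx2)).mpr h)
  have hall : ∀ g, Relation.ReflTransGen (fun a b => ∃ x, x ∈ K.bd a ∧ rv x ∈ K.bd b) none g →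
      g ∉ C := by
    intro g hg
    induction hg with
    | refl => exact hnone
    | tail _ h2 ih => exact hK _ _ h2 ih
  exact hall g (K.dconn none g) ((hmem g).mpr hg)

lemma dconn' (f g : Option K.F) : Relation.ReflTransGen (fun a b => ∃ x, x ∈ D.bd' a ∧ rv x ∈ D.bd' b) f g := by
  have h1 : Relation.ReflTransGen D.Adj' f none := by
    have h := D.dconn0 f
    rw [← Relation.reflTransGen_swap] at h
    refine Relation.ReflTransGen.mono ?_ _ _ h
    intro a b hab
    exact D.adj'_symm hab
  exact h1.trans (D.dconn0 g)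

lemma word_map (L : List (K.E × Bool)) :
    (L.map D.ψ).map (fun x => (K.lab x.1.1, x.2)) = L.map (fun x => (K.lab x.1, x.2)) := by
  rw [List.map_map]
  apply List.map_congr_left
  intro x _
  simp only [Function.comp, ψ, D.lab_η]

/-- the folded complex -/
def fold : PC A where
  V := D.V'
  E := D.E'
  F := K.F
  org := D.org'
  lab := fun e => K.lab e.1
  bd := D.bd'
  chain := D.chain'
  closed := D.closed'
  once := D.once'
  ne := by
    intro f h
    exact K.ne f (List.map_eq_nil_iff.mp h)
  conn := D.conn'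
  dconn := D.dconn'
  euler := D.euler'

end FbD

end PC

variable {p : Pat} {n : ℕ} {σ : Equiv.Perm (Cel p n)}

/-- the folded complex of squares -/
noncomputable def fb_SqK (K : SqK σ) (D : K.toPC.FbD) : SqK σ where
  toPC := D.fold
  q := K.q
  sq := by
    intro f
    rw [← K.sq f]
    exact D.word_map _

lemma fb_π_φ (K : SqK σ) (P : K.GPot) (D : K.toPC.FbD) (v : K.V) : P.π (D.φ v).1 = P.π v := by
  unfold PC.FbD.φ
  split_ifs with h
  · subst h
    have h1 := P.st D.d
    have h2 := P.st D.d'
    rw [D.mid, ← h1, mul_assoc, ← map_mul] at h2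
    have h3 : K.toPC.lt D.d * K.toPC.lt D.d' = 1 := by
      unfold PC.lt
      rw [← D.hl, D.hs]
      have : FreeGroup.mk [(K.lab D.d.1, !D.d.2)] = (FreeGroup.mk [(K.lab D.d.1, D.d.2)])⁻¹ := by
        rw [FreeGroup.inv_mk]; simp [FreeGroup.invRev]
      rw [this, mul_inv_cancel]
    rw [h3, map_one, mul_one] at h2
    exact h2
  · rfl

/-- the potential of the folded complex -/
noncomputable def fb_GPot (K : SqK σ) (P : K.GPot) (D : K.toPC.FbD) : (fb_SqK K D).GPot where
  π := fun v => P.π v.1
  st := by
    intro x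
    change P.π (D.φ (K.org (x.1.1, x.2))).1 * PresentedGroup.mk (rels σ) (K.toPC.lt (x.1.1, x.2)) =
      P.π (D.φ (K.org (rv (x.1.1, x.2)))).1
    rw [fb_π_φ, fb_π_φ]
    exact P.st _
  base := by
    intro y hy
    change P.π (D.org' y).1 = 1
    have hy' : ((D.l1 ++ D.l2).map D.ψ).head? = some y := hy
    rw [List.head?_map] at hy'
    obtain ⟨y0, hy0, hyy⟩ := Option.map_eq_some_iff.mp hy'
    rw [← hyy, D.org'_ψ, fb_π_φ]
    have hb := P.base
    have hbd := D.hbd
    have hch := K.chain none
    cases hl1 : D.l1 with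
    | nil =>
      rw [hl1] at hy0 hbd
      simp only [List.nil_append] at hy0 hbd
      have e1 : P.π (K.org D.d) = 1 := hb D.d (by rw [hbd]; simp)
      cases hl2 : D.l2 with
      | nil => rw [hl2] at hy0; simp at hy0
      | cons c l =>
        rw [hl2] at hy0 hbd
        simp only [List.head?_cons, Option.some.injEq] at hy0
        subst hy0
        rw [hbd, List.isChain_cons_cons, List.isChain_cons_cons] at hch
        rw [hch.2.1, ← fb_π_φ K P D, D.φ_p', fb_π_φ, e1]
    | cons c l =>
      rw [hl1] at hy0 hbd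
      simp only [List.cons_append, List.head?_cons, Option.some.injEq] at hy0
      subst hy0
      exact hb c (by rw [hbd]; simp)

lemma fb_chn (K : SqK σ) (P : K.GPot) (D : K.toPC.FbD) :
    (fb_SqK K D).chn (fb_GPot K P D) univ = K.chn P univ := by
  unfold SqK.chn
  apply Finset.sum_congr rfl
  intro f _
  change ∑ d ∈ (((K.bd (some f)).map D.ψ).head?).toFinset,
    pch σ (P.π (D.org' d).1) (K.q f) = _
  rw [List.head?_map]
  cases (K.bd (some f)).head? with
  | none => simp
  | some a =>
    simp only [Option.map_some, Option.toFinset_some, Finset.sum_singleton]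
    rw [D.org'_ψ, fb_π_φ]

/-- **(O4)(ii)**: fold two consecutive outer darts whose outer end vertices are different. -/
theorem fb_fold_ne (K : SqK σ) (P : K.GPot) (d d' : K.E × Bool) (l1 l2 : List (K.E × Bool))
    (hbd : K.bd none = l1 ++ d :: d' :: l2) (hne : d.1 ≠ d'.1) (hl : K.lab d.1 = K.lab d'.1)
    (hs : d'.2 = !d.2) (hp : K.org d ≠ K.org (rv d')) :
    ∃ (K' : SqK σ) (P' : K'.GPot), Fintype.card K'.F = Fintype.card K.F ∧
      K'.toPC.wd none = (l1 ++ l2).map (fun d => (K.lab d.1, d.2)) ∧
      K'.chn P' univ = K.chn P univ := by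
  refine ⟨fb_SqK K ⟨d, d', l1, l2, hbd, hne, hl, hs, hp⟩,
    fb_GPot K P ⟨d, d', l1, l2, hbd, hne, hl, hs, hp⟩, rfl, ?_, fb_chn K P _⟩
  generalize hD : (⟨d, d', l1, l2, hbd, hne, hl, hs, hp⟩ : K.toPC.FbD) = D
  have e1 : l1 ++ l2 = D.l1 ++ D.l2 := by rw [← hD]
  rw [e1]
  exact D.word_map _

end Vale.Agent.P201.Z
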