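import Vale.Agent.P201.Z.D.VKDefs

/-! Fold case (i): removal of a spur `d, rv d` of the outer face. -/

open Finset

namespace Vale.Agent.P201.Z

namespace PC

variable {A : Type} (K : PC A)

private theorem rv_rv' {E : Type} (d : E × Bool) : rv (rv d) = d := by
  obtain ⟨e, b⟩ := d
  simp [rv]

/-- spanning tree inside a connected set of edges -/
private theorem exists_stree (S : K.E → Prop) (r : K.V)
    (hconn : ∀ v, Relation.ReflTransGen (fun a b => ∃ d : K.E × Bool, S d.1 ∧ K.org d = a ∧
      K.org (rv d) = b) v r) :
    ∃ T : K.STree, T.root = r ∧ ∀ e, T.Ed e → S e := by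
  classical
  obtain ⟨R, hR0, hRs⟩ : ∃ R : ℕ → K.V → Prop, (∀ v, R 0 v ↔ v = r) ∧
      ∀ m v, R (m + 1) v ↔ ∃ d : K.E × Bool, S d.1 ∧ K.org d = v ∧ R m (K.org (rv d)) :=
    ⟨fun m => Nat.rec (fun v => v = r)
      (fun _ Q v => ∃ d : K.E × Bool, S d.1 ∧ K.org d = v ∧ Q (K.org (rv d))) m,
      fun v => Iff.rfl, fun m v => Iff.rfl⟩
  have hex : ∀ v, ∃ m, R m v := by
    intro v
    induction hconn v using Relation.ReflTransGen.head_induction_on with
    | refl => exact ⟨0, (hR0 _).mpr rfl⟩
    | head h1 _ ih =>
      obtain ⟨d, hS, h1, h2⟩ := h1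
      obtain ⟨m, hm⟩ := ih
      exact ⟨m + 1, (hRs _ _).mpr ⟨d, hS, h1, by rw [h2]; exact hm⟩⟩
  have hst : ∀ v, v ≠ r → ∃ d : K.E × Bool, S d.1 ∧ K.org d = v ∧
      Nat.find (hex (K.org (rv d))) < Nat.find (hex v) := by
    intro v hv
    have h1 := Nat.find_spec (hex v)
    obtain ⟨m, hm⟩ : ∃ m, Nat.find (hex v) = m + 1 := by
      rcases h : Nat.find (hex v) with _ | m
      · rw [h] at h1
        exact absurd ((hR0 _).mp h1) hv
      · exact ⟨m, rfl⟩
    rw [hm, hRs] at h1
    obtain ⟨d, hS, h2, h3⟩ := h1
    refine ⟨d, hS, h2, ?_⟩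
    rw [hm]
    exact Nat.lt_succ_of_le (Nat.find_min' _ h3)
  choose g hg using hst
  refine ⟨{ pd := fun v => if h : v = r then none else some (g v h)
            hgt := fun v => Nat.find (hex v)
            root := r
            rt := ?_
            or := ?_
            dec := ?_ }, rfl, ?_⟩
  · intro v
    by_cases h : v = r <;> simp [h]
  · intro v d h
    by_cases hv : v = r
    · simp [hv] at h
    · simp only [hv, dite_false, Option.some.injEq] at h
      subst h
      exact (hg v hv).2.1
  · intro v d h
    by_cases hv : v = r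
    · simp [hv] at h
    · simp only [hv, dite_false, Option.some.injEq] at h
      subst h
      exact (hg v hv).2.2
  · rintro e ⟨v, d, h, rfl⟩
    by_cases hv : v = r
    · simp [hv] at h
    · simp only [hv, dite_false, Option.some.injEq] at h
      subst h
      exact (hg v hv).1

/-- a dart lies on exactly one face -/
private theorem face_unique {d : K.E × Bool} {f g : Option K.F} (hf : d ∈ K.bd f) (hg : d ∈ K.bd g) :
    f = g := by
  by_contra hne
  have h1 := K.once d
  have h2 : (K.bd f).count d + (K.bd g).count d ≤ ∑ f, (K.bd f).count d := by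
    rw [← Finset.sum_pair (f := fun f => (K.bd f).count d) hne]
    exact Finset.sum_le_sum_of_subset (Finset.subset_univ _)
  have h3 := List.count_pos_iff.mpr hf
  have h4 := List.count_pos_iff.mpr hg
  omega

private theorem face_exists (d : K.E × Bool) : ∃ f, d ∈ K.bd f := by
  by_contra h
  push Not at h
  have h1 := K.once d
  rw [Finset.sum_eq_zero (fun f _ => List.count_eq_zero.mpr (h f))] at h1
  exact absurd h1 (by norm_num)

private theorem bd_nodup (f : Option K.F) : (K.bd f).Nodup := by
  rw [List.nodup_iff_count_le_one]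
  intro d
  rw [← K.once d]
  exact Finset.single_le_sum (f := fun f => (K.bd f).count d) (fun _ _ => Nat.zero_le _)
    (Finset.mem_univ f)

/-- an edge with both darts on one face is a bridge -/
private theorem bridge (hT1 : StmtT1) (e : K.E) (f : Option K.F) (h1 : (e, true) ∈ K.bd f)
    (h2 : (e, false) ∈ K.bd f) (r : K.V)
    (hconn : ∀ v, Relation.ReflTransGen (fun a b => ∃ d : K.E × Bool, d.1 ≠ e ∧ K.org d = a ∧
      K.org (rv d) = b) v r) : False := by
  obtain ⟨T, -, hT⟩ := K.exists_stree (fun x => x ≠ e) r hconn
  obtain ⟨C, -, hC, -⟩ := hT1 A K T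
  have h3 : ¬ T.Ed e := fun h => hT e h rfl
  rw [hC] at h3
  push Not at h3
  obtain ⟨g, hg⟩ := h3
  have hm := C.mem g
  have hr := C.memr g
  have h4 : f = some g := by
    rcases hd : (C.dd g).2 with _ | _
    · have : C.dd g = (e, false) := Prod.ext hg hd
      rw [this] at hm
      exact K.face_unique h2 hm
    · have : C.dd g = (e, true) := Prod.ext hg hd
      rw [this] at hm
      exact K.face_unique h1 hm
  have h5 : f = C.par g := by
    rcases hd : (C.dd g).2 with _ | _
    · have : rv (C.dd g) = (e, true) := Prod.ext hg (by simp [rv, hd])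
      rw [this] at hr
      exact K.face_unique h1 hr
    · have : rv (C.dd g) = (e, false) := Prod.ext hg (by simp [rv, hd])
      rw [this] at hr
      exact K.face_unique h2 hr
  have h6 : C.par g = some g := by rw [← h5, h4]
  exact absurd (C.dec g g h6) (lt_irrefl _)

/-- reachability avoiding the edge `e` -/
private def Av (e : K.E) (a b : K.V) : Prop :=
  Relation.ReflTransGen (fun a b => ∃ d : K.E × Bool, d.1 ≠ e ∧ K.org d = a ∧ K.org (rv d) = b) a b

variable {K}

private theorem Av.symm {e : K.E} {a b : K.V} (h : K.Av e a b) : K.Av e b a := by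
  induction h with
  | refl => exact Relation.ReflTransGen.refl
  | tail _ h1 ih =>
    obtain ⟨d, h1, h2, h3⟩ := h1
    exact Relation.ReflTransGen.head ⟨rv d, h1, h3, by rw [rv_rv']; exact h2⟩ ih

private theorem Av.step {e : K.E} {a : K.V} {x : K.E × Bool} (hx : x.1 ≠ e) (h : K.Av e a (K.org x)) :
    K.Av e a (K.org (rv x)) :=
  h.tail ⟨x, hx, rfl, rfl⟩

private theorem Av.step' {e : K.E} {a : K.V} {x : K.E × Bool} (hx : x.1 ≠ e) (h : K.Av e a (K.org (rv x))) :
    K.Av e a (K.org x) :=
  h.tail ⟨rv x, hx, rfl, by rw [rv_rv']⟩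

private theorem Av.forward {e : K.E} {a : K.V} (c : K.E × Bool) (l : List (K.E × Bool))
    (hl : (c :: l).IsChain (fun a b => K.org b = K.org (rv a))) (hc : K.Av e a (K.org (rv c)))
    (he : ∀ x ∈ l, x.1 ≠ e) : ∀ x ∈ l, K.Av e a (K.org x) := by
  induction l generalizing c with
  | nil => simp
  | cons b l ih =>
    rw [List.isChain_cons_cons] at hl
    have h1 : K.Av e a (K.org b) := by rw [hl.1]; exact hc
    intro x hx
    rcases List.mem_cons.mp hx with rfl | hx
    · exact h1
    · exact ih b hl.2 (h1.step (he b List.mem_cons_self))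
        (fun x hx => he x (List.mem_cons_of_mem _ hx)) x hx

private theorem Av.backward {e : K.E} {a : K.V} (c : K.E × Bool) (l : List (K.E × Bool))
    (hl : (l ++ [c]).IsChain (fun a b => K.org b = K.org (rv a))) (hc : K.Av e a (K.org c))
    (he : ∀ x ∈ l, x.1 ≠ e) : ∀ x ∈ l, K.Av e a (K.org x) := by
  induction l with
  | nil => simp
  | cons b l ih =>
    rw [List.cons_append] at hl
    have hl' : (l ++ [c]).IsChain (fun a b => K.org b = K.org (rv a)) := hl.tail
    have h1 := ih hl' (fun x hx => he x (List.mem_cons_of_mem _ hx))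
    intro x hx
    rcases List.mem_cons.mp hx with rfl | hx
    · refine Av.step' (he x List.mem_cons_self) ?_
      rcases l with _ | ⟨y, l⟩
      · rw [List.nil_append, List.isChain_cons_cons] at hl
        rw [← hl.1]
        exact hc
      · rw [List.cons_append, List.isChain_cons_cons] at hl
        rw [← hl.1]
        exact h1 y List.mem_cons_self
    · exact h1 x hx

private theorem Av.face {e : K.E} {a : K.V} (l : List (K.E × Bool))
    (hl : l.IsChain (fun a b => K.org b = K.org (rv a))) (he : ∀ x ∈ l, x.1 ≠ e)
    {x : K.E × Bool} (hx : x ∈ l) (h : K.Av e a (K.org x)) : ∀ y ∈ l, K.Av e a (K.org y) := by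
  obtain ⟨s, t, rfl⟩ := List.append_of_mem hx
  have h1 : (x :: t).IsChain (fun a b => K.org b = K.org (rv a)) := hl.right_of_append
  have h2 : (s ++ [x]).IsChain (fun a b => K.org b = K.org (rv a)) := by
    have : s ++ x :: t = (s ++ [x]) ++ t := by simp
    rw [this] at hl
    exact hl.left_of_append
  intro y hy
  rcases List.mem_append.mp hy with hy | hy
  · exact Av.backward x s h2 h (fun z hz => he z (List.mem_append_left _ hz)) y hy
  · rcases List.mem_cons.mp hy with rfl | hy
    · exact h
    · exact Av.forward x t h1 (h.step (he x hx))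
        (fun z hz => he z (List.mem_append_right _ (List.mem_cons_of_mem _ hz))) y hy

private theorem spur (hT1 : StmtT1) {l1 l2 : List (K.E × Bool)} {d : K.E × Bool}
    (h : K.bd none = l1 ++ d :: rv d :: l2) :
    K.org d ≠ K.org (rv d) ∧ ∀ x : K.E × Bool, x.1 ≠ d.1 → K.org x ≠ K.org (rv d) := by
  have hdm : d ∈ K.bd none := by rw [h]; simp
  have hrm : rv d ∈ K.bd none := by rw [h]; simp
  have hed : ∀ x : K.E × Bool, x.1 = d.1 → x = d ∨ x = rv d := by
    intro x hx
    by_cases h2 : x.2 = d.2
    · exact Or.inl (Prod.ext hx h2)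
    · refine Or.inr (Prod.ext hx ?_)
      simp only [rv]
      revert h2
      cases x.2 <;> cases d.2 <;> simp
  have hnone : ∀ x : K.E × Bool, x.1 = d.1 → x ∈ K.bd none := by
    intro x hx
    rcases hed x hx with rfl | rfl <;> assumption
  have hnd := K.bd_nodup none
  -- `rv d` is not reachable
  have hq : ¬ K.Av d.1 (K.org d) (K.org (rv d)) := by
    intro hq
    refine K.bridge hT1 d.1 none (hnone _ rfl) (hnone _ rfl) (K.org d) ?_
    intro v
    induction K.conn v (K.org d) using Relation.ReflTransGen.head_induction_on with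
    | refl => exact Relation.ReflTransGen.refl
    | head h1 _ ih =>
      obtain ⟨x, h1, h2⟩ := h1
      by_cases hx : x.1 = d.1
      · rcases hed x hx with rfl | rfl
        · rw [← h1]
        · rw [← h1]
          exact hq.symm
      · exact Relation.ReflTransGen.head ⟨x, hx, h1, h2⟩ ih
  -- darts of the outer face
  have hch := K.chain none
  rw [h] at hch hnd
  have hl1 : ∀ x ∈ l1, x.1 ≠ d.1 := by
    intro x hx hxd
    rw [List.nodup_append] at hnd
    rcases hed x hxd with rfl | rfl
    · exact hnd.2.2 x hx x (by simp) rfl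
    · exact hnd.2.2 _ hx (rv d) (by simp) rfl
  have hl2 : ∀ x ∈ l2, x.1 ≠ d.1 := by
    intro x hx hxd
    have h3 := (List.nodup_append.mp hnd).2.1
    rw [List.nodup_cons, List.nodup_cons] at h3
    rcases hed x hxd with rfl | rfl
    · exact h3.1 (List.mem_cons_of_mem _ hx)
    · exact h3.2.1 hx
  have hg1 : ∀ x ∈ l1, K.Av d.1 (K.org d) (K.org x) := by
    refine Av.backward d l1 ?_ Relation.ReflTransGen.refl hl1
    have : l1 ++ d :: rv d :: l2 = (l1 ++ [d]) ++ (rv d :: l2) := by simp
    rw [this] at hch
    exact hch.left_of_append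
  have hg2 : ∀ x ∈ l2, K.Av d.1 (K.org d) (K.org x) := by
    refine Av.forward (rv d) l2 ?_ ?_ hl2
    · have : l1 ++ d :: rv d :: l2 = (l1 ++ [d]) ++ (rv d :: l2) := by simp
      rw [this] at hch
      exact hch.right_of_append
    · rw [rv_rv']
      exact Relation.ReflTransGen.refl
  have hgn : ∀ x ∈ K.bd none, x.1 ≠ d.1 → K.Av d.1 (K.org d) (K.org x) := by
    intro x hx hxd
    rw [h] at hx
    rcases List.mem_append.mp hx with hx | hx
    · exact hg1 x hx
    · rcases List.mem_cons.mp hx with rfl | hx
      · exact absurd rfl hxd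
      · rcases List.mem_cons.mp hx with rfl | hx
        · exact absurd rfl hxd
        · exact hg2 x hx
  have hg : ∀ f : Option K.F, ∀ x ∈ K.bd f, x.1 ≠ d.1 → K.Av d.1 (K.org d) (K.org x) := by
    intro f
    induction K.dconn none f with
    | refl => exact hgn
    | @tail a b _ h1 ih =>
      obtain ⟨y, hy, hry⟩ := h1
      rcases b with _ | b
      · exact hgn
      · by_cases hyd : y.1 = d.1
        · have := K.face_unique (hnone (rv y) hyd) hry
          exact absurd this (by simp)
        · have h2 : K.Av d.1 (K.org d) (K.org (rv y)) := (ih y hy hyd).step hyd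
          have h3 : ∀ x ∈ K.bd (some b), x.1 ≠ d.1 := by
            intro x hx hxd
            have := K.face_unique (hnone x hxd) hx
            exact absurd this (by simp)
          intro x hx _
          exact Av.face _ (K.chain _) h3 hry h2 x hx
  refine ⟨fun hc => hq (by rw [← hc]; exact Relation.ReflTransGen.refl), ?_⟩
  intro x hx hc
  obtain ⟨f, hf⟩ := K.face_exists x
  have := hg f x hf hx
  rw [hc] at this
  exact hq this

private theorem lift_list {E : Type} (e : E) (m : List (E × Bool)) (hm : ∀ x ∈ m, x.1 ≠ e) :
    ∃ m' : List ({x : E // x ≠ e} × Bool), m'.map (fun x => (x.1.1, x.2)) = m := by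
  induction m with
  | nil => exact ⟨[], rfl⟩
  | cons a m ih =>
    obtain ⟨m', hm'⟩ := ih (fun x hx => hm x (List.mem_cons_of_mem _ hx))
    exact ⟨(⟨a.1, hm a List.mem_cons_self⟩, a.2) :: m', by simp [hm']⟩

end PC

variable {p : Pat} {n : ℕ}

theorem vk3 (hT1 : StmtT1) : StmtVK3 := by
  intro p n σ K P l1 l2 d h
  classical
  obtain ⟨hpq, horg⟩ := PC.spur hT1 h
  set e := d.1 with he
  set q0 := K.org (rv d) with hq0
  let ι : {x : K.E // x ≠ e} × Bool → K.E × Bool := fun x => (x.1.1, x.2)
  have hι : Function.Injective ι := by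
    rintro ⟨⟨x, hx⟩, b⟩ ⟨⟨y, hy⟩, c⟩ hxy
    simp only [ι, Prod.mk.injEq] at hxy
    obtain ⟨rfl, rfl⟩ := hxy
    rfl
  have hιrv : ∀ x, ι (rv x) = rv (ι x) := fun x => rfl
  have hdm : d ∈ K.bd none := by rw [h]; simp
  have hrm : rv d ∈ K.bd none := by rw [h]; simp
  have hed : ∀ x : K.E × Bool, x.1 = e → x = d ∨ x = rv d := by
    intro x hx
    by_cases h2 : x.2 = d.2
    · exact Or.inl (Prod.ext hx h2)
    · refine Or.inr (Prod.ext hx ?_)
      simp only [rv]
      revert h2
      cases x.2 <;> cases d.2 <;> simp
  have hnone : ∀ x : K.E × Bool, x.1 = e → x ∈ K.bd none := by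
    intro x hx
    rcases hed x hx with rfl | rfl <;> assumption
  have hnd := K.bd_nodup none
  have hch := K.chain none
  rw [h] at hch hnd
  have hl : ∀ x ∈ l1 ++ l2, x.1 ≠ e := by
    intro x hx hxd
    have h3 : (d :: rv d :: (l1 ++ l2)).Nodup := by
      refine List.Perm.nodup ?_ hnd
      have h4 : (l1 ++ d :: rv d :: l2).Perm (d :: (l1 ++ rv d :: l2)) := List.perm_middle
      exact h4.trans (List.Perm.cons _ List.perm_middle)
    rw [List.nodup_cons, List.nodup_cons] at h3
    rcases hed x hxd with rfl | rfl
    · exact h3.1 (List.mem_cons_of_mem _ hx)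
    · exact h3.2.1 hx
  let bdK : Option K.F → List (K.E × Bool) := fun f => match f with
    | none => l1 ++ l2
    | some f => K.bd (some f)
  have hbdK : ∀ f, ∀ x ∈ bdK f, x.1 ≠ e := by
    rintro (_ | f)
    · exact hl
    · intro x hx hxd
      have := K.face_unique (hnone x hxd) hx
      exact absurd this (by simp)
  have hmem : ∀ f, ∀ x : K.E × Bool, x.1 ≠ e → (x ∈ bdK f ↔ x ∈ K.bd f) := by
    rintro (_ | f) x hx
    · show x ∈ l1 ++ l2 ↔ _
      rw [h, List.mem_append, List.mem_append, List.mem_cons, List.mem_cons]
      have h1 : x ≠ d := fun hc => hx (by rw [hc])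
      have h2 : x ≠ rv d := fun hc => hx (by rw [hc]; rfl)
      simp [h1, h2]
    · exact Iff.rfl
  have hcount : ∀ f, ∀ x : K.E × Bool, x.1 ≠ e → (bdK f).count x = (K.bd f).count x := by
    rintro (_ | f) x hx
    · show (l1 ++ l2).count x = _
      have h1 : d ≠ x := fun hc => hx (by rw [← hc])
      have h2 : rv d ≠ x := fun hc => hx (by rw [← hc]; rfl)
      rw [h, List.count_append, List.count_append, List.count_cons_of_ne h1,
        List.count_cons_of_ne h2]
    · rfl
  have hchK : ∀ f, (bdK f).IsChain (fun a b => K.org b = K.org (rv a)) := by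
    rintro (_ | f)
    · show (l1 ++ l2).IsChain _
      have e1 : l1 ++ d :: rv d :: l2 = (l1 ++ [d]) ++ (rv d :: l2) := by simp
      rw [e1] at hch
      have h1 : (l1 ++ [d]).IsChain (fun a b => K.org b = K.org (rv a)) := hch.left_of_append
      have h2 : (rv d :: l2).IsChain (fun a b => K.org b = K.org (rv a)) := hch.right_of_append
      rw [List.isChain_append] at h1 ⊢
      refine ⟨h1.1, h2.tail, ?_⟩
      intro x hx y hy
      have h3 := h1.2.2 x hx d (by simp)
      have h4 : K.org y = K.org (rv (rv d)) := by
        rcases l2 with _ | ⟨z, l2⟩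
        · simp at hy
        · rw [List.isChain_cons_cons] at h2
          simp only [List.head?_cons, Option.mem_def, Option.some.injEq] at hy
          rw [← hy]
          exact h2.1
      rw [h4, PC.rv_rv', h3]
    · exact K.chain _
  have hhead2 : ∀ y ∈ l2.head?, K.org y = K.org d := by
    have e1 : l1 ++ d :: rv d :: l2 = (l1 ++ [d]) ++ (rv d :: l2) := by simp
    rw [e1] at hch
    have h2 : (rv d :: l2).IsChain (fun a b => K.org b = K.org (rv a)) := hch.right_of_append
    intro y hy
    rcases l2 with _ | ⟨z, l2⟩
    · simp at hy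
    · rw [List.isChain_cons_cons] at h2
      simp only [List.head?_cons, Option.mem_def, Option.some.injEq] at hy
      rw [← hy, h2.1, PC.rv_rv']
  have hcl : ∀ f, ∀ a ∈ (bdK f).getLast?, ∀ b ∈ (bdK f).head?, K.org b = K.org (rv a) := by
    rintro (_ | f)
    · intro a ha b hb
      have hc := K.closed none
      rw [h] at hc
      change a ∈ (l1 ++ l2).getLast? at ha
      change b ∈ (l1 ++ l2).head? at hb
      rcases List.eq_nil_or_concat l2 with rfl | ⟨m, z, rfl⟩
      · rw [List.append_nil] at ha hb
        rcases l1 with _ | ⟨y, l1⟩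
        · simp at ha
        · have h0 : rv d ∈ (y :: l1 ++ [d, rv d]).getLast? := by
            have h00 : y :: l1 ++ [d, rv d] = (y :: l1 ++ [d]) ++ [rv d] := by simp
            rw [h00, List.getLast?_concat]
            rfl
          have h1 := hc (rv d) h0 b (by simpa using hb)
          rw [PC.rv_rv'] at h1
          rw [h1]
          rw [List.isChain_append] at hch
          exact hch.2.2 a ha d (by simp)
      · have ha' : z = a := by simpa [List.getLast?_append] using ha
        subst ha'
        rcases l1 with _ | ⟨y, l1⟩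
        · have h1 := hc z (by simp [List.getLast?_cons]) d (by simp)
          rw [← h1, hhead2 b (by simpa using hb)]
        · exact hc z (by simp [List.getLast?_append, List.getLast?_cons]) b (by simpa using hb)
    · exact K.closed _
  have hlift : ∀ f, ∃ m' : List ({x : K.E // x ≠ e} × Bool), m'.map ι = bdK f :=
    fun f => PC.lift_list e (bdK f) (hbdK f)
  choose bd' hbd' using hlift
  have hmem' : ∀ f x, x ∈ bd' f ↔ ι x ∈ K.bd f := by
    intro f x
    rw [← hmem f (ι x) x.1.2, ← hbd' f]
    exact (List.mem_map_of_injective hι).symm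
  let K' : SqK σ :=
    { V := {v : K.V // v ≠ q0}
      E := {x : K.E // x ≠ e}
      F := K.F
      org := fun x => ⟨K.org (ι x), horg (ι x) x.1.2⟩
      lab := fun x => K.lab x.1
      bd := bd'
      chain := by
        intro f
        have h1 := hchK f
        rw [← hbd' f, List.isChain_map] at h1
        exact h1.imp (fun a b hab => Subtype.ext hab)
      closed := by
        intro f a ha b hb
        refine Subtype.ext ?_
        refine hcl f (ι a) ?_ (ι b) ?_
        · rw [← hbd' f, List.getLast?_map]
          exact Option.mem_map_of_mem _ ha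
        · rw [← hbd' f, List.head?_map]
          exact Option.mem_map_of_mem _ hb
      once := by
        intro x
        rw [← K.once (ι x)]
        refine Finset.sum_congr rfl fun f _ => ?_
        rw [← hcount f (ι x) x.1.2, ← hbd' f]
        have h2 := List.count_map_of_injective (bd' f) ι hι x
        convert h2.symm
      ne := by
        intro f hf
        have h1 := hbd' (some f)
        rw [hf] at h1
        exact K.ne f h1.symm
      conn := by
        have key : ∀ u v : K.V, Relation.ReflTransGen
            (fun a b : {v : K.V // v ≠ q0} => ∃ x : {x : K.E // x ≠ e} × Bool,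
              (⟨K.org (ι x), horg (ι x) x.1.2⟩ : {v : K.V // v ≠ q0}) = a ∧
              (⟨K.org (ι (rv x)), horg (ι (rv x)) x.1.2⟩ : {v : K.V // v ≠ q0}) = b)
            (if hu : u = q0 then ⟨K.org d, hpq⟩ else ⟨u, hu⟩)
            (if hv : v = q0 then ⟨K.org d, hpq⟩ else ⟨v, hv⟩) := by
          intro u v
          induction K.conn u v with
          | refl => exact Relation.ReflTransGen.refl
          | @tail a b _ h1 ih =>
            obtain ⟨x, h1, h2⟩ := h1
            by_cases hx : x.1 = e
            · have h3 : (if ha : a = q0 then (⟨K.org d, hpq⟩ : {v : K.V // v ≠ q0}) else ⟨a, ha⟩) =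
                  (if hb : b = q0 then ⟨K.org d, hpq⟩ else ⟨b, hb⟩) := by
                rcases hed x hx with rfl | rfl
                · rw [dif_pos h2.symm]
                  rw [dif_neg (by rw [← h1]; exact hpq)]
                  exact Subtype.ext h1.symm
                · rw [PC.rv_rv'] at h2
                  rw [dif_pos h1.symm, dif_neg (by rw [← h2]; exact hpq)]
                  exact Subtype.ext h2
              rw [← h3]
              exact ih
            · have ha : a ≠ q0 := by rw [← h1]; exact horg x hx
              have hb : b ≠ q0 := by rw [← h2]; exact horg (rv x) hx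
              rw [dif_neg ha] at ih
              rw [dif_neg hb]
              exact ih.tail ⟨(⟨x.1, hx⟩, x.2), Subtype.ext h1, Subtype.ext h2⟩
        intro u v
        have := key u.1 v.1
        rw [dif_neg u.2, dif_neg v.2] at this
        exact this
      dconn := by
        intro f g
        have : ∀ f g : Option K.F, (∃ x, x ∈ K.bd f ∧ rv x ∈ K.bd g) →
            f = g ∨ ∃ x, x ∈ bd' f ∧ rv x ∈ bd' g := by
          rintro f g ⟨x, h1, h2⟩
          by_cases hx : x.1 = e
          · left
            rw [← K.face_unique (hnone x hx) h1, ← K.face_unique (hnone (rv x) hx) h2]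
          · right
            exact ⟨(⟨x.1, hx⟩, x.2), (hmem' f _).mpr h1, (hmem' g _).mpr h2⟩
        induction K.dconn f g with
        | refl => exact Relation.ReflTransGen.refl
        | tail _ h1 ih =>
          rcases this _ _ h1 with rfl | h2
          · exact ih
          · exact ih.tail h2
      euler := by
        have h1 := K.euler
        have h2 : Fintype.card {v : K.V // v ≠ q0} + 1 = Fintype.card K.V := by
          rw [Fintype.card_subtype, Finset.filter_ne', Finset.card_erase_add_one (mem_univ _),
            card_univ]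
        have h3 : Fintype.card {x : K.E // x ≠ e} + 1 = Fintype.card K.E := by
          rw [Fintype.card_subtype, Finset.filter_ne', Finset.card_erase_add_one (mem_univ _),
            card_univ]
        omega
      q := K.q
      sq := by
        intro f
        rw [← K.sq f]
        have h1 : K.bd (some f) = (bd' (some f)).map ι := (hbd' (some f)).symm
        rw [h1, List.map_map]
        rfl }
  let P' : K'.GPot :=
    { π := fun v => P.π v.1
      st := fun x => P.st (ι x)
      base := by
        intro x hx
        have h1 : ι x ∈ (l1 ++ l2).head? := by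
          have h2 : l1 ++ l2 = (bd' none).map ι := (hbd' none).symm
          rw [h2, List.head?_map]
          exact Option.mem_map_of_mem _ hx
        have hb := P.base
        rw [h] at hb
        rcases l1 with _ | ⟨y, l1⟩
        · exact (congrArg P.π (hhead2 (ι x) (by simpa using h1))).trans (hb d (by simp))
        · exact hb (ι x) (by simpa using h1) }
  refine ⟨K', P', rfl, ?_, ?_⟩
  · show (bd' none).map (fun x => (K.lab x.1, x.2)) = _
    have h1 : l1 ++ l2 = (bd' none).map ι := (hbd' none).symm
    rw [h1, List.map_map]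
    rfl
  · unfold SqK.chn
    refine Finset.sum_congr rfl fun f _ => ?_
    have h1 : K.bd (some f) = (bd' (some f)).map ι := (hbd' (some f)).symm
    rw [h1, List.head?_map]
    show ∑ x ∈ (bd' (some f)).head?.toFinset, pch σ (P.π (K.org (ι x))) (K.q f) = _
    rcases (bd' (some f)).head? with _ | x
    · rfl
    · simp

end Vale.Agent.P201.Z
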