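import Vale.Agent.P201.Z.D.FoldBase

/-!
P201, part D1 (O4): construction of a smaller complex by deleting one vertex and one edge
(common part of the two folds).
-/

namespace Vale.Agent.P201.Z.Fold

open Finset

section sub

variable {A : Type} {K : PC A}

/-- data for deleting the vertex `v0` and the edge `e0`: new origins `o`, new face lists `B` -/
structure SubData (K : PC A) (v0 : K.V) (e0 : K.E) (o : K.E × Bool → K.V)
    (B : Option K.F → List (K.E × Bool)) : Prop where
  ho : ∀ x : K.E × Bool, x.1 ≠ e0 → o x ≠ v0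
  hB : ∀ f, ∀ x ∈ B f, x.1 ≠ e0
  chain : ∀ f, (B f).IsChain (fun a b => o b = o (rv a))
  closed : ∀ f, ∀ a ∈ (B f).getLast?, ∀ b ∈ (B f).head?, o b = o (rv a)
  once : ∀ x : K.E × Bool, x.1 ≠ e0 → ∑ f, (B f).count x = 1
  ne : ∀ f : K.F, B (some f) ≠ []
  conn : ∀ u v : K.V, u ≠ v0 → v ≠ v0 → Relation.ReflTransGen
    (fun a b => ∃ x : K.E × Bool, x.1 ≠ e0 ∧ o x = a ∧ o (rv x) = b) u v
  dconn : ∀ f g, Relation.ReflTransGen (fun a b => ∃ x, x ∈ B a ∧ rv x ∈ B b) f g

/-- embedding of darts -/
def emb {E : Type} (e0 : E) (x : {e : E // e ≠ e0} × Bool) : E × Bool := (x.1.1, x.2)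

theorem emb_inj {E : Type} (e0 : E) : Function.Injective (emb e0) := by
  rintro ⟨⟨a, ha⟩, b⟩ ⟨⟨a', ha'⟩, b'⟩ h
  simp only [emb, Prod.mk.injEq] at h
  obtain ⟨rfl, rfl⟩ := h
  rfl

/-- restriction of a list of darts -/
def low {E : Type} [DecidableEq E] (e0 : E) (l : List (E × Bool)) :
    List ({e : E // e ≠ e0} × Bool) :=
  l.filterMap (fun x => if h : x.1 ≠ e0 then some (⟨x.1, h⟩, x.2) else none)

theorem map_low {E : Type} [DecidableEq E] (e0 : E) (l : List (E × Bool))
    (h : ∀ x ∈ l, x.1 ≠ e0) : (low e0 l).map (emb e0) = l := by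
  induction l with
  | nil => rfl
  | cons a t ih =>
    have h1 : a.1 ≠ e0 := h a (List.mem_cons_self ..)
    have h2 : low e0 (a :: t) = (⟨a.1, h1⟩, a.2) :: low e0 t := by
      rw [low, List.filterMap_cons, dif_pos h1]
      rfl
    rw [h2, List.map_cons, ih (fun x hx => h x (List.mem_cons_of_mem _ hx))]
    rfl

theorem mem_low {E : Type} [DecidableEq E] (e0 : E) (l : List (E × Bool))
    (h : ∀ x ∈ l, x.1 ≠ e0) (y : {e : E // e ≠ e0} × Bool) : y ∈ low e0 l ↔ emb e0 y ∈ l := by
  constructor
  · intro hy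
    rw [← map_low e0 l h]
    exact List.mem_map_of_mem hy
  · intro hy
    rw [← map_low e0 l h] at hy
    obtain ⟨z, hz, hzy⟩ := List.mem_map.1 hy
    rwa [← emb_inj e0 hzy]

theorem fold_card_ne {X : Type} [Fintype X] [DecidableEq X] (x0 : X) :
    Fintype.card {x : X // x ≠ x0} + 1 = Fintype.card X := by
  have h := Fintype.card_subtype_compl (fun x : X => x = x0)
  have h1 : Fintype.card {x : X // x = x0} = 1 := Fintype.card_unique
  have h2 : 0 < Fintype.card X := Fintype.card_pos_iff.2 ⟨x0⟩
  have h3 : Fintype.card {x : X // x ≠ x0} = Fintype.card X - 1 := by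
    rw [h1] at h
    exact h
  omega

/-- the smaller complex -/
noncomputable def subPC {v0 : K.V} {e0 : K.E} {o : K.E × Bool → K.V}
    {B : Option K.F → List (K.E × Bool)} (D : SubData K v0 e0 o B) : PC A where
  V := {v : K.V // v ≠ v0}
  E := {e : K.E // e ≠ e0}
  F := K.F
  org x := ⟨o (emb e0 x), D.ho _ x.1.2⟩
  lab e := K.lab e.1
  bd f := low e0 (B f)
  chain f := by
    have h := D.chain f
    rw [← map_low e0 (B f) (D.hB f), List.isChain_map] at h
    exact h.imp (fun a b hab => Subtype.ext hab)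
  closed f a ha b hb := by
    have h := D.closed f (emb e0 a) ?_ (emb e0 b) ?_
    · exact Subtype.ext h
    · rw [← map_low e0 (B f) (D.hB f), List.getLast?_map]
      exact Option.mem_map_of_mem _ ha
    · rw [← map_low e0 (B f) (D.hB f), List.head?_map]
      exact Option.mem_map_of_mem _ hb
  once x := by
    rw [← D.once (emb e0 x) x.1.2]
    refine Finset.sum_congr rfl fun f _ => ?_
    conv_rhs => rw [← map_low e0 (B f) (D.hB f)]
    have h := List.count_map_of_injective (low e0 (B f)) (emb e0) (emb_inj e0) x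
    rw [h]
    congr!
  ne f h := by
    apply D.ne f
    rw [← map_low e0 (B (some f)) (D.hB _), h]
    rfl
  conn u v := by
    have key : ∀ b, Relation.ReflTransGen
        (fun a b => ∃ x : K.E × Bool, x.1 ≠ e0 ∧ o x = a ∧ o (rv x) = b) u.1 b → ∀ hb : b ≠ v0,
        Relation.ReflTransGen (fun a b : {v : K.V // v ≠ v0} =>
          ∃ x : {e : K.E // e ≠ e0} × Bool, (⟨o (emb e0 x), D.ho _ x.1.2⟩ : {v : K.V // v ≠ v0}) = a ∧
            (⟨o (emb e0 (rv x)), D.ho _ x.1.2⟩ : {v : K.V // v ≠ v0}) = b) u ⟨b, hb⟩ := by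
      intro b hab
      induction hab with
      | refl => intro hb; exact Relation.ReflTransGen.refl
      | tail _ hst ih =>
        intro hb
        obtain ⟨x, hx, hxa, hxb⟩ := hst
        have ha := D.ho x hx
        rw [hxa] at ha
        refine (ih ha).tail ⟨(⟨x.1, hx⟩, x.2), Subtype.ext ?_, Subtype.ext ?_⟩
        · exact hxa
        · exact hxb
    exact key v.1 (D.conn u.1 v.1 u.2 v.2) v.2
  dconn f g := by
    refine (D.dconn f g).lift id ?_
    rintro a b ⟨x, hxa, hxb⟩
    refine ⟨(⟨x.1, D.hB a x hxa⟩, x.2), ?_, ?_⟩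
    · exact (mem_low _ _ (D.hB a) _).2 hxa
    · exact (mem_low _ _ (D.hB b) _).2 hxb
  euler := by
    have h1 := fold_card_ne v0
    have h2 := fold_card_ne e0
    have h3 := K.euler
    omega

end sub

section sq

variable {p : Pat} {n : ℕ} {σ : Equiv.Perm (Cel p n)}

/-- the smaller complex as a complex of squares with the same chain -/
theorem subSq (K : SqK σ) (P : K.GPot) {v0 : K.V} {e0 : K.E} {o : K.E × Bool → K.V}
    {B : Option K.F → List (K.E × Bool)} (D : SubData K.toPC v0 e0 o B)
    (hlab : ∀ f : K.F, (B (some f)).map (fun x => (K.lab x.1, x.2))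
      = (K.bd (some f)).map (fun x => (K.lab x.1, x.2)))
    (hst : ∀ x : K.E × Bool, x.1 ≠ e0 →
      P.π (o x) * PresentedGroup.mk (rels σ) (K.toPC.lt x) = P.π (o (rv x)))
    (hbase : ∀ x ∈ (B none).head?, P.π (o x) = 1)
    (hhead : ∀ f : K.F, (B (some f)).head?.map (fun x => P.π (o x))
      = (K.bd (some f)).head?.map (fun x => P.π (K.org x))) :
    ∃ (K' : SqK σ) (P' : K'.GPot), Fintype.card K'.F = Fintype.card K.F ∧
      K'.toPC.wd none = (B none).map (fun x => (K.lab x.1, x.2)) ∧
      K'.chn P' univ = K.chn P univ := by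
  let K' : SqK σ :=
    { toPC := subPC D
      q := K.q
      sq := fun f => by
        rw [← K.sq f, ← hlab f]
        conv_rhs => rw [← map_low e0 (B (some f)) (D.hB _), List.map_map]
        rfl }
  let P' : K'.GPot :=
    { π := fun v => P.π v.1
      st := fun d => hst (emb e0 d) d.1.2
      base := fun d hd => by
        refine hbase (emb e0 d) ?_
        rw [← map_low e0 (B none) (D.hB _), List.head?_map]
        exact Option.mem_map_of_mem _ hd }
  refine ⟨K', P', rfl, ?_, ?_⟩
  · show (low e0 (B none)).map _ = _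
    conv_rhs => rw [← map_low e0 (B none) (D.hB _), List.map_map]
    rfl
  · show ∑ f ∈ univ, ∑ d ∈ ((low e0 (B (some f))).head?).toFinset,
      pch σ (P.π (o (emb e0 d))) (K.q f) = ∑ f ∈ univ, _
    refine Finset.sum_congr rfl fun f _ => ?_
    have h := hhead f
    rw [← map_low e0 (B (some f)) (D.hB _), List.head?_map] at h
    cases h1 : (low e0 (B (some f))).head? with
    | none =>
      rw [h1] at h
      cases h2 : (K.bd (some f)).head? with
      | none => simp
      | some y => rw [h2] at h; simp at h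
    | some x =>
      rw [h1] at h
      cases h2 : (K.bd (some f)).head? with
      | none => rw [h2] at h; simp at h
      | some y =>
        rw [h2] at h
        simp only [Option.map_some, Option.some.injEq] at h
        simp [h]

end sq

end Vale.Agent.P201.Z.Fold
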