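import Vale.Agent.P201.Z.PC

/-!
P201, part D6/D7: squares among the faces of a planar complex, and the gluing data (helper300).
`SqF` covers both the disc (`S = K.F`, `φ = some`) and the sphere (`S = Option K.F`, `φ = id`).
-/

namespace Vale.Agent.P201.Z

open Finset

theorem rv_rv {E : Type} (d : E × Bool) : rv (rv d) = d := by
  cases d; simp [rv]

theorem rv_inj {E : Type} {a b : E × Bool} (h : rv a = rv b) : a = b := by
  rw [← rv_rv a, h, rv_rv]

theorem rv_ne {E : Type} (d : E × Bool) : rv d ≠ d := by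
  intro h
  have := congrArg Prod.snd h
  simp [rv] at this

namespace PC

variable {A : Type} (K : PC A)

theorem exists_face (d : K.E × Bool) : ∃ f, d ∈ K.bd f := by
  by_contra h
  push Not at h
  have h1 := K.once d
  rw [Finset.sum_eq_zero] at h1
  · exact absurd h1 (by norm_num)
  · intro f _
    exact List.count_eq_zero_of_not_mem (h f)

theorem face_unique {d : K.E × Bool} {f g : Option K.F} (hf : d ∈ K.bd f) (hg : d ∈ K.bd g) :
    f = g := by
  classical
  by_contra hne
  have h1 := K.once d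
  have h2 : (K.bd f).count d + (K.bd g).count d ≤ ∑ x, (K.bd x).count d := by
    rw [← Finset.sum_pair (f := fun x => (K.bd x).count d) hne]
    exact Finset.sum_le_sum_of_subset (Finset.subset_univ _)
  have h3 : 0 < (K.bd f).count d := List.count_pos_iff.2 hf
  have h4 : 0 < (K.bd g).count d := List.count_pos_iff.2 hg
  omega

theorem nodup (f : Option K.F) : (K.bd f).Nodup := by
  classical
  rw [List.nodup_iff_count_le_one]
  intro d
  have h1 := K.once d
  have h2 : (K.bd f).count d ≤ ∑ x, (K.bd x).count d :=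
    Finset.single_le_sum (f := fun x => (K.bd x).count d) (fun _ _ => Nat.zero_le _)
      (Finset.mem_univ f)
  calc List.count d (K.bd f) ≤ _ := by convert h2
    _ = 1 := by convert h1
    _ ≤ 1 := le_rfl

/-- the next dart on a face -/
theorem exists_next {f : Option K.F} {d : K.E × Bool} (h : d ∈ K.bd f) :
    ∃ b ∈ K.bd f, K.org b = K.org (rv d) := by
  obtain ⟨l1, l2, hl⟩ := List.append_of_mem h
  cases l2 with
  | cons b l2 =>
    refine ⟨b, by rw [hl]; simp, ?_⟩
    have hc := K.chain f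
    rw [hl, List.isChain_append] at hc
    have := hc.2.1
    rw [List.isChain_cons_cons] at this
    exact this.1
  | nil =>
    have hlast : d ∈ (K.bd f).getLast? := by rw [hl]; simp
    cases hb : (K.bd f) with
    | nil => rw [hb] at h; simp at h
    | cons b l =>
      refine ⟨b, by simp, ?_⟩
      exact K.closed f d hlast b (by rw [hb]; simp)

/-- consecutive darts -/
theorem org_next {f : Option K.F} {l1 l2 : List (K.E × Bool)} {a b : K.E × Bool}
    (h : K.bd f = l1 ++ a :: b :: l2) : K.org b = K.org (rv a) := by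
  have hc := K.chain f
  rw [h, List.isChain_append] at hc
  have := hc.2.1
  rw [List.isChain_cons_cons] at this
  exact this.1

end PC

variable {p : Pat} {n : ℕ}

/-- a family of squares among the faces of `K` -/
structure SqF (σ : Equiv.Perm (Cel p n)) (K : PC (Let p n)) where
  S : Type
  [fS : Fintype S]
  [dS : DecidableEq S]
  φ : S → Option K.F
  inj : Function.Injective φ
  ε : S → Port p n
  sq : ∀ s : S, (K.bd (φ s)).map (fun d => (K.lab d.1, d.2)) = relw σ (ε s)

attribute [instance] SqF.fS SqF.dS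

/-- the disc -/
def SqK.disc {σ : Equiv.Perm (Cel p n)} (K : SqK σ) : SqF σ K.toPC where
  S := K.F
  φ := some
  inj := Option.some_injective _
  ε := K.q
  sq := K.sq

theorem mt_mt (σ : Equiv.Perm (Cel p n)) (q : Port p n) : mt σ (mt σ q) = q := by
  obtain ⟨c, b⟩ := q
  cases b <;> simp [mt]

theorem winv_winv {A : Type} (l : List (A × Bool)) : winv (winv l) = l := by
  simp [winv, Function.comp_def]

theorem winv_append {A : Type} (l l' : List (A × Bool)) : winv (l ++ l') = winv l' ++ winv l := by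
  simp [winv]

theorem winv_relw (σ : Equiv.Perm (Cel p n)) (q : Port p n) :
    winv (relw σ q) = relw σ (mt σ q) := by
  unfold relw
  rw [winv_append, winv_winv, mt_mt]

/-- the sphere: the outer face is the square of the port `mt σ q0` -/
noncomputable def SqK.sph {σ : Equiv.Perm (Cel p n)} (K : SqK σ) (q0 : Port p n) (h : K.outw = relw σ q0) :
    SqF σ K.toPC where
  S := Option K.F
  φ := id
  inj := Function.injective_id
  ε := fun f => f.elim (mt σ q0) K.q
  sq := by
    intro s
    cases s with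
    | none =>
      have h1 : winv (K.toPC.wd none) = relw σ q0 := h
      have h2 := congrArg winv h1
      rw [winv_winv, winv_relw] at h2
      exact h2
    | some f => exact K.sq f

theorem relw_eq (σ : Equiv.Perm (Cel p n)) (q : Port p n) :
    relw σ q = (Let.x (row q.1) q.2, true) :: (tw p n (ht q.1) ++ (Let.y (blk q.1), true) ::
      (Let.y (blk (mt σ q).1), false) :: (winv (tw p n (ht (mt σ q).1)) ++
        [(Let.x (row (mt σ q).1) (mt σ q).2, false)])) := by
  simp [relw, half, winv]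

namespace SqF

variable {σ : Equiv.Perm (Cel p n)} {K : PC (Let p n)} (W : SqF σ K)

/-- the decomposition of the boundary of a square -/
structure Cor (s : W.S) where
  sx : K.E × Bool
  sy : K.E × Bool
  ey : K.E × Bool
  ex : K.E × Bool
  T1 : List (K.E × Bool)
  T2 : List (K.E × Bool)
  eq : K.bd (W.φ s) = sx :: (T1 ++ sy :: ey :: (T2 ++ [ex]))
  lsx : (K.lab sx.1, sx.2) = (Let.x (row (W.ε s).1) (W.ε s).2, true)
  lsy : (K.lab sy.1, sy.2) = (Let.y (blk (W.ε s).1), true)
  ley : (K.lab ey.1, ey.2) = (Let.y (blk (mt σ (W.ε s)).1), false)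
  lex : (K.lab ex.1, ex.2) = (Let.x (row (mt σ (W.ε s)).1) (mt σ (W.ε s)).2, false)
  lT1 : T1.map (fun d => (K.lab d.1, d.2)) = tw p n (ht (W.ε s).1)
  lT2 : T2.map (fun d => (K.lab d.1, d.2)) = winv (tw p n (ht (mt σ (W.ε s)).1))

theorem nonempty_cor (s : W.S) : Nonempty (W.Cor s) := by
  have h := W.sq s
  rw [relw_eq, List.map_eq_cons_iff] at h
  obtain ⟨a, l, hl, ha, h⟩ := h
  rw [List.map_eq_append_iff] at h
  obtain ⟨T1, l2, hl2, hT1, h⟩ := h
  rw [List.map_eq_cons_iff] at h
  obtain ⟨b, l3, hl3, hb, h⟩ := h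
  rw [List.map_eq_cons_iff] at h
  obtain ⟨c, l4, hl4, hc, h⟩ := h
  rw [List.map_eq_append_iff] at h
  obtain ⟨T2, l5, hl5, hT2, h⟩ := h
  rw [List.map_eq_singleton_iff] at h
  obtain ⟨d, hd, hd2⟩ := h
  refine ⟨⟨a, b, c, d, T1, T2, ?_, ha, hb, hc, hd2, hT1, hT2⟩⟩
  rw [hl, hl2, hl3, hl4, hl5, hd]

noncomputable def cor (s : W.S) : W.Cor s := Classical.choice (W.nonempty_cor s)

noncomputable def sx (s : W.S) : K.E × Bool := (W.cor s).sx
noncomputable def sy (s : W.S) : K.E × Bool := (W.cor s).sy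
noncomputable def ey (s : W.S) : K.E × Bool := (W.cor s).ey
noncomputable def ex (s : W.S) : K.E × Bool := (W.cor s).ex
noncomputable def T1 (s : W.S) : List (K.E × Bool) := (W.cor s).T1
noncomputable def T2 (s : W.S) : List (K.E × Bool) := (W.cor s).T2

theorem bd_eq (s : W.S) :
    K.bd (W.φ s) = W.sx s :: (W.T1 s ++ W.sy s :: W.ey s :: (W.T2 s ++ [W.ex s])) := (W.cor s).eq

theorem lab_sx (s : W.S) : K.lab (W.sx s).1 = Let.x (row (W.ε s).1) (W.ε s).2 :=
  congrArg Prod.fst (W.cor s).lsx
theorem sx_snd (s : W.S) : (W.sx s).2 = true := congrArg Prod.snd (W.cor s).lsx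
theorem lab_sy (s : W.S) : K.lab (W.sy s).1 = Let.y (blk (W.ε s).1) :=
  congrArg Prod.fst (W.cor s).lsy
theorem sy_snd (s : W.S) : (W.sy s).2 = true := congrArg Prod.snd (W.cor s).lsy
theorem lab_ey (s : W.S) : K.lab (W.ey s).1 = Let.y (blk (mt σ (W.ε s)).1) :=
  congrArg Prod.fst (W.cor s).ley
theorem ey_snd (s : W.S) : (W.ey s).2 = false := congrArg Prod.snd (W.cor s).ley
theorem lab_ex (s : W.S) : K.lab (W.ex s).1 = Let.x (row (mt σ (W.ε s)).1) (mt σ (W.ε s)).2 :=
  congrArg Prod.fst (W.cor s).lex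
theorem ex_snd (s : W.S) : (W.ex s).2 = false := congrArg Prod.snd (W.cor s).lex

theorem lab_T1 (s : W.S) {d : K.E × Bool} (h : d ∈ W.T1 s) : K.lab d.1 = Let.t := by
  have h1 : (K.lab d.1, d.2) ∈ tw p n (ht (W.ε s).1) := by
    rw [← (W.cor s).lT1]; exact List.mem_map.2 ⟨d, h, rfl⟩
  have := List.eq_of_mem_replicate h1
  exact congrArg Prod.fst this

theorem lab_T2 (s : W.S) {d : K.E × Bool} (h : d ∈ W.T2 s) : K.lab d.1 = Let.t := by
  have h1 : (K.lab d.1, d.2) ∈ winv (tw p n (ht (mt σ (W.ε s)).1)) := by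
    rw [← (W.cor s).lT2]; exact List.mem_map.2 ⟨d, h, rfl⟩
  simp only [winv, List.mem_reverse, List.mem_map] at h1
  obtain ⟨a, ha, ha2⟩ := h1
  have := List.eq_of_mem_replicate ha
  rw [this] at ha2
  exact (congrArg Prod.fst ha2).symm

theorem sx_mem (s : W.S) : W.sx s ∈ K.bd (W.φ s) := by rw [W.bd_eq]; simp
theorem sy_mem (s : W.S) : W.sy s ∈ K.bd (W.φ s) := by rw [W.bd_eq]; simp
theorem ey_mem (s : W.S) : W.ey s ∈ K.bd (W.φ s) := by rw [W.bd_eq]; simp
theorem ex_mem (s : W.S) : W.ex s ∈ K.bd (W.φ s) := by rw [W.bd_eq]; simp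

theorem mem_bd (s : W.S) {d : K.E × Bool} (h : d ∈ K.bd (W.φ s)) :
    d = W.sx s ∨ d ∈ W.T1 s ∨ d = W.sy s ∨ d = W.ey s ∨ d ∈ W.T2 s ∨ d = W.ex s := by
  rw [W.bd_eq] at h
  simpa using h

/-- a positive `x`-dart of a square is its start side -/
theorem eq_sx (s : W.S) {d : K.E × Bool} (h : d ∈ K.bd (W.φ s)) (hd : d.2 = true) {i : p.I}
    {c : Bool} (hl : K.lab d.1 = Let.x i c) : d = W.sx s := by
  rcases W.mem_bd s h with rfl | h | rfl | rfl | h | rfl
  · rfl
  · rw [W.lab_T1 s h] at hl; cases hl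
  · rw [W.lab_sy] at hl; cases hl
  · rw [W.lab_ey] at hl; cases hl
  · rw [W.lab_T2 s h] at hl; cases hl
  · rw [W.ex_snd] at hd; cases hd

theorem eq_ex (s : W.S) {d : K.E × Bool} (h : d ∈ K.bd (W.φ s)) (hd : d.2 = false) {i : p.I}
    {c : Bool} (hl : K.lab d.1 = Let.x i c) : d = W.ex s := by
  rcases W.mem_bd s h with rfl | h | rfl | rfl | h | rfl
  · rw [W.sx_snd] at hd; cases hd
  · rw [W.lab_T1 s h] at hl; cases hl
  · rw [W.lab_sy] at hl; cases hl
  · rw [W.lab_ey] at hl; cases hl
  · rw [W.lab_T2 s h] at hl; cases hl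
  · rfl

theorem eq_sy (s : W.S) {d : K.E × Bool} (h : d ∈ K.bd (W.φ s)) (hd : d.2 = true) {j : Blk p n}
    (hl : K.lab d.1 = Let.y j) : d = W.sy s := by
  rcases W.mem_bd s h with rfl | h | rfl | rfl | h | rfl
  · rw [W.lab_sx] at hl; cases hl
  · rw [W.lab_T1 s h] at hl; cases hl
  · rfl
  · rw [W.ey_snd] at hd; cases hd
  · rw [W.lab_T2 s h] at hl; cases hl
  · rw [W.lab_ex] at hl; cases hl

theorem eq_ey (s : W.S) {d : K.E × Bool} (h : d ∈ K.bd (W.φ s)) (hd : d.2 = false) {j : Blk p n}
    (hl : K.lab d.1 = Let.y j) : d = W.ey s := by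
  rcases W.mem_bd s h with rfl | h | rfl | rfl | h | rfl
  · rw [W.lab_sx] at hl; cases hl
  · rw [W.lab_T1 s h] at hl; cases hl
  · rw [W.sy_snd] at hd; cases hd
  · rfl
  · rw [W.lab_T2 s h] at hl; cases hl
  · rw [W.lab_ex] at hl; cases hl

theorem eq_of_mem {s s' : W.S} {d : K.E × Bool} (h : d ∈ K.bd (W.φ s)) (h' : d ∈ K.bd (W.φ s')) :
    s = s' := W.inj (K.face_unique h h')

theorem sx_inj : Function.Injective W.sx := fun s s' h =>
  W.eq_of_mem (W.sx_mem s) (h ▸ W.sx_mem s')
theorem sy_inj : Function.Injective W.sy := fun s s' h =>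
  W.eq_of_mem (W.sy_mem s) (h ▸ W.sy_mem s')
theorem ex_inj : Function.Injective W.ex := fun s s' h =>
  W.eq_of_mem (W.ex_mem s) (h ▸ W.ex_mem s')
theorem ey_inj : Function.Injective W.ey := fun s s' h =>
  W.eq_of_mem (W.ey_mem s) (h ▸ W.ey_mem s')

end SqF

/-- partial injection given by two injective maps -/
noncomputable def glu {S D : Type} (a b : S → D) (ha : Function.Injective a)
    (hb : Function.Injective b) : S ≃. S := by
  classical
  exact
  { toFun := fun s => if h : ∃ s', a s = b s' then some h.choose else none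
    invFun := fun s' => if h : ∃ s, a s = b s' then some h.choose else none
    inv := by
      intro s s'
      constructor
      · intro h
        by_cases h1 : ∃ t, a t = b s'
        · simp only [h1, dite_true] at h
          have h2 := h1.choose_spec
          have h3 : h1.choose = s := by simpa using h
          rw [h3] at h2
          have h4 : ∃ t, a s = b t := ⟨s', h2⟩
          simp only [h4, dite_true]
          have h5 := h4.choose_spec
          have : h4.choose = s' := hb (h5.symm.trans h2)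
          rw [this]
        · simp [h1] at h
      · intro h
        by_cases h1 : ∃ t, a s = b t
        · simp only [h1, dite_true] at h
          have h2 := h1.choose_spec
          have h3 : h1.choose = s' := by simpa using h
          rw [h3] at h2
          have h4 : ∃ t, a t = b s' := ⟨s, h2⟩
          simp only [h4, dite_true]
          have h5 := h4.choose_spec
          have : h4.choose = s := ha (h5.trans h2.symm)
          rw [this]
        · simp [h1] at h }

theorem glu_eq_some {S D : Type} (a b : S → D) (ha : Function.Injective a)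
    (hb : Function.Injective b) (s s' : S) : glu a b ha hb s = some s' ↔ a s = b s' := by
  classical
  show (if h : ∃ s', a s = b s' then some h.choose else none) = some s' ↔ _
  constructor
  · intro h
    by_cases h1 : ∃ t, a s = b t
    · simp only [h1, dite_true] at h
      have h2 := h1.choose_spec
      have h3 : h1.choose = s' := by simpa using h
      rw [h3] at h2; exact h2
    · simp [h1] at h
  · intro h
    have h1 : ∃ t, a s = b t := ⟨s', h⟩
    simp only [h1, dite_true]
    have h2 := h1.choose_spec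
    rw [hb (h2.symm.trans h)]

namespace SqF

variable {σ : Equiv.Perm (Cel p n)} {K : PC (Let p n)} (W : SqF σ K)

/-- the gluing data of a family of squares -/
noncomputable def glue : Glue σ where
  S := W.S
  ε := W.ε
  X := glu (fun s => rv (W.sx s)) W.ex (fun _ _ h => W.sx_inj (rv_inj h)) W.ex_inj
  Y := glu (fun s => rv (W.ey s)) W.sy (fun _ _ h => W.ey_inj (rv_inj h)) W.sy_inj

theorem X_iff (s s' : W.S) : W.glue.X s = some s' ↔ rv (W.sx s) = W.ex s' :=
  glu_eq_some (fun s => rv (W.sx s)) W.ex (fun _ _ h => W.sx_inj (rv_inj h)) W.ex_inj s s'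

theorem Y_iff (s s' : W.S) : W.glue.Y s = some s' ↔ rv (W.ey s) = W.sy s' :=
  glu_eq_some (fun s => rv (W.ey s)) W.sy (fun _ _ h => W.ey_inj (rv_inj h)) W.sy_inj s s'

/-- `X s` is defined as soon as the reverse of `sx s` lies on a square -/
theorem X_of_mem {s s' : W.S} (h : rv (W.sx s) ∈ K.bd (W.φ s')) : W.glue.X s = some s' := by
  rw [X_iff]
  refine W.eq_ex s' h ?_ (W.lab_sx s)
  simp [rv, W.sx_snd]

theorem Y_of_mem {s s' : W.S} (h : rv (W.ey s) ∈ K.bd (W.φ s')) : W.glue.Y s = some s' := by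
  rw [Y_iff]
  refine W.eq_sy s' h ?_ (W.lab_ey s)
  simp [rv, W.ey_snd]

/-- the weak part of `Red` -/
theorem red_weak_y {s s' : W.S} (h : W.glue.Y s = some s') :
    blk (mt σ (W.ε s)).1 = blk (W.ε s').1 := by
  rw [Y_iff] at h
  have h1 := W.lab_ey s
  have h2 := W.lab_sy s'
  rw [← h] at h2
  have h3 : K.lab (rv (W.ey s)).1 = K.lab (W.ey s).1 := rfl
  rw [h3, h1] at h2
  injection h2

theorem red_weak_x {s s' : W.S} (h : W.glue.X s = some s') :
    rc (W.ε s) = rc (mt σ (W.ε s')) := by
  rw [X_iff] at h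
  have h1 := W.lab_sx s
  have h2 := W.lab_ex s'
  rw [← h] at h2
  have h3 : K.lab (rv (W.sx s)).1 = K.lab (W.sx s).1 := rfl
  rw [h3, h1] at h2
  injection h2 with h4 h5
  exact Prod.ext h4 h5

/-! ### corners -/

/-- vertices joined by t-edges -/
def TRel (K : PC (Let p n)) (u v : K.V) : Prop :=
  ∃ d, K.lab d.1 = Let.t ∧ K.org d = u ∧ K.org (rv d) = v

theorem TRel.symm {K : PC (Let p n)} {u v : K.V} (h : TRel K u v) : TRel K v u := by
  obtain ⟨d, hd, h1, h2⟩ := h
  exact ⟨rv d, hd, h2, by rw [rv_rv]; exact h1⟩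

/-- the setoid of t-classes -/
def tset (K : PC (Let p n)) : Setoid K.V := Relation.EqvGen.setoid (TRel K)

/-- t-class of a vertex -/
def cls (K : PC (Let p n)) (v : K.V) : Quotient (tset K) := Quotient.mk (tset K) v

theorem cls_eq_of_t {K : PC (Let p n)} {d : K.E × Bool} (h : K.lab d.1 = Let.t) :
    cls K (K.org d) = cls K (K.org (rv d)) :=
  Quotient.sound (Relation.EqvGen.rel _ _ ⟨d, h, rfl, rfl⟩)

theorem cls_chain {K : PC (Let p n)} : ∀ (T : List (K.E × Bool)) (a b : K.E × Bool),
    (∀ d ∈ T, K.lab d.1 = Let.t) →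
    List.IsChain (fun a b => K.org b = K.org (rv a)) (a :: (T ++ [b])) →
    cls K (K.org (rv a)) = cls K (K.org b)
  | [], a, b, _, h => by
    simp only [List.nil_append, List.isChain_cons_cons] at h
    rw [h.1]
  | c :: T, a, b, hT, h => by
    simp only [List.cons_append, List.isChain_cons_cons] at h
    have h1 := cls_chain T c b (fun d hd => hT d (List.mem_cons_of_mem _ hd))
      (by simpa using h.2)
    rw [← h.1, cls_eq_of_t (hT c (by simp)), h1]

theorem chain_bd (s : W.S) : List.IsChain (fun a b => K.org b = K.org (rv a))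
    (W.sx s :: (W.T1 s ++ W.sy s :: W.ey s :: (W.T2 s ++ [W.ex s]))) := by
  rw [← W.bd_eq]; exact K.chain _

/-- start M-corner: head of the start x-side and tail of the start y-side -/
theorem M_start (s : W.S) : cls K (K.org (rv (W.sx s))) = cls K (K.org (W.sy s)) := by
  have h := W.chain_bd s
  apply cls_chain (W.T1 s) _ _ (fun d hd => W.lab_T1 s hd)
  have h2 : (W.sx s :: (W.T1 s ++ W.sy s :: W.ey s :: (W.T2 s ++ [W.ex s]))) =
      (W.sx s :: (W.T1 s ++ [W.sy s])) ++ (W.ey s :: (W.T2 s ++ [W.ex s])) := by simp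
  rw [h2, List.isChain_append] at h
  exact h.1

/-- end M-corner -/
theorem M_end (s : W.S) : cls K (K.org (rv (W.ey s))) = cls K (K.org (W.ex s)) := by
  have h := W.chain_bd s
  apply cls_chain (W.T2 s) _ _ (fun d hd => W.lab_T2 s hd)
  have h2 : (W.sx s :: (W.T1 s ++ W.sy s :: W.ey s :: (W.T2 s ++ [W.ex s]))) =
      (W.sx s :: (W.T1 s ++ [W.sy s])) ++ (W.ey s :: (W.T2 s ++ [W.ex s])) := by simp
  rw [h2, List.isChain_append] at h
  exact h.2.1

/-- e-corner -/
theorem e_corner (s : W.S) : K.org (W.ey s) = K.org (rv (W.sy s)) :=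
  K.org_next (f := W.φ s) (l1 := W.sx s :: W.T1 s) (l2 := W.T2 s ++ [W.ex s])
    (by rw [W.bd_eq]; simp)

/-- o-corner -/
theorem o_corner (s : W.S) : K.org (W.sx s) = K.org (rv (W.ex s)) := by
  apply K.closed (W.φ s)
  · rw [W.bd_eq]
    have : (W.sx s :: (W.T1 s ++ W.sy s :: W.ey s :: (W.T2 s ++ [W.ex s]))) =
      (W.sx s :: (W.T1 s ++ W.sy s :: W.ey s :: W.T2 s)) ++ [W.ex s] := by simp
    rw [this, List.getLast?_append]
    simp
  · rw [W.bd_eq]; simp

/-- `X` preserves the o-vertex -/
theorem org_X {s s' : W.S} (h : W.glue.X s = some s') : K.org (W.sx s') = K.org (W.sx s) := by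
  rw [X_iff] at h
  rw [W.o_corner s', ← h, rv_rv]

/-- `Y` preserves the e-vertex -/
theorem org_Y {s s' : W.S} (h : W.glue.Y s = some s') : K.org (W.ey s') = K.org (W.ey s) := by
  rw [Y_iff] at h
  rw [W.e_corner s', ← h, rv_rv]

/-- `X` then `Y` preserves the class of the M-corner -/
theorem org_XY {s u v : W.S} (h : W.glue.X s = some u) (h' : W.glue.Y u = some v) :
    cls K (K.org (W.sy v)) = cls K (K.org (W.sy s)) := by
  rw [X_iff] at h
  rw [Y_iff] at h'
  rw [← W.M_start s, h, ← W.M_end u, h']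

end SqF

end Vale.Agent.P201.Z
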