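import Vale.Agent.P201.Z.D.Stm
import Vale.Agent.P201.Z.D.TTree

/-! P201, block D: `StmtTCot` from `StmtT1` (helper731) -/

namespace Vale.Agent.P201.Z

theorem stmtTCot (hT1 : StmtT1) : StmtTCot := by
  intro p n K r
  obtain ⟨T, C, τ, R, h1, h2, h3, -, h5, h6, -⟩ := K.exists_pos hT1 Let.t r
  exact ⟨C, T, R, τ, h2, h1, h3, h6, fun e he => h5 (e, true) he⟩

end Vale.Agent.P201.Z
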