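import Vale.Agent.P201.Z.D.D0

/-!
P201, part D1 (O1)-(O3): a planar complex for an expression.
-/

namespace Vale.Agent.P201.Z

open Finset

/-! ### walks -/

section walk

variable {D V : Type} (s t : D → V)

/-- the list `l` of darts is a walk from `x` to `y` -/
def H5Wk : List D → V → V → Prop
  | [], x, y => x = y
  | d :: l, x, y => s d = x ∧ H5Wk l (t d) y

theorem h5wk_append (l1 l2 : List D) (x y : V) :
    H5Wk s t (l1 ++ l2) x y ↔ ∃ z, H5Wk s t l1 x z ∧ H5Wk s t l2 z y := by
  induction l1 generalizing x with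
  | nil => simp [H5Wk]
  | cons d l ih =>
    simp only [List.cons_append, H5Wk, ih]
    constructor
    · rintro ⟨h, z, h1, h2⟩
      exact ⟨z, ⟨h, h1⟩, h2⟩
    · rintro ⟨z, ⟨h, h1⟩, h2⟩
      exact ⟨h, z, h1, h2⟩

variable {s t}

theorem H5Wk.app {l1 l2 : List D} {x y z : V} (h1 : H5Wk s t l1 x z) (h2 : H5Wk s t l2 z y) :
    H5Wk s t (l1 ++ l2) x y := (h5wk_append s t l1 l2 x y).mpr ⟨z, h1, h2⟩

theorem H5Wk.isChain {l : List D} {x y : V} (h : H5Wk s t l x y) :
    l.IsChain (fun a b => s b = t a) := by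
  induction l generalizing x with
  | nil => exact List.IsChain.nil
  | cons d l ih =>
    obtain ⟨h1, h2⟩ := h
    cases l with
    | nil => exact List.IsChain.singleton d
    | cons b l => exact List.IsChain.cons_cons h2.1 (ih h2)

theorem H5Wk.head {l : List D} {x y : V} (h : H5Wk s t l x y) : ∀ b ∈ l.head?, s b = x := by
  cases l with
  | nil => simp
  | cons d l =>
    intro b hb
    simp only [List.head?_cons, Option.mem_def, Option.some.injEq] at hb
    subst hb
    exact h.1

theorem H5Wk.last {l : List D} {x y : V} (h : H5Wk s t l x y) : ∀ a ∈ l.getLast?, t a = y := by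
  induction l generalizing x with
  | nil => simp
  | cons d l ih =>
    obtain ⟨h1, h2⟩ := h
    cases l with
    | nil =>
      intro a ha
      simp only [List.getLast?_singleton, Option.mem_def, Option.some.injEq] at ha
      subst ha
      exact h2
    | cons b l =>
      intro a ha
      rw [List.getLast?_cons_cons] at ha
      exact ih h2 a ha

theorem H5Wk.closed {l : List D} {x : V} (h : H5Wk s t l x x) :
    ∀ a ∈ l.getLast?, ∀ b ∈ l.head?, s b = t a := fun a ha b hb => by
  rw [h.head b hb, h.last a ha]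

theorem h5wk_of_chain {l : List D} (h : l.IsChain (fun a b => s b = t a))
    (hc : ∀ a ∈ l.getLast?, ∀ b ∈ l.head?, s b = t a) (hne : l ≠ []) : ∃ x, H5Wk s t l x x := by
  have key : ∀ (l : List D) (a : D), (a :: l).IsChain (fun a b => s b = t a) →
      H5Wk s t (a :: l) (s a) (t ((a :: l).getLast (List.cons_ne_nil a l))) := by
    intro l
    induction l with
    | nil => intro a _; exact ⟨rfl, rfl⟩
    | cons b l ih =>
      intro a hl
      rw [List.isChain_cons_cons] at hl
      refine ⟨rfl, ?_⟩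
      have := ih b hl.2
      rw [hl.1] at this
      rw [List.getLast_cons (List.cons_ne_nil b l)]
      exact this
  cases l with
  | nil => exact absurd rfl hne
  | cons a l =>
    refine ⟨s a, ?_⟩
    have h1 := key l a h
    rwa [← hc _ (List.getLast?_eq_some_getLast (List.cons_ne_nil a l)) a rfl] at h1

theorem H5Wk.map {D' V' : Type} {s' t' : D' → V'} (g : D → D') (h : V → V')
    (hs : ∀ d, s' (g d) = h (s d)) (ht : ∀ d, t' (g d) = h (t d)) {l : List D} {x y : V}
    (hl : H5Wk s t l x y) : H5Wk s' t' (l.map g) (h x) (h y) := by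
  induction l generalizing x with
  | nil =>
    have : x = y := hl
    subst this
    rfl
  | cons d l ih =>
    obtain ⟨h1, h2⟩ := hl
    refine ⟨by rw [hs, h1], ?_⟩
    rw [ht]
    exact ih h2

theorem H5Wk.reverse (r : D → D) (hs : ∀ d, s (r d) = t d) (ht : ∀ d, t (r d) = s d) {l : List D}
    {x y : V} (hl : H5Wk s t l x y) : H5Wk s t (l.map r).reverse y x := by
  induction l generalizing x with
  | nil =>
    have : x = y := hl
    subst this
    rfl
  | cons d l ih =>
    obtain ⟨h1, h2⟩ := hl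
    rw [List.map_cons, List.reverse_cons]
    refine (ih h2).app ⟨hs d, ?_⟩
    show t (r d) = x
    rw [ht, h1]

theorem h5wk_ofFn (m : ℕ) (g : Fin m → D) (vt : ℕ → V)
    (h : ∀ i : Fin m, s (g i) = vt i ∧ t (g i) = vt (i + 1)) :
    H5Wk s t (List.ofFn g) (vt 0) (vt m) := by
  induction m generalizing vt with
  | zero => simp [H5Wk]
  | succ m ih =>
    rw [List.ofFn_succ]
    refine ⟨(h 0).1, ?_⟩
    rw [(h 0).2]
    have := ih (fun i => g i.succ) (fun j => vt (j + 1)) fun i => by
      have := h i.succ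
      simpa using this
    simpa using this

end walk

theorem h5once_of {F D : Type} [Fintype F] [BEq D] [LawfulBEq D] (bd : F → List D)
    (h1 : ∀ f, (bd f).Nodup) (h2 : ∀ d, ∃ f, d ∈ bd f)
    (h3 : ∀ d f g, d ∈ bd f → d ∈ bd g → f = g) (d : D) : ∑ f, (bd f).count d = 1 := by
  classical
  obtain ⟨f0, hf0⟩ := h2 d
  rw [Finset.sum_eq_single_of_mem f0 (Finset.mem_univ _)]
  · exact le_antisymm (List.nodup_iff_count_le_one.mp (h1 f0) d) (List.count_pos_iff.mpr hf0)
  · intro g _ hg
    exact List.count_eq_zero.mpr fun h => hg (h3 d g f0 h hf0)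

theorem h5rtg_lift {α β : Type} {r : α → α → Prop} {p : β → β → Prop} (f : α → β)
    (h : ∀ a b, r a b → p (f a) (f b)) {a b : α} (hab : Relation.ReflTransGen r a b) :
    Relation.ReflTransGen p (f a) (f b) := by
  induction hab with
  | refl => exact Relation.ReflTransGen.refl
  | tail _ hbc ih => exact ih.tail (h _ _ hbc)

namespace PC

variable {A : Type} (K : PC A)

/-- source and target -/
abbrev h5W (l : List (K.E × Bool)) (x y : K.V) : Prop :=
  H5Wk K.org (fun d => K.org (rv d)) l x y

/-! ### h5spur -/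

/-- inclusion of the darts -/
def h5upS {E : Type} (d : E × Bool) : Option E × Bool := (some d.1, d.2)

theorem h5upS_inj {E : Type} : Function.Injective (h5upS (E := E)) := by
  rintro ⟨a, b⟩ ⟨c, d⟩ h
  simp only [h5upS, Prod.mk.injEq, Option.some.injEq] at h
  rw [h.1, h.2]

theorem h5upS_rv {E : Type} (d : E × Bool) : h5upS (rv d) = rv (h5upS d) := rfl

theorem h5upS_ne {E : Type} (c : Bool) (d : E × Bool) : h5upS d ≠ (none, c) := by
  simp [h5upS]

/-- origins in the h5spur complex -/
def h5orgS (x : K.V) (b : Bool) : Option K.E × Bool → Option K.V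
  | (some e, c) => some (K.org (e, c))
  | (none, c) => if c = b then some x else none

/-- boundaries in the h5spur complex -/
def h5bdS (l1 l2 : List (K.E × Bool)) (b : Bool) : Option K.F → List (Option K.E × Bool)
  | none => l1.map h5upS ++ ([(none, b), (none, !b)] ++ l2.map h5upS)
  | some f => (K.bd (some f)).map h5upS

theorem h5orgS_upS (x : K.V) (b : Bool) (d : K.E × Bool) : K.h5orgS x b (h5upS d) = some (K.org d) := rfl

theorem h5wkS {x : K.V} {b : Bool} {l : List (K.E × Bool)} {u v : K.V} (h : K.h5W l u v) :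
    H5Wk (K.h5orgS x b) (fun d => K.h5orgS x b (rv d)) (l.map h5upS) (some u) (some v) :=
  H5Wk.map (s := K.org) (t := fun d => K.org (rv d)) h5upS some (fun _ => rfl) (fun _ => rfl) h

theorem h5wkS_none {x u v : K.V} {b : Bool} {l1 l2 : List (K.E × Bool)} (h1 : K.h5W l1 u x)
    (h2 : K.h5W l2 x v) :
    H5Wk (K.h5orgS x b) (fun d => K.h5orgS x b (rv d)) (K.h5bdS l1 l2 b none) (some u) (some v) := by
  refine (K.h5wkS h1).app (H5Wk.app (z := some x) ?_ (K.h5wkS h2))
  refine ⟨?_, ?_, ?_⟩
  · simp [h5orgS]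
  · simp [h5orgS, rv]
  · show K.h5orgS x b (rv (none, !b)) = some x
    simp [h5orgS, rv]

theorem h5bd_wk (f : Option K.F) (h : K.bd f ≠ []) : ∃ x, K.h5W (K.bd f) x x :=
  h5wk_of_chain (K.chain f) (K.closed f) h

theorem h5mem_map_upS {l : List (K.E × Bool)} {d : K.E × Bool} : h5upS d ∈ l.map h5upS ↔ d ∈ l :=
  List.mem_map_of_injective h5upS_inj

theorem h5none_not_mem {l : List (K.E × Bool)} {c : Bool} : (none, c) ∉ l.map h5upS := by
  rw [List.mem_map]
  rintro ⟨d, _, hd⟩
  exact h5upS_ne c d hd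

theorem h5mem_bdS_none (l1 l2 : List (K.E × Bool)) (b c : Bool) (f : Option K.F) :
    (none, c) ∈ K.h5bdS l1 l2 b f ↔ f = none := by
  rcases f with _ | f
  · simp only [iff_true]
    unfold h5bdS
    refine List.mem_append_right _ (List.mem_append_left _ ?_)
    cases b <;> cases c <;> simp
  · simp only [reduceCtorEq, iff_false]
    exact K.h5none_not_mem

theorem h5mem_bdS_up {l1 l2 : List (K.E × Bool)} (hbd : K.bd none = l1 ++ l2) (b : Bool)
    (d : K.E × Bool) (f : Option K.F) : h5upS d ∈ K.h5bdS l1 l2 b f ↔ d ∈ K.bd f := by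
  rcases f with _ | f
  · unfold h5bdS
    rw [hbd, List.mem_append, List.mem_append, List.mem_append, K.h5mem_map_upS, K.h5mem_map_upS]
    have h : h5upS d ∉ [((none : Option K.E), b), (none, !b)] := by simp [h5upS]
    simp only [h, false_or]
  · exact K.h5mem_map_upS

theorem h5bdS_nodup {l1 l2 : List (K.E × Bool)} (hbd : K.bd none = l1 ++ l2) {b : Bool}
    (f : Option K.F) : (K.h5bdS l1 l2 b f).Nodup := by
  rcases f with _ | f
  · have h := K.h5bd_nodup none
    rw [hbd, List.nodup_append] at h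
    unfold h5bdS
    rw [List.nodup_append, List.nodup_append]
    refine ⟨h.1.map h5upS_inj, ⟨?_, h.2.1.map h5upS_inj, ?_⟩, ?_⟩
    · cases b <;> simp
    · intro x hx y hy hxy
      subst hxy
      obtain ⟨d, _, rfl⟩ := List.mem_map.mp hy
      simp [h5upS] at hx
    · intro x hx y hy hxy
      subst hxy
      obtain ⟨d, hd, rfl⟩ := List.mem_map.mp hx
      rw [List.mem_append] at hy
      rcases hy with hy | hy
      · simp [h5upS] at hy
      · exact h.2.2 d hd d (K.h5mem_map_upS.mp hy) rfl
  · exact (K.h5bd_nodup (some f)).map h5upS_inj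

/-- (O2) h5spur -/
def h5spur (l1 l2 : List (K.E × Bool)) (hbd : K.bd none = l1 ++ l2) (b0 x : K.V) (h1 : K.h5W l1 b0 x)
    (h2 : K.h5W l2 x b0) (a : A × Bool) : PC A where
  V := Option K.V
  E := Option K.E
  F := K.F
  org := K.h5orgS x a.2
  lab := fun e => match e with
    | some e => K.lab e
    | none => a.1
  bd := K.h5bdS l1 l2 a.2
  chain := by
    intro f
    rcases f with _ | f
    · exact (K.h5wkS_none h1 h2).isChain
    · obtain ⟨y, hy⟩ := K.h5bd_wk (some f) (K.ne f)
      exact (K.h5wkS hy).isChain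
  closed := by
    intro f
    rcases f with _ | f
    · exact (K.h5wkS_none h1 h2).closed
    · obtain ⟨y, hy⟩ := K.h5bd_wk (some f) (K.ne f)
      exact (K.h5wkS hy).closed
  once := by
    refine @h5once_of (Option K.F) (Option K.E × Bool) _ (_) ?_ _ ?_ ?_ ?_
    · infer_instance
    · exact K.h5bdS_nodup hbd
    · rintro ⟨_ | e, c⟩
      · exact ⟨none, (K.h5mem_bdS_none l1 l2 a.2 c none).mpr rfl⟩
      · obtain ⟨f, hf⟩ := K.h5exists_face (e, c)
        exact ⟨f, (K.h5mem_bdS_up hbd a.2 (e, c) f).mpr hf⟩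
    · rintro ⟨_ | e, c⟩ f g hf hg
      · rw [(K.h5mem_bdS_none l1 l2 a.2 c f).mp hf, (K.h5mem_bdS_none l1 l2 a.2 c g).mp hg]
      · exact K.h5face_unique ((K.h5mem_bdS_up hbd a.2 (e, c) f).mp hf)
          ((K.h5mem_bdS_up hbd a.2 (e, c) g).mp hg)
  ne := by
    intro f h
    exact K.ne f (List.map_eq_nil_iff.mp h)
  conn := by
    have key : ∀ u v : K.V, Relation.ReflTransGen
        (fun a' b' => ∃ d, K.h5orgS x a.2 d = a' ∧ K.h5orgS x a.2 (rv d) = b') (some u) (some v) := by
      intro u v
      refine h5rtg_lift some ?_ (K.conn u v)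
      rintro u v ⟨d, hd1, hd2⟩
      exact ⟨h5upS d, by rw [h5orgS_upS, hd1], by rw [← h5upS_rv, h5orgS_upS, hd2]⟩
    have hx1 : Relation.ReflTransGen
        (fun a' b' => ∃ d, K.h5orgS x a.2 d = a' ∧ K.h5orgS x a.2 (rv d) = b') (some x) none :=
      Relation.ReflTransGen.single ⟨(none, a.2), by simp [h5orgS], by simp [h5orgS, rv]⟩
    have hx2 : Relation.ReflTransGen
        (fun a' b' => ∃ d, K.h5orgS x a.2 d = a' ∧ K.h5orgS x a.2 (rv d) = b') none (some x) :=
      Relation.ReflTransGen.single ⟨(none, !a.2), by simp [h5orgS], by simp [h5orgS, rv]⟩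
    rintro (_ | u) (_ | v)
    · exact Relation.ReflTransGen.refl
    · exact hx2.trans (key x v)
    · exact (key u x).trans hx1
    · exact key u v
  dconn := by
    intro f g
    refine h5rtg_lift id ?_ (K.dconn f g)
    have key : ∀ (d : K.E × Bool) (f : Option K.F), d ∈ K.bd f → h5upS d ∈ K.h5bdS l1 l2 a.2 f := by
      intro d f hd
      rcases f with _ | f
      · rw [hbd, List.mem_append] at hd
        unfold h5bdS
        rcases hd with hd | hd
        · exact List.mem_append_left _ (List.mem_map_of_mem hd)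
        · exact List.mem_append_right _ (List.mem_append_right _ (List.mem_map_of_mem hd))
      · exact List.mem_map_of_mem hd
    rintro f g ⟨d, hd1, hd2⟩
    exact ⟨h5upS d, key _ _ hd1, by rw [← h5upS_rv]; exact key _ _ hd2⟩
  euler := by
    have := K.euler
    simp only [Fintype.card_option]
    omega

end PC

/-! ### square complexes with a marked position -/

variable {p : Pat} {n : ℕ} {σ : Equiv.Perm (Cel p n)}

/-- the letter of a dart -/
def PC.h5lbl {A : Type} (K : PC A) (d : K.E × Bool) : A × Bool := (K.lab d.1, d.2)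

theorem PC.h5lt_eq {A : Type} (K : PC A) (d : K.E × Bool) : K.lt d = val [K.h5lbl d] := rfl

/-- A complex with `k` squares and chain `z`; the outer face is cut at a vertex of label `γ` in two
walks, with words `W1`, `W2`. -/
def h5Pos (σ : Equiv.Perm (Cel p n)) (k : ℕ) (z : Chn σ) (W1 W2 : List (Let p n × Bool))
    (γ : Gp σ) : Prop :=
  ∃ (K : SqK σ) (P : K.GPot) (l1 l2 : List (K.E × Bool)) (b0 x : K.V), K.bd none = l1 ++ l2 ∧
    K.toPC.h5W l1 b0 x ∧ K.toPC.h5W l2 x b0 ∧ l1.map K.toPC.h5lbl = W1 ∧ l2.map K.toPC.h5lbl = W2 ∧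
    P.π b0 = 1 ∧ P.π x = γ ∧ Fintype.card K.F = k ∧ K.chn P univ = z

/-- the point -/
def h5ptPC (A : Type) : PC A where
  V := Unit
  E := Empty
  F := Empty
  org := fun _ => ()
  lab := fun e => e.elim
  bd := fun _ => []
  chain := fun _ => List.IsChain.nil
  closed := by intro f a ha; simp at ha
  once := fun d => d.1.elim
  ne := fun f => f.elim
  conn := fun _ _ => Relation.ReflTransGen.refl
  dconn := by
    intro f g
    have h : ∀ f : Option Empty, f = none := by
      rintro (_ | f)
      · rfl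
      · exact f.elim
    rw [h f, h g]
  euler := by simp

/-- the point -/
def h5ptK (σ : Equiv.Perm (Cel p n)) : SqK σ where
  toPC := h5ptPC _
  q := fun f => Empty.elim f
  sq := fun f => Empty.elim f

theorem h5pos_nil : h5Pos σ 0 0 [] [] 1 := by
  refine ⟨h5ptK σ, ⟨fun _ => 1, fun d => Empty.elim d.1, fun _ _ => rfl⟩, [], [], (), (), rfl, rfl,
    rfl, rfl, rfl, rfl, rfl, ?_, ?_⟩
  · exact Fintype.card_empty
  · exact Finset.sum_of_isEmpty (ι := Empty) _

theorem h5pos_move {k : ℕ} {z : Chn σ} {W1 W2 : List (Let p n × Bool)} {γ : Gp σ}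
    {a : Let p n × Bool} (h : h5Pos σ k z W1 (a :: W2) γ) :
    h5Pos σ k z (W1 ++ [a]) W2 (γ * PresentedGroup.mk (rels σ) (val [a])) := by
  obtain ⟨K, P, l1, l2, b0, x, hbd, h1, h2, hW1, hW2, hb, hx, hk, hz⟩ := h
  cases l2 with
  | nil => simp at hW2
  | cons d l2 =>
    rw [List.map_cons, List.cons.injEq] at hW2
    refine ⟨K, P, l1 ++ [d], l2, b0, K.org (rv d), ?_, ?_, h2.2, ?_, hW2.2, hb, ?_, hk, hz⟩
    · rw [hbd]; simp
    · exact h1.app ⟨h2.1, rfl⟩
    · rw [List.map_append, hW1, List.map_singleton, hW2.1]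
    · rw [← P.st d, h2.1, hx, K.toPC.h5lt_eq, hW2.1]

theorem h5pos_moves {k : ℕ} {z : Chn σ} (U : List (Let p n × Bool)) :
    ∀ {W1 W2 : List (Let p n × Bool)} {γ : Gp σ}, h5Pos σ k z W1 (U ++ W2) γ →
      h5Pos σ k z (W1 ++ U) W2 (γ * PresentedGroup.mk (rels σ) (val U)) := by
  induction U with
  | nil =>
    intro W1 W2 γ h
    have : PresentedGroup.mk (rels σ) (val ([] : List (Let p n × Bool))) = 1 := map_one _
    rw [this, mul_one, List.append_nil]
    exact h
  | cons a U ih =>
    intro W1 W2 γ h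
    have h1 := ih (h5pos_move h)
    rw [List.append_assoc, List.singleton_append, mul_assoc, ← map_mul] at h1
    exact h1

/-- the sum over the head of a list -/
theorem h5sum_head_map {D D' M : Type} [AddCommMonoid M] (g : D → D') (l : List D) (F : D → M)
    (F' : D' → M) (h : ∀ d, F' (g d) = F d) :
    ∑ d ∈ ((l.map g).head?).toFinset, F' d = ∑ d ∈ (l.head?).toFinset, F d := by
  cases l with
  | nil => simp
  | cons a l => simp [h]

section h5spur

variable (K : SqK σ) (P : K.GPot) (l1 l2 : List (K.E × Bool)) (hbd : K.bd none = l1 ++ l2)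
  (b0 x : K.V) (h1 : K.toPC.h5W l1 b0 x) (h2 : K.toPC.h5W l2 x b0) (a : Let p n × Bool)

/-- h5spur -/
def SqK.h5spur : SqK σ where
  toPC := K.toPC.h5spur l1 l2 hbd b0 x h1 h2 a
  q := K.q
  sq := by
    intro f
    rw [← K.sq f]
    exact List.map_map ..

/-- potential of the h5spur -/
def SqK.h5spurPot (hb : P.π b0 = 1) : (K.h5spur l1 l2 hbd b0 x h1 h2 a).GPot where
  π := fun v => match v with
    | some v => P.π v
    | none => P.π x * PresentedGroup.mk (rels σ) (val [a])
  st := by
    rintro ⟨_ | e, c⟩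
    · by_cases hc : c = a.2
      · subst hc
        have e1 : (K.h5spur l1 l2 hbd b0 x h1 h2 a).org (none, a.2) = some x := by
          show K.toPC.h5orgS x a.2 (none, a.2) = some x
          simp [PC.h5orgS]
        have e2 : (K.h5spur l1 l2 hbd b0 x h1 h2 a).org (rv (none, a.2)) = none := by
          show K.toPC.h5orgS x a.2 (rv (none, a.2)) = none
          simp [PC.h5orgS, rv]
        rw [e1, e2]
        rfl
      · have hc' : c = !a.2 := by
          revert hc
          cases c <;> cases a.2 <;> simp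
        subst hc'
        have e1 : (K.h5spur l1 l2 hbd b0 x h1 h2 a).org (none, !a.2) = none := by
          show K.toPC.h5orgS x a.2 (none, !a.2) = none
          simp [PC.h5orgS]
        have e2 : (K.h5spur l1 l2 hbd b0 x h1 h2 a).org (rv (none, !a.2)) = some x := by
          show K.toPC.h5orgS x a.2 (rv (none, !a.2)) = some x
          simp [PC.h5orgS, rv]
        rw [e1, e2]
        have e3 : (K.h5spur l1 l2 hbd b0 x h1 h2 a).lt (none, !a.2) = (val [a])⁻¹ := by
          show FreeGroup.mk [(a.1, !a.2)] = (FreeGroup.mk [a])⁻¹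
          rw [FreeGroup.inv_mk]
          rfl
        rw [e3, map_inv]
        show P.π x * PresentedGroup.mk (rels σ) (val [a]) * (PresentedGroup.mk (rels σ) (val [a]))⁻¹
          = P.π x
        rw [mul_inv_cancel_right]
    · exact P.st (e, c)
  base := by
    intro d hd
    have h3 : (K.h5spur l1 l2 hbd b0 x h1 h2 a).org d = some b0 := (K.toPC.h5wkS_none h1 h2).head d hd
    rw [h3]
    exact hb

end h5spur

/-- letters of the h5spur complex -/
def h5spurL {A : Type} (K : PC A) (a : A × Bool) (d : Option K.E × Bool) : A × Bool :=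
  ((match d.1 with
    | some e => K.lab e
    | none => a.1), d.2)

theorem h5spurL_map {A : Type} (K : PC A) (a : A × Bool) (l : List (K.E × Bool)) :
    (l.map PC.h5upS).map (h5spurL K a) = l.map K.h5lbl := by
  rw [List.map_map]
  rfl

theorem h5pos_spur {k : ℕ} {z : Chn σ} {W1 W2 : List (Let p n × Bool)} {γ : Gp σ}
    (a : Let p n × Bool) (h : h5Pos σ k z W1 W2 γ) :
    h5Pos σ k z (W1 ++ [a]) ((a.1, !a.2) :: W2) (γ * PresentedGroup.mk (rels σ) (val [a])) := by
  obtain ⟨K, P, l1, l2, b0, x, hbd, h1, h2, hW1, hW2, hb, hx, hk, hz⟩ := h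
  refine ⟨K.h5spur l1 l2 hbd b0 x h1 h2 a, K.h5spurPot P l1 l2 hbd b0 x h1 h2 a hb,
    l1.map PC.h5upS ++ [(none, a.2)], (none, !a.2) :: l2.map PC.h5upS, some b0, none, ?_, ?_, ?_, ?_,
    ?_, hb, ?_, hk, ?_⟩
  · exact (List.append_assoc (l1.map PC.h5upS) [(none, a.2)] ((none, !a.2) :: l2.map PC.h5upS)).symm
  · refine (K.toPC.h5wkS h1).app ⟨?_, ?_⟩
    · simp [PC.h5orgS]
    · show K.toPC.h5orgS x a.2 (rv (none, a.2)) = none
      simp [PC.h5orgS, rv]
  · refine ⟨?_, ?_⟩
    · show K.toPC.h5orgS x a.2 (none, !a.2) = none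
      simp [PC.h5orgS]
    · have e2 : K.toPC.h5orgS x a.2 (rv (none, !a.2)) = some x := by
        simp [PC.h5orgS, rv]
      show H5Wk (K.toPC.h5orgS x a.2) (fun d => K.toPC.h5orgS x a.2 (rv d)) (l2.map PC.h5upS)
        (K.toPC.h5orgS x a.2 (rv (none, !a.2))) (some b0)
      rw [e2]
      exact K.toPC.h5wkS h2
  · show (l1.map PC.h5upS ++ [(none, a.2)]).map (h5spurL K.toPC a) = W1 ++ [a]
    rw [List.map_append, h5spurL_map, hW1]
    rfl
  · show ((none, !a.2) :: l2.map PC.h5upS).map (h5spurL K.toPC a) = (a.1, !a.2) :: W2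
    rw [List.map_cons, h5spurL_map, hW2]
    rfl
  · rw [← hx]
    rfl
  · rw [← hz]
    unfold SqK.chn
    refine Finset.sum_congr rfl fun f _ => ?_
    exact h5sum_head_map PC.h5upS (K.bd (some f)) _ _ fun d => rfl

end Vale.Agent.P201.Z
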