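import Vale.Agent.P201.Z.D.VKAsm

/-!
P201, part D1: induction from the point complex, spurs and new faces to `StmtVK0` (helper250).
-/

namespace Vale.Agent.P201.Z

open Finset

private theorem vki_winv_cons {A : Type} (a : A × Bool) (l : List (A × Bool)) :
    winv (a :: l) = winv l ++ [(a.1, !a.2)] := by
  simp [winv]

private theorem vki_spurs (h1 : StmtVK1) {p : Pat} {n : ℕ} (σ : Equiv.Perm (Cel p n)) (k : ℕ)
    (z : Chn σ) : ∀ (l l1 w : List (Let p n × Bool)), Real σ (l1 ++ w) k z →
      Real σ (l1 ++ l ++ (winv l ++ w)) k z := by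
  intro l
  induction l with
  | nil => intro l1 w h; simpa [winv] using h
  | cons a l ih =>
    intro l1 w h
    have h2 := h1 p n σ l1 w a k z h
    have h3 := ih (l1 ++ [a]) ((a.1, !a.2) :: w) (by simpa using h2)
    rw [vki_winv_cons]
    simpa using h3

theorem stmtVK0_of (h0 : ∀ (p : Pat) (n : ℕ) (σ : Equiv.Perm (Cel p n)), Real σ [] 0 0)
    (h1 : StmtVK1) (h2 : StmtVK2) : StmtVK0 := by
  intro p n σ u k z h
  have key : ∃ w, val w = u ∧ Real σ w k z := by
    induction h with
    | nil => exact ⟨[], rfl, h0 p n σ⟩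
    | cons k u z v q _ ih =>
      obtain ⟨w, hw, hr⟩ := ih
      have e1 := vki_spurs h1 σ k z v.toWord [] w (by simpa using hr)
      have e2 := h2 p n σ v.toWord (winv v.toWord ++ w) q k z (by simpa using e1)
      refine ⟨_, ?_, by
        have : val v.toWord = v := FreeGroup.mk_toWord
        rw [this] at e2
        exact e2⟩
      unfold val
      rw [← FreeGroup.mul_mk, ← FreeGroup.mul_mk, ← FreeGroup.mul_mk, FreeGroup.mk_toWord]
      have : FreeGroup.mk (winv v.toWord) = v⁻¹ := by
        have h3 : FreeGroup.mk (winv v.toWord) = (FreeGroup.mk v.toWord)⁻¹ := FreeGroup.inv_mk.symm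
        rw [h3, FreeGroup.mk_toWord]
      rw [this]
      have hw' : FreeGroup.mk w = u := hw
      rw [hw']
      simp [mul_assoc]
  obtain ⟨w, hw, K, P, hk, ho, hz⟩ := key
  exact ⟨K, P, hk, by rw [ho, hw], hz⟩

end Vale.Agent.P201.Z
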