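import Vale.Agent.P201.Z.D.VK0

/-!
P201, part D1 (O3): attaching a face; a planar complex for an expression.
-/

namespace Vale.Agent.P201.Z

open Finset

namespace PC

variable {A : Type} (K : PC A)

/-- inclusion of the darts -/
def h5upC {E : Type} (m : ℕ) (d : E × Bool) : (E ⊕ Fin m) × Bool := (Sum.inl d.1, d.2)

theorem h5upC_inj {E : Type} {m : ℕ} : Function.Injective (h5upC (E := E) m) := by
  rintro ⟨a, b⟩ ⟨c, d⟩ h
  simp only [h5upC, Prod.mk.injEq, Sum.inl.injEq] at h
  rw [h.1, h.2]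

theorem h5upC_ne {E : Type} {m : ℕ} (i : Fin m) (c : Bool) (d : E × Bool) :
    h5upC m d ≠ (Sum.inr i, c) := by
  simp [h5upC]

/-- vertices of the cycle -/
def h5vtC {V : Type} (x : V) (m j : ℕ) : V ⊕ Fin (m - 1) :=
  if h : 0 < j ∧ j < m then Sum.inr ⟨j - 1, by omega⟩ else Sum.inl x

theorem h5vtC_zero {V : Type} (x : V) (m : ℕ) : h5vtC x m 0 = Sum.inl x := by
  simp [h5vtC]

theorem h5vtC_self {V : Type} (x : V) (m : ℕ) : h5vtC x m m = Sum.inl x := by
  simp [h5vtC]

theorem h5vtC_succ {V : Type} (x : V) (m : ℕ) (i : Fin (m - 1)) : h5vtC x m (i + 1) = Sum.inr i := by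
  have h : 0 < (i : ℕ) + 1 ∧ (i : ℕ) + 1 < m := by omega
  unfold h5vtC
  rw [dif_pos h]
  rfl

variable {m : ℕ} (w : Fin m → A × Bool)

/-- origins -/
def h5orgC (x : K.V) : (K.E ⊕ Fin m) × Bool → K.V ⊕ Fin (m - 1)
  | (Sum.inl e, c) => Sum.inl (K.org (e, c))
  | (Sum.inr i, c) => if c = (w i).2 then h5vtC x m i else h5vtC x m (i + 1)

/-- the new darts -/
def h5fwd {E : Type} (i : Fin m) : (E ⊕ Fin m) × Bool := (Sum.inr i, (w i).2)

/-- the new cycle -/
def h5cycL {E : Type} : List ((E ⊕ Fin m) × Bool) := List.ofFn (h5fwd (E := E) w)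

/-- boundaries -/
def h5bdC (l1 l2 : List (K.E × Bool)) : Option (Option K.F) → List ((K.E ⊕ Fin m) × Bool)
  | none => l1.map (h5upC m) ++ (((h5cycL w).map rv).reverse ++ l2.map (h5upC m))
  | some none => h5cycL w
  | some (some f) => (K.bd (some f)).map (h5upC m)

theorem h5wkC {x : K.V} {l : List (K.E × Bool)} {u v : K.V} (h : K.h5W l u v) :
    H5Wk (K.h5orgC w x) (fun d => K.h5orgC w x (rv d)) (l.map (h5upC m)) (Sum.inl u) (Sum.inl v) :=
  H5Wk.map (s := K.org) (t := fun d => K.org (rv d)) (h5upC m) Sum.inl (fun _ => rfl) (fun _ => rfl) h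

theorem h5orgC_fwd (x : K.V) (i : Fin m) : K.h5orgC w x (h5fwd w i) = h5vtC x m i := by
  simp [h5orgC, h5fwd]

theorem h5orgC_rv_fwd (x : K.V) (i : Fin m) : K.h5orgC w x (rv (h5fwd w i)) = h5vtC x m (i + 1) := by
  simp [h5orgC, h5fwd, rv]

theorem h5wk_cycL (x : K.V) : H5Wk (K.h5orgC w x) (fun d => K.h5orgC w x (rv d)) (h5cycL w) (Sum.inl x)
    (Sum.inl x) := by
  have h := h5wk_ofFn (s := K.h5orgC w x) (t := fun d => K.h5orgC w x (rv d)) m (h5fwd w) (h5vtC x m)
    fun i => ⟨K.h5orgC_fwd w x i, K.h5orgC_rv_fwd w x i⟩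
  rwa [h5vtC_zero, h5vtC_self] at h

theorem h5wk_cycL_rev (x : K.V) : H5Wk (K.h5orgC w x) (fun d => K.h5orgC w x (rv d))
    ((h5cycL w).map rv).reverse (Sum.inl x) (Sum.inl x) :=
  (K.h5wk_cycL w x).reverse rv (fun _ => rfl) (fun d => by rw [h5rv_rv])

theorem h5wkC_none {x u v : K.V} {l1 l2 : List (K.E × Bool)} (h1 : K.h5W l1 u x)
    (h2 : K.h5W l2 x v) :
    H5Wk (K.h5orgC w x) (fun d => K.h5orgC w x (rv d)) (K.h5bdC w l1 l2 none) (Sum.inl u) (Sum.inl v) :=
  (K.h5wkC w h1).app ((K.h5wk_cycL_rev w x).app (K.h5wkC w h2))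

theorem h5mem_map_upC {l : List (K.E × Bool)} {d : K.E × Bool} :
    h5upC m d ∈ l.map (h5upC m) ↔ d ∈ l :=
  List.mem_map_of_injective h5upC_inj

theorem h5inr_not_mem {l : List (K.E × Bool)} {i : Fin m} {c : Bool} :
    (Sum.inr i, c) ∉ l.map (h5upC m) := by
  rw [List.mem_map]
  rintro ⟨d, _, hd⟩
  exact h5upC_ne i c d hd

theorem h5mem_cycL {E : Type} (i : Fin m) (c : Bool) :
    ((Sum.inr i, c) : (E ⊕ Fin m) × Bool) ∈ h5cycL w ↔ c = (w i).2 := by
  unfold h5cycL
  rw [List.mem_ofFn]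
  constructor
  · rintro ⟨j, hj⟩
    simp only [h5fwd, Prod.mk.injEq, Sum.inr.injEq] at hj
    rw [← hj.2, hj.1]
  · intro h
    exact ⟨i, by rw [h]; rfl⟩

theorem h5mem_cycL_rev {E : Type} (i : Fin m) (c : Bool) :
    ((Sum.inr i, c) : (E ⊕ Fin m) × Bool) ∈ ((h5cycL w).map rv).reverse ↔ c ≠ (w i).2 := by
  rw [List.mem_reverse, List.mem_map]
  constructor
  · rintro ⟨⟨j, b⟩, hj, hr⟩
    simp only [rv, Prod.mk.injEq] at hr
    obtain ⟨hr1, hr2⟩ := hr
    subst hr1
    rw [h5mem_cycL] at hj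
    rw [← hr2, hj]
    cases (w i).2 <;> simp
  · intro h
    refine ⟨(Sum.inr i, !c), (h5mem_cycL w i _).mpr ?_, by simp [rv]⟩
    revert h
    cases c <;> cases (w i).2 <;> simp

theorem h5inl_not_mem_cycL {E : Type} (d : E × Bool) : h5upC m d ∉ h5cycL w := by
  unfold h5cycL
  rw [List.mem_ofFn]
  rintro ⟨j, hj⟩
  exact h5upC_ne j _ d hj.symm

theorem h5inl_not_mem_cycL_rev {E : Type} (d : E × Bool) : h5upC m d ∉ ((h5cycL w).map rv).reverse := by
  rw [List.mem_reverse, List.mem_map]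
  rintro ⟨d', hd', hr⟩
  have : d' = h5upC m (rv d) := by
    rw [← h5rv_rv d', hr]
    rfl
  rw [this] at hd'
  exact h5inl_not_mem_cycL w _ hd'

/-- inclusion of the faces -/
def h5upF {F : Type} : Option F → Option (Option F)
  | none => none
  | some f => some (some f)

theorem h5mem_bdC_up {l1 l2 : List (K.E × Bool)} (hbd : K.bd none = l1 ++ l2) (d : K.E × Bool)
    (f : Option (Option K.F)) : h5upC m d ∈ K.h5bdC w l1 l2 f ↔ ∃ g, f = h5upF g ∧ d ∈ K.bd g := by
  rcases f with _ | _ | f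
  · unfold h5bdC
    rw [List.mem_append, List.mem_append, K.h5mem_map_upC, K.h5mem_map_upC]
    have h := h5inl_not_mem_cycL_rev w d
    simp only [h, false_or]
    constructor
    · intro h
      exact ⟨none, rfl, by rw [hbd, List.mem_append]; exact h⟩
    · rintro ⟨g, hg, h⟩
      rcases g with _ | g
      · rw [hbd, List.mem_append] at h
        exact h
      · simp [h5upF] at hg
  · constructor
    · intro h
      exact absurd h (h5inl_not_mem_cycL w d)
    · rintro ⟨g, hg, h⟩
      rcases g with _ | g <;> simp [h5upF] at hg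
  · constructor
    · intro h
      exact ⟨some f, rfl, K.h5mem_map_upC.mp h⟩
    · rintro ⟨g, hg, h⟩
      rcases g with _ | g
      · simp [h5upF] at hg
      · simp only [h5upF, Option.some.injEq] at hg
        subst hg
        exact K.h5mem_map_upC.mpr h

theorem h5mem_bdC_inr {l1 l2 : List (K.E × Bool)} (i : Fin m) (c : Bool)
    (f : Option (Option K.F)) : (Sum.inr i, c) ∈ K.h5bdC w l1 l2 f ↔
      (c = (w i).2 ∧ f = some none) ∨ (c ≠ (w i).2 ∧ f = none) := by
  rcases f with _ | _ | f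
  · unfold h5bdC
    rw [List.mem_append, List.mem_append, h5mem_cycL_rev]
    have h1 : (Sum.inr i, c) ∉ l1.map (h5upC m) := K.h5inr_not_mem
    have h2 : (Sum.inr i, c) ∉ l2.map (h5upC m) := K.h5inr_not_mem
    simp [h1, h2]
  · unfold h5bdC
    rw [h5mem_cycL]
    simp
  · have h1 : (Sum.inr i, c) ∉ (K.bd (some f)).map (h5upC m) := K.h5inr_not_mem
    unfold h5bdC
    simp [h1]

theorem h5cycL_nodup {E : Type} : (h5cycL (E := E) w).Nodup := by
  unfold h5cycL
  rw [List.nodup_ofFn]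
  intro i j hij
  simp only [h5fwd, Prod.mk.injEq, Sum.inr.injEq] at hij
  exact hij.1

theorem h5rv_inj {E : Type} : Function.Injective (rv (E := E)) := fun a b h => by
  rw [← h5rv_rv a, h, h5rv_rv]

theorem h5bdC_nodup {l1 l2 : List (K.E × Bool)} (hbd : K.bd none = l1 ++ l2)
    (f : Option (Option K.F)) : (K.h5bdC w l1 l2 f).Nodup := by
  rcases f with _ | _ | f
  · have h := K.h5bd_nodup none
    rw [hbd, List.nodup_append] at h
    unfold h5bdC
    rw [List.nodup_append, List.nodup_append]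
    refine ⟨h.1.map h5upC_inj, ⟨?_, h.2.1.map h5upC_inj, ?_⟩, ?_⟩
    · rw [List.nodup_reverse]
      exact (h5cycL_nodup w).map h5rv_inj
    · intro x hx y hy hxy
      subst hxy
      obtain ⟨d, _, rfl⟩ := List.mem_map.mp hy
      exact h5inl_not_mem_cycL_rev w d hx
    · intro x hx y hy hxy
      subst hxy
      obtain ⟨d, hd, rfl⟩ := List.mem_map.mp hx
      rw [List.mem_append] at hy
      rcases hy with hy | hy
      · exact h5inl_not_mem_cycL_rev w d hy
      · exact h.2.2 d hd d (K.h5mem_map_upC.mp hy) rfl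
  · exact h5cycL_nodup w
  · exact (K.h5bd_nodup (some f)).map h5upC_inj

/-- (O3) attach a face -/
def h5att (l1 l2 : List (K.E × Bool)) (hbd : K.bd none = l1 ++ l2) (b0 x : K.V) (h1 : K.h5W l1 b0 x)
    (h2 : K.h5W l2 x b0) (hm : 0 < m) : PC A where
  V := K.V ⊕ Fin (m - 1)
  E := K.E ⊕ Fin m
  F := Option K.F
  org := K.h5orgC w x
  lab := Sum.elim K.lab fun i => (w i).1
  bd := K.h5bdC w l1 l2
  chain := by
    intro f
    rcases f with _ | _ | f
    · exact (K.h5wkC_none w h1 h2).isChain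
    · exact (K.h5wk_cycL w x).isChain
    · obtain ⟨y, hy⟩ := K.h5bd_wk (some f) (K.ne f)
      exact (K.h5wkC w hy).isChain
  closed := by
    intro f
    rcases f with _ | _ | f
    · exact (K.h5wkC_none w h1 h2).closed
    · exact (K.h5wk_cycL w x).closed
    · obtain ⟨y, hy⟩ := K.h5bd_wk (some f) (K.ne f)
      exact (K.h5wkC w hy).closed
  once := by
    refine @h5once_of (Option (Option K.F)) ((K.E ⊕ Fin m) × Bool) _ (_) ?_ _ ?_ ?_ ?_
    · infer_instance
    · exact K.h5bdC_nodup w hbd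
    · rintro ⟨e | i, c⟩
      · obtain ⟨f, hf⟩ := K.h5exists_face (e, c)
        exact ⟨h5upF f, (K.h5mem_bdC_up w hbd (e, c) _).mpr ⟨f, rfl, hf⟩⟩
      · by_cases h : c = (w i).2
        · exact ⟨some none, (K.h5mem_bdC_inr w i c _).mpr (Or.inl ⟨h, rfl⟩)⟩
        · exact ⟨none, (K.h5mem_bdC_inr w i c _).mpr (Or.inr ⟨h, rfl⟩)⟩
    · rintro ⟨e | i, c⟩ f g hf hg
      · obtain ⟨f', rfl, hf'⟩ := (K.h5mem_bdC_up w hbd (e, c) f).mp hf
        obtain ⟨g', rfl, hg'⟩ := (K.h5mem_bdC_up w hbd (e, c) g).mp hg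
        rw [K.h5face_unique hf' hg']
      · rcases (K.h5mem_bdC_inr w i c f).mp hf with ⟨ha, rfl⟩ | ⟨ha, rfl⟩ <;>
          rcases (K.h5mem_bdC_inr w i c g).mp hg with ⟨hb, rfl⟩ | ⟨hb, rfl⟩
        · rfl
        · exact absurd ha hb
        · exact absurd hb ha
        · rfl
  ne := by
    intro f h
    rcases f with _ | f
    · have h2 : (h5fwd w ⟨0, hm⟩ : (K.E ⊕ Fin m) × Bool) ∈ K.h5bdC w l1 l2 (some none) :=
        (h5mem_cycL w ⟨0, hm⟩ _).mpr rfl
      rw [h] at h2
      exact absurd h2 List.not_mem_nil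
    · exact K.ne f (List.map_eq_nil_iff.mp h)
  conn := by
    have key : ∀ u v : K.V, Relation.ReflTransGen
        (fun a' b' => ∃ d, K.h5orgC w x d = a' ∧ K.h5orgC w x (rv d) = b') (Sum.inl u) (Sum.inl v) := by
      intro u v
      refine h5rtg_lift Sum.inl ?_ (K.conn u v)
      rintro u v ⟨d, hd1, hd2⟩
      exact ⟨h5upC m d, congrArg Sum.inl hd1, congrArg Sum.inl hd2⟩
    have hvt : ∀ j, j ≤ m → Relation.ReflTransGen
        (fun a' b' => ∃ d, K.h5orgC w x d = a' ∧ K.h5orgC w x (rv d) = b') (Sum.inl x) (h5vtC x m j) := by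
      intro j
      induction j with
      | zero =>
        intro _
        rw [h5vtC_zero]
      | succ j ih =>
        intro hj
        refine (ih (by omega)).tail ⟨h5fwd w ⟨j, by omega⟩, ?_, ?_⟩
        · exact K.h5orgC_fwd w x ⟨j, by omega⟩
        · exact K.h5orgC_rv_fwd w x ⟨j, by omega⟩
    have hsym : ∀ u v, Relation.ReflTransGen
        (fun a' b' => ∃ d, K.h5orgC w x d = a' ∧ K.h5orgC w x (rv d) = b') u v → Relation.ReflTransGen
        (fun a' b' => ∃ d, K.h5orgC w x d = a' ∧ K.h5orgC w x (rv d) = b') v u := by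
      intro u v h
      induction h with
      | refl => exact Relation.ReflTransGen.refl
      | tail _ hbc ih =>
        obtain ⟨d, hd1, hd2⟩ := hbc
        exact (Relation.ReflTransGen.single ⟨rv d, hd2, by rw [h5rv_rv]; exact hd1⟩).trans ih
    have hall : ∀ u : K.V ⊕ Fin (m - 1), Relation.ReflTransGen
        (fun a' b' => ∃ d, K.h5orgC w x d = a' ∧ K.h5orgC w x (rv d) = b') (Sum.inl x) u := by
      rintro (u | i)
      · exact key x u
      · rw [← h5vtC_succ x m i]
        exact hvt _ (by omega)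
    exact fun u v => (hsym _ _ (hall u)).trans (hall v)
  dconn := by
    have key : ∀ f g : Option K.F, Relation.ReflTransGen
        (fun a' b' => ∃ d, d ∈ K.h5bdC w l1 l2 a' ∧ rv d ∈ K.h5bdC w l1 l2 b') (h5upF f) (h5upF g) := by
      intro f g
      refine h5rtg_lift h5upF ?_ (K.dconn f g)
      rintro f g ⟨d, hd1, hd2⟩
      exact ⟨h5upC m d, (K.h5mem_bdC_up w hbd d _).mpr ⟨f, rfl, hd1⟩,
        (K.h5mem_bdC_up w hbd (rv d) _).mpr ⟨g, rfl, hd2⟩⟩
    have hn1 : Relation.ReflTransGen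
        (fun a' b' => ∃ d, d ∈ K.h5bdC w l1 l2 a' ∧ rv d ∈ K.h5bdC w l1 l2 b') (some none) none := by
      refine Relation.ReflTransGen.single ⟨h5fwd w ⟨0, hm⟩, ?_, ?_⟩
      · exact (K.h5mem_bdC_inr w ⟨0, hm⟩ _ _).mpr (Or.inl ⟨rfl, rfl⟩)
      · refine (K.h5mem_bdC_inr w ⟨0, hm⟩ _ _).mpr (Or.inr ⟨?_, rfl⟩)
        simp [h5fwd]
    have hn2 : Relation.ReflTransGen
        (fun a' b' => ∃ d, d ∈ K.h5bdC w l1 l2 a' ∧ rv d ∈ K.h5bdC w l1 l2 b') none (some none) := by
      refine Relation.ReflTransGen.single ⟨rv (h5fwd w ⟨0, hm⟩), ?_, ?_⟩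
      · refine (K.h5mem_bdC_inr w ⟨0, hm⟩ _ _).mpr (Or.inr ⟨?_, rfl⟩)
        simp [h5fwd]
      · rw [h5rv_rv]
        exact (K.h5mem_bdC_inr w ⟨0, hm⟩ _ _).mpr (Or.inl ⟨rfl, rfl⟩)
    have h1 : ∀ f : Option (Option K.F), Relation.ReflTransGen
        (fun a' b' => ∃ d, d ∈ K.h5bdC w l1 l2 a' ∧ rv d ∈ K.h5bdC w l1 l2 b') f none := by
      rintro (_ | _ | f)
      · exact Relation.ReflTransGen.refl
      · exact hn1
      · exact key (some f) none
    have h2 : ∀ f : Option (Option K.F), Relation.ReflTransGen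
        (fun a' b' => ∃ d, d ∈ K.h5bdC w l1 l2 a' ∧ rv d ∈ K.h5bdC w l1 l2 b') none f := by
      rintro (_ | _ | f)
      · exact Relation.ReflTransGen.refl
      · exact hn2
      · exact key none (some f)
    exact fun f g => (h1 f).trans (h2 g)
  euler := by
    have := K.euler
    simp only [Fintype.card_option, Fintype.card_sum, Fintype.card_fin]
    omega

end PC

variable {p : Pat} {n : ℕ} {σ : Equiv.Perm (Cel p n)}

theorem h5mk_relw (σ : Equiv.Perm (Cel p n)) (q : Port p n) :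
    PresentedGroup.mk (rels σ) (val (relw σ q)) = 1 :=
  (QuotientGroup.eq_one_iff _).mpr (Subgroup.subset_normalClosure ⟨q, rfl⟩)

theorem h5val_append {A : Type} (l l' : List (A × Bool)) : val (l ++ l') = val l * val l' := rfl

theorem h5val_winv {A : Type} (l : List (A × Bool)) : val (winv l) = (val l)⁻¹ := by
  unfold val winv
  rw [FreeGroup.inv_mk]
  rfl

theorem h5relw_length_pos (σ : Equiv.Perm (Cel p n)) (q : Port p n) : 0 < (relw σ q).length := by
  unfold relw half
  simp

section h5att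

variable (K : SqK σ) (P : K.GPot) (l1 l2 : List (K.E × Bool)) (hbd : K.bd none = l1 ++ l2)
  (b0 x : K.V) (h1 : K.toPC.h5W l1 b0 x) (h2 : K.toPC.h5W l2 x b0) (q : Port p n)

/-- the letters of the new face -/
noncomputable def h5attW (σ : Equiv.Perm (Cel p n)) (q : Port p n) (i : Fin (relw σ q).length) :
    Let p n × Bool := (relw σ q)[(i : ℕ)]

/-- attach a square -/
noncomputable def SqK.h5att : SqK σ where
  toPC := K.toPC.h5att (h5attW σ q) l1 l2 hbd b0 x h1 h2 (h5relw_length_pos σ q)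
  q := fun f => match f with
    | none => q
    | some f => K.q f
  sq := by
    intro f
    rcases f with _ | f
    · show (PC.h5cycL (h5attW σ q)).map (fun d : (K.E ⊕ Fin (relw σ q).length) × Bool =>
        (Sum.elim K.lab (fun i => (h5attW σ q i).1) d.1, d.2)) = relw σ q
      unfold PC.h5cycL
      rw [List.map_ofFn]
      exact List.ofFn_getElem
    · rw [← K.sq f]
      exact List.map_map ..

/-- potential on the vertices of the cycle -/
noncomputable def h5attPi (P : K.GPot) (x : K.V) (q : Port p n) :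
    K.V ⊕ Fin ((relw σ q).length - 1) → Gp σ
  | Sum.inl v => P.π v
  | Sum.inr j => P.π x * PresentedGroup.mk (rels σ) (val ((relw σ q).take (j + 1)))

theorem h5attPi_vtC (j : ℕ) (hj : j ≤ (relw σ q).length) :
    h5attPi K P x q (PC.h5vtC x _ j) =
      P.π x * PresentedGroup.mk (rels σ) (val ((relw σ q).take j)) := by
  unfold PC.h5vtC
  split_ifs with h
  · show P.π x * PresentedGroup.mk (rels σ) (val ((relw σ q).take (j - 1 + 1))) = _
    rw [Nat.sub_add_cancel h.1]
  · show P.π x = _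
    rcases Nat.eq_zero_or_pos j with h0 | h0
    · subst h0
      rw [List.take_zero]
      have : PresentedGroup.mk (rels σ) (val ([] : List (Let p n × Bool))) = 1 := map_one _
      rw [this, mul_one]
    · have hj' : j = (relw σ q).length := by omega
      rw [hj', List.take_length, h5mk_relw, mul_one]

theorem h5attPi_step (i : Fin (relw σ q).length) :
    h5attPi K P x q (PC.h5vtC x _ i) * PresentedGroup.mk (rels σ) (val [h5attW σ q i]) =
      h5attPi K P x q (PC.h5vtC x _ (i + 1)) := by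
  rw [h5attPi_vtC K P x q i i.2.le, h5attPi_vtC K P x q (i + 1) i.2, mul_assoc, ← map_mul,
    ← h5val_append]
  unfold h5attW
  rw [List.take_append_getElem i.2]

/-- potential of the new complex -/
noncomputable def SqK.h5attPot (hb : P.π b0 = 1) : (K.h5att l1 l2 hbd b0 x h1 h2 q).GPot where
  π := h5attPi K P x q
  st := by
    rintro ⟨e | i, c⟩
    · exact P.st (e, c)
    · by_cases hc : c = (h5attW σ q i).2
      · have e1 : (K.h5att l1 l2 hbd b0 x h1 h2 q).org (Sum.inr i, c) = PC.h5vtC x _ i := by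
          show K.toPC.h5orgC (h5attW σ q) x (Sum.inr i, c) = _
          simp [PC.h5orgC, hc]
        have e2 : (K.h5att l1 l2 hbd b0 x h1 h2 q).org (rv (Sum.inr i, c)) = PC.h5vtC x _ (i + 1) := by
          show K.toPC.h5orgC (h5attW σ q) x (rv (Sum.inr i, c)) = _
          simp [PC.h5orgC, rv, hc]
        have e3 : (K.h5att l1 l2 hbd b0 x h1 h2 q).lt (Sum.inr i, c) = val [h5attW σ q i] := by
          rw [hc]
          rfl
        rw [e1, e2, e3]
        exact h5attPi_step K P x q i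
      · have hc' : (!c) = (h5attW σ q i).2 := by
          revert hc
          cases c <;> cases (h5attW σ q i).2 <;> simp
        have e1 : (K.h5att l1 l2 hbd b0 x h1 h2 q).org (Sum.inr i, c) = PC.h5vtC x _ (i + 1) := by
          show K.toPC.h5orgC (h5attW σ q) x (Sum.inr i, c) = _
          simp [PC.h5orgC, hc]
        have e2 : (K.h5att l1 l2 hbd b0 x h1 h2 q).org (rv (Sum.inr i, c)) = PC.h5vtC x _ i := by
          show K.toPC.h5orgC (h5attW σ q) x (rv (Sum.inr i, c)) = _
          simp [PC.h5orgC, rv, hc']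
        have e3 : (K.h5att l1 l2 hbd b0 x h1 h2 q).lt (Sum.inr i, c) = (val [h5attW σ q i])⁻¹ := by
          show FreeGroup.mk [((h5attW σ q i).1, c)] = (FreeGroup.mk [h5attW σ q i])⁻¹
          rw [FreeGroup.inv_mk]
          show _ = FreeGroup.mk [((h5attW σ q i).1, !(h5attW σ q i).2)]
          rw [← hc', Bool.not_not]
        rw [e1, e2, e3, map_inv, ← h5attPi_step K P x q i, mul_inv_cancel_right]
  base := by
    intro d hd
    have h3 : (K.h5att l1 l2 hbd b0 x h1 h2 q).org d = Sum.inl b0 :=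
      (K.toPC.h5wkC_none (h5attW σ q) h1 h2).head d hd
    rw [h3]
    exact hb

end h5att

theorem h5sum_head_of_ne {D M : Type} [AddCommMonoid M] {l : List D} (hne : l ≠ []) (F : D → M)
    (c : M) (h : ∀ d ∈ l.head?, F d = c) : ∑ d ∈ (l.head?).toFinset, F d = c := by
  cases l with
  | nil => exact absurd rfl hne
  | cons a l =>
    have := h a rfl
    simp [this]

/-- letters of the new complex -/
noncomputable def h5attL (K : SqK σ) (q : Port p n)
    (d : (K.E ⊕ Fin (relw σ q).length) × Bool) : Let p n × Bool :=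
  (Sum.elim K.lab (fun i => (h5attW σ q i).1) d.1, d.2)

theorem h5attL_map (K : SqK σ) (q : Port p n) (l : List (K.E × Bool)) :
    (l.map (PC.h5upC _)).map (h5attL K q) = l.map K.toPC.h5lbl := by
  rw [List.map_map]
  rfl

theorem h5attL_cyc (K : SqK σ) (q : Port p n) :
    (PC.h5cycL (E := K.E) (h5attW σ q)).map (h5attL K q) = relw σ q := by
  unfold PC.h5cycL
  rw [List.map_ofFn]
  exact List.ofFn_getElem

theorem h5attL_cyc_rev (K : SqK σ) (q : Port p n) :
    (((PC.h5cycL (E := K.E) (h5attW σ q)).map rv).reverse).map (h5attL K q) = winv (relw σ q) := by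
  have h := congrArg (List.map (fun a : Let p n × Bool => (a.1, !a.2))) (h5attL_cyc K q)
  rw [List.map_map] at h
  rw [List.map_reverse, List.map_map]
  unfold winv
  rw [← h]
  rfl

theorem h5pos_face {k : ℕ} {z : Chn σ} {W1 W2 : List (Let p n × Bool)} {γ : Gp σ}
    (q : Port p n) (h : h5Pos σ k z W1 W2 γ) :
    h5Pos σ (k + 1) (pch σ γ q + z) (W1 ++ winv (relw σ q)) W2 γ := by
  obtain ⟨K, P, l1, l2, b0, x, hbd, h1, h2, hW1, hW2, hb, hx, hk, hz⟩ := h
  refine ⟨K.h5att l1 l2 hbd b0 x h1 h2 q, K.h5attPot P l1 l2 hbd b0 x h1 h2 q hb,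
    l1.map (PC.h5upC _) ++ ((PC.h5cycL (h5attW σ q)).map rv).reverse, l2.map (PC.h5upC _), Sum.inl b0,
    Sum.inl x, ?_, ?_, ?_, ?_, ?_, hb, hx, ?_, ?_⟩
  · exact (List.append_assoc (l1.map (PC.h5upC _)) ((PC.h5cycL (h5attW σ q)).map rv).reverse
      (l2.map (PC.h5upC _))).symm
  · exact (K.toPC.h5wkC (h5attW σ q) h1).app (K.toPC.h5wk_cycL_rev (h5attW σ q) x)
  · exact K.toPC.h5wkC (h5attW σ q) h2
  · show (l1.map (PC.h5upC _) ++ ((PC.h5cycL (h5attW σ q)).map rv).reverse).map (h5attL K q) = _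
    rw [List.map_append, h5attL_map, h5attL_cyc_rev, hW1]
  · show (l2.map (PC.h5upC _)).map (h5attL K q) = _
    rw [h5attL_map, hW2]
  · show Fintype.card (Option K.F) = k + 1
    rw [Fintype.card_option, hk]
  · rw [← hz]
    unfold SqK.chn
    refine (Fintype.sum_option _).trans ?_
    congr 1
    · refine h5sum_head_of_ne ?_ _ _ ?_
      · exact (K.h5att l1 l2 hbd b0 x h1 h2 q).ne none
      · intro d hd
        have h3 : (K.h5att l1 l2 hbd b0 x h1 h2 q).org d = Sum.inl x :=
          (K.toPC.h5wk_cycL (h5attW σ q) x).head d hd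
        rw [h3, ← hx]
        rfl
    · refine Finset.sum_congr rfl fun f _ => ?_
      exact h5sum_head_map (PC.h5upC _) (K.bd (some f)) _ _ fun d => rfl

theorem h5pos_spurs {k : ℕ} {z : Chn σ} (U : List (Let p n × Bool)) :
    ∀ {W1 W2 : List (Let p n × Bool)} {γ : Gp σ}, h5Pos σ k z W1 W2 γ →
      h5Pos σ k z (W1 ++ U) (winv U ++ W2) (γ * PresentedGroup.mk (rels σ) (val U)) := by
  induction U with
  | nil =>
    intro W1 W2 γ h
    have : PresentedGroup.mk (rels σ) (val ([] : List (Let p n × Bool))) = 1 := map_one _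
    rw [this, mul_one, List.append_nil]
    exact h
  | cons a U ih =>
    intro W1 W2 γ h
    have h1 := ih (h5pos_spur a h)
    rw [List.append_assoc, List.singleton_append, mul_assoc, ← map_mul] at h1
    have e : winv (a :: U) ++ W2 = winv U ++ (a.1, !a.2) :: W2 := by
      simp [winv]
    rw [e]
    exact h1

/-- a complex for an expression, with a marked position at the end of the outer walk -/
theorem h5pos_expr {k : ℕ} {u : FreeGroup (Let p n)} {z : Chn σ} (h : Expr σ k u z) :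
    ∃ W : List (Let p n × Bool), val (winv W) = u ∧ h5Pos σ k z W [] 1 := by
  induction h with
  | nil => exact ⟨[], rfl, h5pos_nil⟩
  | cons k u z v q _ ih =>
    obtain ⟨W, hW, hpos⟩ := ih
    have h1 := h5pos_spurs v.toWord hpos
    have h2 := h5pos_face q h1
    rw [one_mul] at h2
    have hv : val v.toWord = v := FreeGroup.mk_toWord
    rw [hv] at h2
    have h3 := h5pos_moves (winv v.toWord) h2
    refine ⟨W ++ v.toWord ++ winv (relw σ q) ++ winv v.toWord, ?_, ?_⟩
    · have e : ∀ a b : List (Let p n × Bool), winv (a ++ b) = winv b ++ winv a := by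
        intro a b
        simp [winv]
      have e2 : ∀ a : List (Let p n × Bool), winv (winv a) = a := by
        intro a
        simp [winv, List.map_reverse, Function.comp_def]
      rw [e, e, e, e2, e2, h5val_append, h5val_append, h5val_append, hW, hv, h5val_winv, hv]
      group
    · have e3 : PresentedGroup.mk (rels σ) v * PresentedGroup.mk (rels σ) (val (winv v.toWord)) =
          1 := by
        rw [h5val_winv, hv, map_inv, mul_inv_cancel]
      rw [e3] at h3
      exact h3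

/-- (O1)-(O3): a complex whose outer word is an unreduced word of `u`. -/
theorem vk0 {k : ℕ} {u : FreeGroup (Let p n)} {z : Chn σ} (h : Expr σ k u z) :
    ∃ (K : SqK σ) (P : K.GPot), Fintype.card K.F = k ∧ val K.outw = u ∧ K.chn P univ = z := by
  obtain ⟨W, hW, K, P, l1, l2, b0, x, hbd, h1, h2, hW1, hW2, hb, hx, hk, hz⟩ := h5pos_expr h
  refine ⟨K, P, hk, ?_, hz⟩
  have hl2 : l2 = [] := List.map_eq_nil_iff.mp hW2
  rw [← hW, ← hW1]
  unfold SqK.outw PC.wd
  rw [hbd, hl2, List.append_nil]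
  rfl

end Vale.Agent.P201.Z
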