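import Vale.Agent.P201.Z.D.VKDefs

/-!
P201, part D1: assembly of StmtVK from the folding steps (helper250).
-/

namespace Vale.Agent.P201.Z

open Finset

/-- VK0 (O1)-(O3): every expression is realised by a complex (outer word not reduced) -/
def StmtVK0 : Prop :=
  ∀ (p : Pat) (n : ℕ) (σ : Equiv.Perm (Cel p n)) (u : FreeGroup (Let p n)) (k : ℕ) (z : Chn σ),
    Expr σ k u z →
    ∃ (K : SqK σ) (P : K.GPot), Fintype.card K.F = k ∧ val K.outw = u ∧ K.chn P univ = z

private theorem vka_break {α : Type} (R : α → α → Prop) : ∀ l : List α, ¬ l.IsChain R →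
    ∃ l1 a b l2, l = l1 ++ a :: b :: l2 ∧ ¬ R a b := by
  intro l
  induction l with
  | nil => intro h; exact absurd List.isChain_nil h
  | cons a l ih =>
    intro h
    cases l with
    | nil => exact absurd (List.isChain_singleton a) h
    | cons b l =>
      by_cases hab : R a b
      · have : ¬ (b :: l).IsChain R := fun h' => h (List.isChain_cons_cons.2 ⟨hab, h'⟩)
        obtain ⟨l1, c, d, l2, he, hn⟩ := ih this
        exact ⟨a :: l1, c, d, l2, by rw [he]; rfl, hn⟩
      · exact ⟨[], a, b, l, rfl, hab⟩

private theorem vka_winv {A : Type} (l : List (A × Bool)) : winv l = FreeGroup.invRev l := rfl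

theorem stmtVK_of (h0 : StmtVK0) (h3 : StmtVK3) (h4 : StmtVK4) (h5 : StmtVK5) : StmtVK := by
  intro p n σ u k z hE hN
  have key : ∀ m : ℕ, ∀ (K : SqK σ) (P : K.GPot), (K.bd none).length ≤ m →
      NoRed σ (val K.outw) (Fintype.card K.F) (K.chn P univ) →
      ∃ (K' : SqK σ) (P' : K'.GPot), Fintype.card K'.F = Fintype.card K.F ∧
        K'.outw = (val K.outw).toWord ∧ K'.chn P' univ = K.chn P univ := by
    intro m
    induction m with
    | zero =>
      intro K P hm hN
      refine ⟨K, P, rfl, ?_, rfl⟩
      have h1 : K.bd none = [] := List.length_eq_zero_iff.1 (by omega)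
      simp [SqK.outw, PC.wd, h1, winv, val]
    | succ m ih =>
      intro K P hm hN
      by_cases hr : (K.bd none).IsChain (fun d d' => K.lab d.1 = K.lab d'.1 → d.2 = d'.2)
      · refine ⟨K, P, rfl, ?_, rfl⟩
        have h1 : FreeGroup.IsReduced (K.toPC.wd none) := by
          unfold FreeGroup.IsReduced PC.wd
          rw [List.isChain_map]
          exact hr
        have h2 : FreeGroup.reduce K.outw = K.outw := by
          unfold SqK.outw
          rw [vka_winv, FreeGroup.reduce_invRev, h1.reduce_eq]
        unfold val
        rw [FreeGroup.toWord_mk, h2]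
      · obtain ⟨l1, d, d', l2, he, hn⟩ := vka_break _ _ hr
        have hl : K.lab d.1 = K.lab d'.1 := by
          by_contra h
          exact hn (fun h' => absurd h' h)
        have hs : d'.2 = !d.2 := by
          have : d.2 ≠ d'.2 := fun h => hn (fun _ => h)
          revert this
          cases d.2 <;> cases d'.2 <;> simp
        have hF : Folded K P (l1 ++ l2) := by
          by_cases hd : d.1 = d'.1
          · have : d' = rv d := Prod.ext hd.symm hs
            subst this
            exact h3 p n σ K P l1 l2 d he
          · by_cases ho : K.org d = K.org (rv d')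
            · exact absurd hN (h5 p n σ K P l1 l2 d d' he hl hs hd ho)
            · exact h4 p n σ K P l1 l2 d d' he hl hs hd ho
        obtain ⟨K', P', hc, hw, hz⟩ := hF
        have hv : val K'.outw = val K.outw := by
          unfold SqK.outw
          rw [vka_winv, vka_winv]
          unfold val
          rw [← FreeGroup.inv_mk, ← FreeGroup.inv_mk, hw]
          congr 1
          have hwd : K.toPC.wd none = l1.map (fun d => (K.lab d.1, d.2)) ++
              (K.lab d.1, d.2) :: (K.lab d.1, !d.2) :: l2.map (fun d => (K.lab d.1, d.2)) := by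
            unfold PC.wd
            rw [he]
            simp only [List.map_append, List.map_cons]
            rw [hs, hl]
          rw [hwd, List.map_append]
          exact (Quot.sound FreeGroup.Red.Step.not).symm
        have hlen : (K'.bd none).length ≤ m := by
          have e1 : (K'.bd none).length = (K'.toPC.wd none).length := by
            unfold PC.wd; rw [List.length_map]
          rw [e1, hw, List.length_map]
          rw [he] at hm
          simp only [List.length_append, List.length_cons] at hm ⊢
          omega
        obtain ⟨K2, P2, a1, a2, a3⟩ := ih K' P' hlen (by rw [hv, hc, hz]; exact hN)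
        exact ⟨K2, P2, a1.trans hc, by rw [a2, hv], a3.trans hz⟩
  obtain ⟨K, P, hk, hu, hz⟩ := h0 p n σ u k z hE
  obtain ⟨K', P', a1, a2, a3⟩ := key _ K P le_rfl (by rw [hu, hk, hz]; exact hN)
  exact ⟨K', P', a1.trans hk, by rw [a2, hu], a3.trans hz⟩

end Vale.Agent.P201.Z
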