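import Vale.Agent.P201.Z.D.VK0b
import Vale.Agent.P201.Z.D.VKAsm

/-! P201, part D1: StmtVK0. -/

namespace Vale.Agent.P201.Z

theorem stmtVK0 : StmtVK0 := fun _ _ _ _ _ _ h => vk0 h

end Vale.Agent.P201.Z
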