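import Vale.Agent.P201.Z.D.FoldSub
import Vale.Agent.P201.Z.D.VKDefs

/-!
P201, part D1 (VK3): removal of a spur `d, rv d` from the outer face.
-/

namespace Vale.Agent.P201.Z.Fold

open Finset

section top

variable {A : Type} (K : PC A)

theorem vk3_rv_rv {E : Type} (x : E × Bool) : rv (rv x) = x := by
  obtain ⟨e, b⟩ := x
  simp [rv]

theorem vk3_rv_ne {E : Type} (x : E × Bool) : rv x ≠ x := by
  obtain ⟨e, b⟩ := x
  cases b <;> simp [rv]

theorem vk3_eq_or {E : Type} (x d : E × Bool) (h : x.1 = d.1) : x = d ∨ x = rv d := by
  obtain ⟨e, b⟩ := x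
  obtain ⟨e', b'⟩ := d
  simp only at h
  subst h
  cases b <;> cases b' <;> simp [rv]

/-- a dart lies in exactly one list, once -/
theorem vk3_uniq (x : K.E × Bool) (f g : Option K.F) (hf : x ∈ K.bd f) (hg : x ∈ K.bd g) :
    f = g := by
  by_contra hfg
  have h4 := K.once x
  have h5 : 1 ≤ (K.bd f).count x := List.one_le_count_iff.2 hf
  have h6 : 1 ≤ (K.bd g).count x := List.one_le_count_iff.2 hg
  rw [← Finset.add_sum_erase _ _ (Finset.mem_univ f)] at h4
  have h7 : (K.bd g).count x ≤ ∑ f' ∈ univ.erase f, (K.bd f').count x :=
    Finset.single_le_sum (f := fun f' => (K.bd f').count x) (fun _ _ => Nat.zero_le _)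
      (Finset.mem_erase.2 ⟨fun h => hfg h.symm, Finset.mem_univ _⟩)
  omega

theorem vk3_count_le (x : K.E × Bool) (f : Option K.F) : (K.bd f).count x ≤ 1 := by
  rw [← K.once x]
  exact Finset.single_le_sum (f := fun f' => (K.bd f').count x) (fun _ _ => Nat.zero_le _)
    (Finset.mem_univ f)

theorem vk3_face (x : K.E × Bool) : ∃ f, x ∈ K.bd f := by
  by_contra h
  push Not at h
  have h4 := K.once x
  rw [Finset.sum_eq_zero (fun f _ => List.count_eq_zero_of_not_mem (h f))] at h4
  omega

variable {K}

/-- at the end of a spur there is no other dart -/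
theorem vk3_only (d : K.E × Bool) (l1 l2 : List (K.E × Bool))
    (h : K.bd none = l1 ++ d :: rv d :: l2) (x : K.E × Bool) (hx : K.org x = K.org (rv d)) :
    x = rv d := by
  classical
  by_contra hxd
  -- `d`, `rv d` are not in `l1`, `l2`
  have hc1 : (K.bd none).count d ≤ 1 := vk3_count_le K d none
  have hc2 : (K.bd none).count (rv d) ≤ 1 := vk3_count_le K (rv d) none
  rw [h, List.count_append, List.count_cons_self, List.count_cons_of_ne (vk3_rv_ne d)] at hc1
  rw [h, List.count_append, List.count_cons_of_ne (vk3_rv_ne d).symm, List.count_cons_self] at hc2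
  have hd1 : d ∉ l1 := fun hh => by have := List.one_le_count_iff.2 hh; omega
  have hd2 : d ∉ l2 := fun hh => by have := List.one_le_count_iff.2 hh; omega
  have hr1 : rv d ∉ l1 := fun hh => by have := List.one_le_count_iff.2 hh; omega
  have hr2 : rv d ∉ l2 := fun hh => by have := List.one_le_count_iff.2 hh; omega
  have hdn : d ∈ K.bd none := by rw [h]; simp
  have hrn : rv d ∈ K.bd none := by rw [h]; simp
  -- the split complex
  let o : K.E × Bool → Option K.V := fun y => if y = rv d then none else some (K.org y)
  have ho1 : ∀ y, y ≠ rv d → o y = some (K.org y) := fun y hy => if_neg hy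
  have ho2 : o (rv d) = none := if_pos rfl
  have hod : o d = some (K.org d) := ho1 d (vk3_rv_ne d).symm
  have hstep : ∀ a b : K.E × Bool, a ≠ d → b ≠ rv d → K.org b = K.org (rv a) → o b = o (rv a) := by
    intro a b ha hb hab
    rw [ho1 b hb, ho1 (rv a) (fun h => ha (by rw [← vk3_rv_rv a, h, vk3_rv_rv])), hab]
  have hchl : ∀ l : List (K.E × Bool), d ∉ l → rv d ∉ l →
      l.IsChain (fun a b => K.org b = K.org (rv a)) → l.IsChain (fun a b => o b = o (rv a)) := by
    intro l
    induction l with
    | nil => intro _ _ _; exact List.isChain_nil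
    | cons a t ih =>
      intro h1 h2 h3
      cases t with
      | nil => exact List.isChain_singleton _
      | cons b s =>
        rw [List.isChain_cons_cons] at h3 ⊢
        refine ⟨hstep a b ?_ ?_ h3.1, ih ?_ ?_ h3.2⟩
        · rintro rfl; exact h1 (List.mem_cons_self ..)
        · rintro rfl; exact h2 (List.mem_cons_of_mem _ (List.mem_cons_self ..))
        · exact fun hh => h1 (List.mem_cons_of_mem _ hh)
        · exact fun hh => h2 (List.mem_cons_of_mem _ hh)
  have hch : ∀ f, (K.bd f).IsChain (fun a b => o b = o (rv a)) := by
    intro f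
    cases f with
    | some f =>
      refine hchl _ (fun hh => ?_) (fun hh => ?_) (K.chain _)
      · exact absurd (vk3_uniq K d (some f) none hh hdn) (by simp)
      · exact absurd (vk3_uniq K (rv d) (some f) none hh hrn) (by simp)
    | none =>
      have hc := K.chain none
      rw [h] at hc ⊢
      rw [List.isChain_append] at hc ⊢
      obtain ⟨hc1', hc2', hc3'⟩ := hc
      refine ⟨hchl l1 hd1 hr1 hc1', ?_, ?_⟩
      · rw [List.isChain_cons_cons] at hc2' ⊢
        refine ⟨rfl, ?_⟩
        cases l2 with
        | nil => exact List.isChain_singleton _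
        | cons b s =>
          rw [List.isChain_cons_cons] at hc2' ⊢
          refine ⟨hstep (rv d) b (vk3_rv_ne d) (fun hb => hr2 ?_) hc2'.2.1,
            hchl _ hd2 hr2 hc2'.2.2⟩
          rw [← hb]; exact List.mem_cons_self ..
      · intro x' hx' y hy
        have hy' : y = d := by simpa using hy.symm
        subst hy'
        refine hstep x' y (fun hx'd => hd1 ?_) (vk3_rv_ne y).symm (hc3' x' hx' y rfl)
        rw [← hx'd]
        exact List.mem_of_getLast? hx'
  have hcl : ∀ f, ∀ a ∈ (K.bd f).getLast?, ∀ b ∈ (K.bd f).head?, o b = o (rv a) := by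
    intro f a ha b hb
    refine hstep a b ?_ ?_ (K.closed f a ha b hb)
    · rintro rfl
      have h1 := List.mem_of_getLast? ha
      have h2 := vk3_uniq K a f none h1 hdn
      subst h2
      rw [h] at ha
      have h3 : l1 ++ a :: rv a :: l2 = (l1 ++ [a]) ++ (rv a :: l2) := by simp
      rw [h3, List.getLast?_append_of_ne_nil _ (List.cons_ne_nil _ _)] at ha
      have h4 := List.mem_of_getLast? ha
      rcases List.mem_cons.1 h4 with h5 | h5
      · exact vk3_rv_ne a h5.symm
      · exact hd2 h5
    · rintro rfl
      have h1 := List.mem_of_mem_head? hb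
      have h2 := vk3_uniq K (rv d) f none h1 hrn
      subst h2
      rw [h] at hb
      cases l1 with
      | nil =>
        have : rv d = d := by simpa using hb.symm
        exact vk3_rv_ne d this
      | cons b s =>
        have : b = rv d := by simpa using hb
        exact hr1 (by rw [← this]; exact List.mem_cons_self ..)
  let R : Option K.V → Option K.V → Prop := fun a b => ∃ y, o y = a ∧ o (rv y) = b
  have hsym : ∀ a b, R a b → R b a := by
    rintro a b ⟨y, h1, h2⟩
    exact ⟨rv y, h2, by rw [vk3_rv_rv]; exact h1⟩
  have hT : ∀ a b, Relation.ReflTransGen R a b → Relation.ReflTransGen R b a := by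
    intro a b hab
    induction hab with
    | refl => exact Relation.ReflTransGen.refl
    | tail _ h1 ih => exact (Relation.ReflTransGen.single (hsym _ _ h1)).trans ih
  have hnc : ¬ ∀ u v : Option K.V, Relation.ReflTransGen R u v := by
    intro hcon
    have h1 := fold_euler_le o K.bd hch hcl K.once none hcon K.dconn
    rw [Fintype.card_option] at h1
    have h2 := K.euler
    omega
  have hq : ¬ Relation.ReflTransGen R (some (K.org (rv d))) (some (K.org d)) := by
    intro hqp
    apply hnc
    have hall : ∀ v : K.V, Relation.ReflTransGen R (some (K.org d)) (some v) := by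
      intro v
      induction K.conn (K.org d) v with
      | refl => exact Relation.ReflTransGen.refl
      | tail _ hst ih =>
        obtain ⟨y, hya, hyb⟩ := hst
        by_cases hy1 : y = rv d
        · subst hy1
          rw [vk3_rv_rv] at hyb
          rw [← hyb]
        · by_cases hy2 : y = d
          · subst hy2
            rw [← hyb]
            exact hT _ _ hqp
          · refine ih.tail ⟨y, ?_, ?_⟩
            · rw [ho1 y hy1, hya]
            · rw [ho1 (rv y) (fun hh => hy2 (by rw [← vk3_rv_rv y, hh, vk3_rv_rv])), hyb]
    have hall2 : ∀ v : Option K.V, Relation.ReflTransGen R (some (K.org d)) v := by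
      intro v
      cases v with
      | some v => exact hall v
      | none =>
        exact Relation.ReflTransGen.single ⟨d, hod, ho2⟩
    intro u v
    exact (hT _ _ (hall2 u)).trans (hall2 v)
  have hface0 : ∀ (l : List (K.E × Bool)) (a : K.E × Bool),
      (a :: l).IsChain (fun a b => o b = o (rv a)) → ∀ y ∈ a :: l,
      Relation.ReflTransGen R (o a) (o y) := by
    intro l
    induction l with
    | nil =>
      intro a _ y hy
      have : y = a := by simpa using hy
      subst this
      exact Relation.ReflTransGen.refl
    | cons b s ih =>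
      intro a hc y hy
      rw [List.isChain_cons_cons] at hc
      rcases List.mem_cons.1 hy with h1 | h1
      · subst h1; exact Relation.ReflTransGen.refl
      · refine Relation.ReflTransGen.head (b := o b) ⟨a, rfl, hc.1.symm⟩ (ih b hc.2 y h1)
  have hface : ∀ f, ∀ y ∈ K.bd f, ∀ y' ∈ K.bd f, Relation.ReflTransGen R (o y) (o y') := by
    intro f y hy y' hy'
    have hc := hch f
    cases hl : K.bd f with
    | nil => rw [hl] at hy; simp at hy
    | cons a l =>
      rw [hl] at hc hy hy'
      exact (hT _ _ (hface0 l a hc y hy)).trans (hface0 l a hc y' hy')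
  obtain ⟨f0, hf0⟩ := vk3_face K x
  have hcc : ∀ f, Relation.ReflTransGen (fun a b => ∃ d, d ∈ K.bd a ∧ rv d ∈ K.bd b) f0 f →
      ∀ y ∈ K.bd f, Relation.ReflTransGen R (some (K.org (rv d))) (o y) := by
    intro f hf
    induction hf with
    | refl =>
      intro y hy
      have h1 := hface f0 x hf0 y hy
      rwa [ho1 x hxd, hx] at h1
    | tail _ hst ih =>
      obtain ⟨y, hya, hyb⟩ := hst
      intro y' hy'
      exact ((ih y hya).tail ⟨y, rfl, rfl⟩).trans (hface _ (rv y) hyb y' hy')
  apply hq
  have h1 := hcc none (K.dconn f0 none) d hdn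
  rwa [hod] at h1

/-- face lists with the two darts removed from the outer face -/
def vk3B (K : PC A) (l1 l2 : List (K.E × Bool)) : Option K.F → List (K.E × Bool)
  | none => l1 ++ l2
  | some f => K.bd (some f)

theorem vk3_data (d : K.E × Bool) (l1 l2 : List (K.E × Bool))
    (h : K.bd none = l1 ++ d :: rv d :: l2) :
    SubData K (K.org (rv d)) d.1 K.org (vk3B K l1 l2) := by
  classical
  have honly := vk3_only d l1 l2 h
  have hpq : K.org d ≠ K.org (rv d) := fun hh => vk3_rv_ne d (honly d hh).symm
  have hc1 : (K.bd none).count d ≤ 1 := vk3_count_le K d none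
  have hc2 : (K.bd none).count (rv d) ≤ 1 := vk3_count_le K (rv d) none
  rw [h, List.count_append, List.count_cons_self, List.count_cons_of_ne (vk3_rv_ne d)] at hc1
  rw [h, List.count_append, List.count_cons_of_ne (vk3_rv_ne d).symm, List.count_cons_self] at hc2
  have hd1 : d ∉ l1 := fun hh => by have := List.one_le_count_iff.2 hh; omega
  have hd2 : d ∉ l2 := fun hh => by have := List.one_le_count_iff.2 hh; omega
  have hr1 : rv d ∉ l1 := fun hh => by have := List.one_le_count_iff.2 hh; omega
  have hr2 : rv d ∉ l2 := fun hh => by have := List.one_le_count_iff.2 hh; omega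
  have hdn : d ∈ K.bd none := by rw [h]; simp
  have hrn : rv d ∈ K.bd none := by rw [h]; simp
  have hB : ∀ f, ∀ x ∈ vk3B K l1 l2 f, x.1 ≠ d.1 := by
    intro f x hx hxd
    rcases vk3_eq_or x d hxd with rfl | rfl
    · cases f with
      | none =>
        rcases List.mem_append.1 hx with h1 | h1
        · exact hd1 h1
        · exact hd2 h1
      | some f => exact absurd (vk3_uniq K _ _ _ hx hdn) (by simp)
    · cases f with
      | none =>
        rcases List.mem_append.1 hx with h1 | h1
        · exact hr1 h1
        · exact hr2 h1
      | some f => exact absurd (vk3_uniq K _ _ _ hx hrn) (by simp)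
  have hmem : ∀ f, ∀ x ∈ K.bd f, x.1 ≠ d.1 → x ∈ vk3B K l1 l2 f := by
    intro f x hx hxd
    cases f with
    | none =>
      rw [h] at hx
      show x ∈ l1 ++ l2
      rcases List.mem_append.1 hx with h1 | h1
      · exact List.mem_append.2 (Or.inl h1)
      · rcases List.mem_cons.1 h1 with h2 | h2
        · exact absurd (by rw [h2]) hxd
        · rcases List.mem_cons.1 h2 with h3 | h3
          · exact absurd (by rw [h3]; rfl) hxd
          · exact List.mem_append.2 (Or.inr h3)
    | some f => exact hx
  have hch := K.chain none
  rw [h, List.isChain_append, List.isChain_cons_cons] at hch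
  obtain ⟨hch1, ⟨hch2, hch3⟩, hch4⟩ := hch
  have hl2c : l2.IsChain (fun a b => K.org b = K.org (rv a)) := by
    cases l2 with
    | nil => exact List.isChain_nil
    | cons b s => exact (List.isChain_cons_cons.1 hch3).2
  have hl2h : ∀ b ∈ l2.head?, K.org b = K.org d := by
    intro b hb
    cases l2 with
    | nil => simp at hb
    | cons c s =>
      have hbc : c = b := by simpa using hb
      subst hbc
      have h1 := (List.isChain_cons_cons.1 hch3).1
      rwa [vk3_rv_rv] at h1
  have hl1l : ∀ a ∈ l1.getLast?, K.org d = K.org (rv a) := fun a ha => hch4 a ha d rfl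
  refine ⟨?_, hB, ?_, ?_, ?_, ?_, ?_, ?_⟩
  · intro x hx hxd
    rw [honly x hxd] at hx
    exact hx rfl
  · intro f
    cases f with
    | some f => exact K.chain _
    | none =>
      show (l1 ++ l2).IsChain _
      rw [List.isChain_append]
      exact ⟨hch1, hl2c, fun a ha b hb => (hl2h b hb).trans (hl1l a ha)⟩
  · intro f
    cases f with
    | some f => exact K.closed _
    | none =>
      intro a ha b hb
      change a ∈ (l1 ++ l2).getLast? at ha
      change b ∈ (l1 ++ l2).head? at hb
      have hcl := K.closed none
      rw [h] at hcl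
      cases l2 with
      | nil =>
        rw [List.append_nil] at ha hb
        have h1 : ((l1 ++ [d, rv d]).getLast?) = some (rv d) := by
          rw [List.getLast?_append_of_ne_nil _ (List.cons_ne_nil _ _)]; rfl
        have h2 : b ∈ (l1 ++ [d, rv d]).head? := by
          cases l1 with
          | nil => simp at hb
          | cons c s => simpa using hb
        have h3 := hcl (rv d) h1 b h2
        rw [vk3_rv_rv] at h3
        exact h3.trans (hl1l a ha)
      | cons c s =>
        have h1 : (l1 ++ c :: s).getLast? = (c :: s).getLast? :=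
          List.getLast?_append_of_ne_nil _ (List.cons_ne_nil _ _)
        rw [h1] at ha
        have h2 : a ∈ (l1 ++ d :: rv d :: c :: s).getLast? := by
          rw [List.getLast?_append_of_ne_nil _ (List.cons_ne_nil _ _)]
          simpa using ha
        cases l1 with
        | nil =>
          have h3 := hcl a h2 d rfl
          exact (hl2h b (by simpa using hb)).trans h3
        | cons c' s' =>
          have h4 : b ∈ ((c' :: s') ++ d :: rv d :: c :: s).head? := by simpa using hb
          exact hcl a h2 b h4
  · intro x hx
    rw [← K.once x]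
    refine Finset.sum_congr rfl fun f _ => ?_
    cases f with
    | some f => rfl
    | none =>
      have h1 : x ≠ d := fun hh => hx (by rw [hh])
      have h2 : x ≠ rv d := fun hh => hx (by rw [hh]; rfl)
      rw [h]
      show (l1 ++ l2).count x = _
      rw [List.count_append, List.count_append, List.count_cons_of_ne h1.symm,
        List.count_cons_of_ne h2.symm]
  · exact fun f => K.ne f
  · intro u v hu hv
    let r : K.V → K.V := fun w => if w = K.org (rv d) then K.org d else w
    have hr1' : ∀ w, w ≠ K.org (rv d) → r w = w := fun w hw => if_neg hw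
    have hr2' : r (K.org (rv d)) = K.org d := if_pos rfl
    have key : ∀ w, Relation.ReflTransGen (fun a b => ∃ d, K.org d = a ∧ K.org (rv d) = b) u w →
        Relation.ReflTransGen (fun a b => ∃ x : K.E × Bool, x.1 ≠ d.1 ∧ K.org x = a ∧
          K.org (rv x) = b) (r u) (r w) := by
      intro w hw
      induction hw with
      | refl => exact Relation.ReflTransGen.refl
      | tail _ hst ih =>
        obtain ⟨y, hya, hyb⟩ := hst
        by_cases hy : y.1 = d.1
        · rcases vk3_eq_or y d hy with rfl | rfl
          · rw [← hya, hr1' _ hpq] at ih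
            rw [← hyb, hr2']
            exact ih
          · rw [vk3_rv_rv] at hyb
            rw [← hya, hr2'] at ih
            rw [← hyb, hr1' _ hpq]
            exact ih
        · refine ih.tail ⟨y, hy, ?_, ?_⟩
          · rw [← hya, hr1' _ (fun hh => hy (by rw [honly y hh]; rfl))]
          · rw [← hyb, hr1' _ (fun hh => hy (by
              have := honly (rv y) hh
              have h2 : (rv y).1 = (rv d).1 := by rw [this]
              exact h2))]
    have := key v (K.conn u v)
    rwa [hr1' u hu, hr1' v hv] at this
  · intro f g
    have hdc := K.dconn f g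
    induction hdc with
    | refl => exact Relation.ReflTransGen.refl
    | tail _ hst ih =>
      obtain ⟨y, hya, hyb⟩ := hst
      by_cases hy : y.1 = d.1
      · rcases vk3_eq_or y d hy with rfl | rfl
        · have h1 := vk3_uniq K _ _ _ hya hdn
          have h2 := vk3_uniq K _ _ _ hyb hrn
          rw [h1] at ih
          rw [h2]
          exact ih
        · rw [vk3_rv_rv] at hyb
          have h1 := vk3_uniq K _ _ _ hya hrn
          have h2 := vk3_uniq K _ _ _ hyb hdn
          rw [h1] at ih
          rw [h2]
          exact ih
      · exact ih.tail ⟨y, hmem _ y hya hy, hmem _ (rv y) hyb hy⟩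

end top

section sq

variable {p : Pat} {n : ℕ} {σ : Equiv.Perm (Cel p n)}

/-- VK3 in terms of complexes of squares -/
theorem vk3_main (K : SqK σ) (P : K.GPot) (l1 l2 : List (K.E × Bool)) (d : K.E × Bool)
    (h : K.bd none = l1 ++ d :: rv d :: l2) :
    ∃ (K' : SqK σ) (P' : K'.GPot), Fintype.card K'.F = Fintype.card K.F ∧
      K'.toPC.wd none = (l1 ++ l2).map (fun x => (K.lab x.1, x.2)) ∧
      K'.chn P' univ = K.chn P univ := by
  refine subSq K P (vk3_data (K := K.toPC) d l1 l2 h) (fun f => rfl) (fun x _ => P.st x) ?_
    (fun f => rfl)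
  intro x hx
  change x ∈ (l1 ++ l2).head? at hx
  cases l1 with
  | cons c s =>
    refine P.base x ?_
    rw [h]
    simpa using hx
  | nil =>
    have h1 : P.π (K.org d) = 1 := P.base d (by rw [h]; rfl)
    cases l2 with
    | nil => simp at hx
    | cons b s =>
      have hb : b = x := by simpa using hx
      subst hb
      have hch := K.chain none
      rw [h, List.nil_append, List.isChain_cons_cons, List.isChain_cons_cons, vk3_rv_rv] at hch
      rw [hch.2.1]
      exact h1

end sq

end Vale.Agent.P201.Z.Fold

namespace Vale.Agent.P201.Z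

/-- VK3: removal of a spur from the outer face -/
theorem stmtVK3 : StmtVK3 := fun _ _ _ K P l1 l2 d h => Fold.vk3_main K P l1 l2 d h

end Vale.Agent.P201.Z
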