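import Vale.Agent.P201.Z.D.VKDefs
import Vale.Agent.P201.Z.D.FoldB

/-!
P201, D1: VK4 (helper109).
-/

namespace Vale.Agent.P201.Z

theorem vk4 : StmtVK4 := by
  intro p n σ K P l1 l2 d d' h hl hs hne hp
  exact fb_fold_ne K P d d' l1 l2 h hne hl hs hp

end Vale.Agent.P201.Z
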