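import Vale.Agent.P201.Z.PC

/-!
P201, D1: elementary operations on planar complexes, part 1 (helper848): paths, the spur.
-/

namespace Vale.Agent.P201.Z

open Finset

/-! ### Paths of darts -/

/-- `l` is a path of darts from `a` to `b` -/
inductive VPth {V E : Type} (o : E × Bool → V) : V → List (E × Bool) → V → Prop
  | nil (a : V) : VPth o a [] a
  | cons (d : E × Bool) (l : List (E × Bool)) (b : V) : VPth o (o (rv d)) l b → VPth o (o d) (d :: l) b

theorem vrv_rv {E : Type} (d : E × Bool) : rv (rv d) = d := by
  unfold rv
  rw [Bool.not_not]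

theorem vrv_inj {E : Type} {d d' : E × Bool} (h : rv d = rv d') : d = d' := by
  rw [← vrv_rv d, h, vrv_rv]

theorem vrv_ne {E : Type} (d : E × Bool) : rv d ≠ d := by
  intro h
  have h1 : (!d.2) = d.2 := congrArg Prod.snd h
  exact Bool.not_ne_self d.2 h1

namespace VPth

variable {V E : Type} {o : E × Bool → V}

theorem nil_iff {a b : V} : VPth o a [] b ↔ a = b := by
  constructor
  · intro h
    cases h
    rfl
  · rintro rfl
    exact nil a

theorem cons_iff {a b : V} {d : E × Bool} {l : List (E × Bool)} :
    VPth o a (d :: l) b ↔ o d = a ∧ VPth o (o (rv d)) l b := by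
  constructor
  · intro h
    cases h with
    | cons _ _ _ h => exact ⟨rfl, h⟩
  · rintro ⟨rfl, h⟩
    exact cons d l b h

theorem append_iff {a b : V} {l1 l2 : List (E × Bool)} :
    VPth o a (l1 ++ l2) b ↔ ∃ c, VPth o a l1 c ∧ VPth o c l2 b := by
  induction l1 generalizing a with
  | nil =>
    rw [List.nil_append]
    constructor
    · intro h
      exact ⟨a, nil a, h⟩
    · rintro ⟨c, h1, h2⟩
      rw [nil_iff] at h1
      rwa [h1]
  | cons d l ih =>
    rw [List.cons_append, cons_iff, ih]
    constructor
    · rintro ⟨h1, c, h2, h3⟩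
      exact ⟨c, cons_iff.2 ⟨h1, h2⟩, h3⟩
    · rintro ⟨c, h1, h3⟩
      obtain ⟨h1, h2⟩ := cons_iff.1 h1
      exact ⟨h1, c, h2, h3⟩

theorem append {a b c : V} {l1 l2 : List (E × Bool)} (h1 : VPth o a l1 b) (h2 : VPth o b l2 c) :
    VPth o a (l1 ++ l2) c := append_iff.2 ⟨b, h1, h2⟩

theorem single (d : E × Bool) : VPth o (o d) [d] (o (rv d)) := cons d [] _ (nil _)

/-- the ends are determined (nonempty lists) -/
theorem head {a b : V} {l : List (E × Bool)} (h : VPth o a l b) : ∀ d ∈ l.head?, o d = a := by
  cases h with
  | nil => intro d hd; exact absurd hd (by simp)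
  | cons d l b h =>
    intro d' hd'
    rw [List.head?_cons, Option.mem_some_iff] at hd'
    rw [← hd']

theorem last {a b : V} {l : List (E × Bool)} (h : VPth o a l b) :
    ∀ d ∈ l.getLast?, o (rv d) = b := by
  induction h with
  | nil => intro d hd; exact absurd hd (by simp)
  | cons d l b h ih =>
    intro d' hd'
    cases l with
    | nil =>
      rw [List.getLast?_singleton, Option.mem_some_iff] at hd'
      rw [nil_iff] at h
      rw [← hd', h]
    | cons e l =>
      rw [List.getLast?_cons_cons] at hd'
      exact ih d' hd'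

theorem chain {a b : V} {l : List (E × Bool)} (h : VPth o a l b) :
    l.IsChain (fun a b => o b = o (rv a)) := by
  induction h with
  | nil => exact List.isChain_nil
  | cons d l b h ih =>
    cases l with
    | nil => exact List.isChain_singleton _
    | cons e l =>
      rw [List.isChain_cons_cons]
      exact ⟨(cons_iff.1 h).1, ih⟩

/-- from the chain condition -/
theorem of_chain {d : E × Bool} {l : List (E × Bool)}
    (h : (d :: l).IsChain (fun a b => o b = o (rv a))) {b : V}
    (hb : ∀ a ∈ (d :: l).getLast?, o (rv a) = b) : VPth o (o d) (d :: l) b := by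
  induction l generalizing d with
  | nil =>
    have h1 := hb d (by simp)
    rw [← h1]
    exact single d
  | cons e l ih =>
    rw [List.isChain_cons_cons] at h
    rw [cons_iff]
    refine ⟨rfl, ?_⟩
    rw [← h.1]
    apply ih h.2
    rwa [List.getLast?_cons_cons] at hb

theorem map {V' E' : Type} {o' : E' × Bool → V'} {j : V → V'} {i : E × Bool → E' × Bool}
    (hi : ∀ d, i (rv d) = rv (i d)) (ho : ∀ d, o' (i d) = j (o d)) {a b : V}
    {l : List (E × Bool)} (h : VPth o a l b) : VPth o' (j a) (l.map i) (j b) := by
  induction h with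
  | nil a => exact nil _
  | cons d l b h ih =>
    rw [List.map_cons, cons_iff]
    refine ⟨ho d, ?_⟩
    rw [← hi, ho]
    exact ih

/-- closed paths satisfy the conditions of `PC` -/
theorem closed {a : V} {l : List (E × Bool)} (h : VPth o a l a) :
    ∀ x ∈ l.getLast?, ∀ y ∈ l.head?, o y = o (rv x) := by
  intro x hx y hy
  rw [h.head y hy, h.last x hx]

end VPth

namespace PC

variable {A : Type} (K : PC A)

/-- every nonempty face boundary is a closed path -/
theorem exists_vpth' (f : Option K.F) (hf : K.bd f ≠ []) : ∃ a, VPth K.org a (K.bd f) a := by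
  obtain ⟨d, l, h⟩ := List.exists_cons_of_ne_nil hf
  refine ⟨K.org d, ?_⟩
  have h1 := K.chain f
  have h2 := K.closed f
  rw [h] at h1 h2 ⊢
  apply VPth.of_chain h1
  intro a ha
  exact (h2 a ha d (by simp)).symm

/-- the word of a list of darts -/
def vwl (l : List (K.E × Bool)) : List (A × Bool) := l.map (fun d => (K.lab d.1, d.2))

/-- old darts in the complex with one more edge -/
def vdsome {E : Type} (d : E × Bool) : Option E × Bool := (some d.1, d.2)

theorem vdsome_rv {E : Type} (d : E × Bool) : vdsome (rv d) = rv (vdsome d) := rfl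

theorem vdsome_inj {E : Type} : Function.Injective (vdsome (E := E)) := by
  intro a b h
  have h1 := congrArg Prod.fst h
  have h2 := congrArg Prod.snd h
  exact Prod.ext (Option.some_inj.1 h1) h2

theorem vdsome_ne {E : Type} (d : E × Bool) (b : Bool) : vdsome d ≠ (none, b) := by
  intro h
  have h1 := congrArg Prod.fst h
  exact Option.some_ne_none _ h1

theorem count_vdsome {E : Type} [DecidableEq E] (l : List (E × Bool)) (d : E × Bool) :
    (l.map vdsome).count (vdsome d) = l.count d :=
  List.count_map_of_injective l vdsome vdsome_inj d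

theorem count_vdnone {E : Type} [DecidableEq E] (l : List (E × Bool)) (b : Bool) :
    (l.map vdsome).count ((none, b) : Option E × Bool) = 0 := by
  rw [List.count_eq_zero]
  intro h
  obtain ⟨d, _, hd⟩ := List.mem_map.1 h
  exact vdsome_ne d b hd

end PC

end Vale.Agent.P201.Z
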